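import Vale.Agent.P281Z.Pk.Glue
import Vale.Agent.P281Z.Mf.Adapt

/-!
# P281Z, the canonical bundle formula: Jacobians of product charts
-/

open scoped Manifold ContDiff Topology ENNReal
open Set Filter MeasureTheory Function
open Vale.Agent.P272.K Vale.Agent.P285.H281.FD
open Vale.Agent.P277Z (Hol at_chart hol_const)
open Vale.Agent.P281Z.Hg (PC IsPC fdet)
open Vale.Agent.P281.H152.K (IsProd)

set_option linter.unusedSectionVars false

noncomputable section

namespace Vale.Agent.P281Z.Pk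

namespace Mg

variable {n w e m : ℕ}

/-! ### Linear algebra -/

variable (w e) in
/-- the product of two coordinate spaces -/
def apL : (Cm w × Cm e) ≃L[ℂ] Cm (w + e) :=
  LinearEquiv.toContinuousLinearEquiv
    { Fin.appendEquiv w e with
      map_add' := fun a b => funext fun i => by
        refine Fin.addCases (fun j => ?_) (fun j => ?_) i <;> simp
      map_smul' := fun c a => funext fun i => by
        refine Fin.addCases (fun j => ?_) (fun j => ?_) i <;> simp }

theorem apL_eq : (apL w e).toHomeomorph = Fin.appendHomeomorph w e := Homeomorph.ext fun _ => rfl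

theorem apL_pres : MeasurePreserving (Fin.appendHomeomorph (X := ℂ) w e).symm :=
  (volume_measurePreserving_sumPiEquivProdPi fun _ : Fin w ⊕ Fin e => ℂ).comp
    (volume_measurePreserving_piCongrLeft (fun _ => ℂ) finSumFinEquiv).symm

theorem det_jmat {τ : Cm n → Cm n} {z : Cm n} (h : DifferentiableAt ℂ τ z) :
    (jmat τ z).det = (fderiv ℂ τ z).det := by
  rw [ContinuousLinearMap.det, ← LinearMap.det_toMatrix']
  congr 1
  ext p i
  simp [jmat_apply h]

theorem det_tri (L : (Cm w × Cm e) →L[ℂ] Cm w × Cm e) (A : Cm w →L[ℂ] Cm w) (B : Cm e →L[ℂ] Cm e)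
    (hA : ∀ v, (L v).1 = A v.1) (hB : ∀ z, (L (0, z)).2 = B z) : L.det = A.det * B.det := by
  rw [ContinuousLinearMap.det, ← LinearMap.det_toMatrix ((Pi.basisFun ℂ _).prod (Pi.basisFun ℂ _)),
    ← Matrix.fromBlocks_toBlocks (LinearMap.toMatrix _ _ _),
    show Matrix.toBlocks₁₂ _ = 0 from ?_, Matrix.det_fromBlocks_zero₁₂, ContinuousLinearMap.det,
    ContinuousLinearMap.det, ← LinearMap.det_toMatrix', ← LinearMap.det_toMatrix']
  · congr 2 <;> ext a b
    · simp [Matrix.toBlocks₁₁, LinearMap.toMatrix_apply, hA]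
    · simp [Matrix.toBlocks₂₂, LinearMap.toMatrix_apply, hB]
  · ext a b
    simp [Matrix.toBlocks₁₂, LinearMap.toMatrix_apply, hA]

/-- the Jacobian determinant of a map which preserves the fibres -/
theorem det_blk {Ψ : Cm w × Cm e → Cm w × Cm e} {φ : Cm w → Cm w} {v : Cm w × Cm e}
    (hΨ : DifferentiableAt ℂ Ψ v) (hφ : DifferentiableAt ℂ φ v.1)
    (h : ∀ᶠ v' in 𝓝 v, (Ψ v').1 = φ v'.1) :
    (fderiv ℂ (fun u => apL w e (Ψ ((apL w e).symm u))) (apL w e v)).det =
      (fderiv ℂ φ v.1).det * (fderiv ℂ (fun z => (Ψ (v.1, z)).2) v.2).det := by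
  have h1 : HasFDerivAt Ψ (fderiv ℂ Ψ v) ((apL w e).symm (apL w e v)) := by
    rw [ContinuousLinearEquiv.symm_apply_apply]
    exact hΨ.hasFDerivAt
  have h2 := ((apL w e).hasFDerivAt.comp _ (h1.comp _ (apL w e).symm.hasFDerivAt)).fderiv
  have h3 := hΨ.hasFDerivAt.fst.unique
    ((hφ.hasFDerivAt.comp v hasFDerivAt_fst).congr_of_eventuallyEq h)
  have h4 := (hΨ.hasFDerivAt.comp (f := fun z => (v.1, z)) v.2
    (hasFDerivAt_prodMk_right v.1 v.2)).snd.fderiv
  refine (congrArg _ h2).trans ((LinearMap.det_conj (fderiv ℂ Ψ v).toLinearMap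
    (apL w e).toLinearEquiv).trans (det_tri _ _ _ (fun u => DFunLike.congr_fun h3 u) fun z => ?_))
  exact (DFunLike.congr_fun h4 z).symm

theorem en_pow (hm : 0 < m) (a b : ℂ) :
    ‖b ^ m * a‖ₑ ^ (2 / m : ℝ) = ‖b‖ₑ ^ 2 * ‖a‖ₑ ^ (2 / m : ℝ) := by
  rw [enorm_mul, enorm_pow, ENNReal.mul_rpow_of_nonneg _ _ (by positivity), ← ENNReal.rpow_natCast,
    ← ENNReal.rpow_mul, mul_div_cancel₀ _ (Nat.cast_ne_zero.2 hm.ne'), ENNReal.rpow_two]

/-! ### Holomorphic coordinates -/

section co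

variable {X : Type} [TopologicalSpace X] [ChartedSpace (Cm n) X] [IsManifold 𝓘(ℂ, Cm n) ω X]
  {a b c : Chart n X} {x : X} {t : Chart n X → X → ℂ} {O : Set X}

theorem co_an {E E' : Type} [NormedAddCommGroup E] [NormedSpace ℂ E] [NormedAddCommGroup E']
    [NormedSpace ℂ E'] {a : OpenPartialHomeomorph X E} {F : X → E'} (ha : Co n a)
    (hx : x ∈ a.source) (hF : AnV n F x) : AnalyticAt ℂ (fun z => F (a.symm z)) (a x) := by
  have he := at_chart (n := n) x
  have k : AnalyticAt ℂ (fun z => F ((chartAt (Cm n) x).symm z))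
      (chartAt (Cm n) x (a.symm (a x))) := by
    rw [a.left_inv hx]
    exact hF _ he
  have he' : At (chartAt (Cm n) x) (a.symm (a x)) := (a.left_inv hx).symm ▸ he
  refine (k.fun_comp (f := fun z => chartAt (Cm n) x (a.symm z))
    (ha.inv _ (a.map_source hx) _ he')).congr ?_
  filter_upwards [(a.continuousAt_symm (a.map_source hx)).eventually (at_near he')] with z hz
  rw [hz.left_inv]

theorem jd_eq (ha : Co n a) (hb : Co n b) (hx : x ∈ a.source) (hx' : x ∈ b.source) :
    (jacM a b x).det = (fderiv ℂ (fun z => b (a.symm z)) (a x)).det :=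
  det_jmat (co_an ha hx (hb.an x hx')).differentiableAt

theorem jd_self (ha : Co n a) (hx : x ∈ a.source) : (jacM a a x).det = 1 := by
  rw [jd_eq ha ha hx hx, Filter.EventuallyEq.fderiv_eq (f := id)
    (a.eventually_right_inverse' hx), fderiv_id]
  exact LinearMap.det_id

theorem jd_mul (ha : Co n a) (hb : Co n b) (hc : Co n c) (h1 : x ∈ a.source) (h2 : x ∈ b.source)
    (h3 : x ∈ c.source) : (jacM a c x).det = (jacM a b x).det * (jacM b c x).det := by
  have k : DifferentiableAt ℂ (fun z => c (b.symm z)) (b (a.symm (a x))) := by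
    rw [a.left_inv h1]
    exact (co_an hb h2 (hc.an x h3)).differentiableAt
  have e : (fun z => c (a.symm z)) =ᶠ[𝓝 (a x)] (fun z => c (b.symm z)) ∘ fun z => b (a.symm z) := by
    filter_upwards [(a.continuousAt_symm (a.map_source h1)).eventually
      (b.open_source.mem_nhds (by rwa [a.left_inv h1]))] with z hz
    simp only [comp_apply, b.left_inv hz]
  rw [jd_eq ha hc h1 h3, jd_eq ha hb h1 h2, jd_eq hb hc h2 h3, e.fderiv_eq,
    fderiv_comp (f := fun z => b (a.symm z)) (a x) k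
      (co_an ha h1 (hb.an x h2)).differentiableAt, a.left_inv h1, mul_comm]
  exact LinearMap.det_comp _ _

theorem jd_ne (ha : Co n a) (hb : Co n b) (h1 : x ∈ a.source) (h2 : x ∈ b.source) :
    (jacM a b x).det ≠ 0 :=
  left_ne_zero_of_mul_eq_one ((jd_mul ha hb ha h1 h2 h1).symm.trans (jd_self ha h1))

theorem jd_hol (ha : Co n a) (hb : Co n b) (h1 : x ∈ a.source) (h2 : x ∈ b.source) :
    Hol n (fun y => (jacM a b y).det) x := hol_det fun p i => by
  have k := co_an ha h1 (hb.an x h2)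
  refine (((ha.an x h1).cmp (G := fun z => fderiv ℂ (fun z => b (a.symm z)) z (Pi.single i 1))
    (((ContinuousLinearMap.apply ℂ (Cm n) (Pi.single i 1 : Cm n)).analyticAt _).fun_comp
      k.fderiv)).hol p).congr ?_
  filter_upwards [(a.continuousAt h1).eventually k.eventually_analyticAt] with y hy
  rw [jacM_eq, jmat_apply hy.differentiableAt]

/-- the coefficient of `t` in the coordinates `a` -/
def tc (m : ℕ) (t : Chart n X → X → ℂ) (a : Chart n X) (x : X) : ℂ :=
  (jacM a (chartAt (Cm n) x) x).det ^ m * t (chartAt (Cm n) x) x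

theorem tc_chg (ha : Co n a) (hb : Co n b) (h1 : x ∈ a.source) (h2 : x ∈ b.source) :
    tc m t a x = (jacM a b x).det ^ m * tc m t b x := by
  rw [tc, tc, jd_mul ha hb (co_chart (at_chart x).1) h1 h2 (at_chart x).2, mul_pow, mul_assoc]

theorem tc_eq (ht : ∀ c c', At c x → At c' x → t c x = (jacM c c' x).det ^ m * t c' x)
    (ha : Co n a) (h1 : x ∈ a.source) (hc : At c x) : tc m t a x = (jacM a c x).det ^ m * t c x := by
  rw [tc_chg ha (co_chart hc.1) h1 hc.2, tc, ← ht _ _ hc (at_chart x)]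

theorem tc_hol (ht : ∀ᶠ y in 𝓝 x, ∀ c c', At c y → At c' y → t c y = (jacM c c' y).det ^ m * t c' y)
    (hh : Hol n (t (chartAt (Cm n) x)) x) (ha : Co n a) (h1 : x ∈ a.source) :
    Hol n (tc m t a) x := by
  have hc := at_chart (n := n) x
  refine (((jd_hol ha (co_chart hc.1) h1 hc.2).pow m).mul hh).congr ?_
  filter_upwards [ht, a.open_source.mem_nhds h1, at_near hc] with y k1 k2 k3
    using (tc_eq k1 ha k2 k3).symm

theorem par_ch (a : Chart n X) : Par univ a.source a.target a.symm a :=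
  ⟨a.open_source, a.open_target, a.continuousOn_symm,
    fun _ h => ⟨trivial, a.map_target h, a.right_inv h⟩, fun _ _ h => ⟨a.map_source h, a.left_inv h⟩⟩

end co

/-! ### Product charts -/

variable {X Y : Type} [TopologicalSpace X] [ChartedSpace (Cm (w + e)) X]
  [IsManifold 𝓘(ℂ, Cm (w + e)) ω X] [TopologicalSpace Y] [ChartedSpace (Cm w) Y]
  [IsManifold 𝓘(ℂ, Cm w) ω Y] {g : X → Y} {q q' : PC w e X Y} {x : X} {y : Y} {χ : Chart w Y}

theorem pc_co (hq : IsPC g q) : Co (w + e) q.2 :=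
  ⟨fun x hx c hc => (contMDiffAt_iff_contDiffAt.1 (ContMDiffAt.comp (c x) (g := q.2)
      (by rw [hc.left_inv]; exact hq.2.hol.contMDiffAt (q.2.open_source.mem_nhds hx))
      (chart_symm_contMDiffAt hc.1 hc.mem_target))).analyticAt,
    fun v hv c hc => (contMDiffAt_iff_contDiffAt.1 (ContMDiffAt.comp v (g := c)
      (chart_contMDiffAt hc) (hq.2.symm_hol.contMDiffAt (q.2.open_target.mem_nhds hv)))).analyticAt⟩

theorem pc_of_co (h : Co (w + e) q.2) (h1 : q.1 ∈ atlas (Cm w) Y)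
    (h2 : ∀ x ∈ q.2.source, g x ∈ q.1.source ∧ (q.2 x).1 = q.1 (g x)) : IsPC g q := by
  refine ⟨h1, h2, fun x hx => ContMDiffAt.contMDiffWithinAt ?_,
    fun v hv => ContMDiffAt.contMDiffWithinAt ?_⟩
  · have hc := at_chart (n := w + e) x
    refine (ContMDiffAt.comp x (g := fun z => q.2 ((chartAt (Cm (w + e)) x).symm z))
      (contMDiffAt_iff_contDiffAt.2 (h.an x hx _ hc).contDiffAt)
      (chart_contMDiffAt hc)).congr_of_eventuallyEq ?_
    filter_upwards [at_near hc] with z hz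
    rw [comp_apply, hz.left_inv]
  · have hc := at_chart (n := w + e) (q.2.symm v)
    refine (ContMDiffAt.comp v (f := fun v' => chartAt (Cm (w + e)) (q.2.symm v) (q.2.symm v'))
      (chart_symm_contMDiffAt hc.1 hc.mem_target)
      (contMDiffAt_iff_contDiffAt.2 (h.inv v hv _ hc).contDiffAt)).congr_of_eventuallyEq ?_
    filter_upwards [(q.2.continuousAt_symm hv).eventually (at_near hc)] with z hz
    rw [comp_apply, hz.left_inv]

/-- product charts exist -/
theorem ex_pc (hg : HolA (w + e) w g x) (hs : Sbm (w + e) w g x) (hχ : At χ (g x)) {U : Set X}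
    (hU : U ∈ 𝓝 x) : ∃ q : PC w e X Y, IsPC g q ∧ q.1 = χ ∧ x ∈ q.2.source ∧ q.2.source ⊆ U := by
  obtain ⟨Θ, h1, h2, h3, h4⟩ := exists_co ((sbm_iff_ind hg hχ).1 hs) (d := e) (by simp)
    (inter_mem hU (hg.cont.eventually (at_near hχ)))
  exact ⟨(χ, Θ), pc_of_co h1 hχ.1 fun z hz => ⟨(h3 hz).2.2, h4 z hz⟩, rfl, h2,
    fun z hz => (h3 hz).1⟩

theorem pc_at (hq : IsPC g q) (hx : x ∈ q.2.source) : At q.1 (g x) := ⟨hq.1, (hq.2.fst x hx).1⟩

theorem pc_eq (hq : IsPC g q) (hx : x ∈ q.2.source) : (q.1 (g x), (q.2 x).2) = q.2 x :=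
  Prod.ext (hq.2.fst x hx).2.symm rfl

theorem pc_fib (hq : IsPC g q) (hy : y ∈ q.1.source) {z : Cm e} (hz : (q.1 y, z) ∈ q.2.target) :
    g (q.2.symm (q.1 y, z)) = y := by
  obtain ⟨h1, h2⟩ := hq.2.fst _ (q.2.map_target hz)
  rw [q.2.right_inv hz] at h2
  exact (q.1.injOn hy h1 h2).symm

theorem par_pc (hq : IsPC g q) (hy : y ∈ q.1.source) : Par (g ⁻¹' {y}) q.2.source
    {z | (q.1 y, z) ∈ q.2.target} (fun z => q.2.symm (q.1 y, z)) fun x => (q.2 x).2 :=
  ⟨q.2.open_source, q.2.open_target.preimage (Continuous.prodMk_right _),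
    q.2.continuousOn_symm.comp (Continuous.prodMk_right _).continuousOn fun _ h => h,
    fun z h => ⟨pc_fib hq hy h, q.2.map_target h, by simp only [q.2.right_inv h]⟩,
    fun x (h : g x = y) k => by
      subst h
      rw [mem_ofPred_eq, pc_eq hq k]
      exact ⟨q.2.map_source k, q.2.left_inv k⟩⟩

/-- a function which is holomorphic on `X` is holomorphic in the fibre coordinates -/
theorem sl_an {E : Type} [NormedAddCommGroup E] [NormedSpace ℂ E] {F : X → E} (hq : IsPC g q)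
    (hx : x ∈ q.2.source) (hF : AnV (w + e) F x) :
    AnalyticAt ℂ (fun z => F (q.2.symm ((q.2 x).1, z))) (q.2 x).2 :=
  (co_an (pc_co hq) hx hF).fun_comp (f := fun z => ((q.2 x).1, z))
    (analyticAt_const.prod analyticAt_id)

theorem fdet_eq (hq : IsPC g q) (hq' : IsPC g q') (hx : x ∈ q.2.source) (hx' : x ∈ q'.2.source) :
    fdet q q' x = (fderiv ℂ (fun z => (q'.2 (q.2.symm ((q.2 x).1, z))).2) (q.2 x).2).det :=
  det_jmat (analyticAt_snd.fun_comp (sl_an hq hx ((pc_co hq').an x hx'))).differentiableAt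

end Mg

open Mg

variable {w e m : ℕ} {X : Mf (w + e)} {W : Mf w} {g : X.X → W.X} {q q' : PC w e X.X W.X} {x : X.X}
  {χ : Chart w W.X} {t : Chart (w + e) X.X → X.X → ℂ}

theorem qc_co (hq : IsPC g q) : Co (w + e) (qc q) := by
  rw [qc, ← apL_eq]
  exact (pc_co hq).trans _

theorem jd_qc (hq : IsPC g q) (hq' : IsPC g q') (hx : x ∈ q.2.source) (hx' : x ∈ q'.2.source) :
    (jacM (qc q) (qc q') x).det = (jacM q.1 q'.1 (g x)).det * fdet q q' x := by
  have a := pc_at hq hx
  have a' := pc_at hq' hx'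
  rw [jd_eq (qc_co hq) (qc_co hq') hx hx', jd_eq (co_chart a.1) (co_chart a'.1) a.2 a'.2,
    fdet_eq hq hq' hx hx', ← (hq.2.fst x hx).2]
  refine det_blk (Ψ := fun v => q'.2 (q.2.symm v)) (φ := fun z => q'.1 (q.1.symm z)) (v := q.2 x)
    (co_an (pc_co hq) hx ((pc_co hq').an x hx')).differentiableAt ?_ ?_
  · rw [(hq.2.fst x hx).2]
    exact (P277Z.trans_an a' a).differentiableAt
  · filter_upwards [q.2.open_target.mem_nhds (q.2.map_source hx),
      (q.2.continuousAt_symm (q.2.map_source hx)).eventually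
        (q'.2.open_source.mem_nhds (by rwa [q.2.left_inv hx]))] with v k k'
    obtain ⟨b1, b2⟩ := hq.2.fst _ (q.2.map_target k)
    rw [q.2.right_inv k] at b2
    rw [(hq'.2.fst _ k').2, b2, q.1.left_inv b1]

theorem rl_tc : rl m χ g t q x = (jacM χ q.1 (g x)).det ^ m * tc m t (qc q) x := by
  rw [rl, tc]
  ring

/-- `rl` can be computed in any chart -/
theorem rl_eq (ht : ∀ c c', At c x → At c' x → t c x = (jacM c c' x).det ^ m * t c' x)
    (hq : IsPC g q) (hx : x ∈ q.2.source) {c : Chart (w + e) X.X} (hc : At c x) :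
    rl m χ g t q x = t c x * ((jacM (qc q) c x).det * (jacM χ q.1 (g x)).det) ^ m := by
  rw [rl_tc, tc_eq ht (qc_co hq) hx hc]
  ring

/-- the cocycle -/
theorem rl_chg (hq : IsPC g q) (hq' : IsPC g q') (hx : x ∈ q.2.source) (hx' : x ∈ q'.2.source)
    (hχ : At χ (g x)) : rl m χ g t q x = fdet q q' x ^ m * rl m χ g t q' x := by
  have a := pc_at hq hx
  have a' := pc_at hq' hx'
  rw [rl_tc, rl_tc, tc_chg (qc_co hq) (qc_co hq') hx hx', jd_qc hq hq' hx hx',
    jd_mul (co_chart hχ.1) (co_chart a.1) (co_chart a'.1) hχ.2 a.2 a'.2]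
  ring

theorem rl_hol (hg : HolA (w + e) w g x)
    (ht : ∀ᶠ y in 𝓝 x, ∀ c c', At c y → At c' y → t c y = (jacM c c' y).det ^ m * t c' y)
    (hh : Hol (w + e) (t (chartAt (Cm (w + e)) x)) x) (hq : IsPC g q) (hx : x ∈ q.2.source)
    (hχ : At χ (g x)) : Hol (w + e) (rl m χ g t q) x := by
  rw [show rl m χ g t q = _ from funext fun _ => rl_tc]
  exact ((hg.hol (jd_hol (co_chart hχ.1) (co_chart hq.1) hχ.2 (pc_at hq hx).2)).pow m).mul
    (tc_hol ht hh (qc_co hq) hx)

theorem rl_ne (hq : IsPC g q) (hx : x ∈ q.2.source) (hχ : At χ (g x)) :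
    rl m χ g t q x ≠ 0 ↔ t (chartAt (Cm (w + e)) x) x ≠ 0 :=
  mul_ne_zero_iff_right (pow_ne_zero _ (mul_ne_zero
    (jd_ne (qc_co hq) (co_chart (at_chart x).1) hx (at_chart x).2)
    (jd_ne (co_chart hχ.1) (co_chart hq.1) hχ.2 (pc_at hq hx).2)))

end Vale.Agent.P281Z.Pk
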