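import Vale.Agent.P281Z.Pk.Rl

/-!
# P281Z, the canonical bundle formula: the measures, the theorem of Fubini
-/

open scoped Manifold ContDiff Topology ENNReal
open Set Filter MeasureTheory Function
open Vale.Agent.P272.K Vale.Agent.P285.H281.FD
open Vale.Agent.P277Z (Hol at_chart hol_const)
open Vale.Agent.P281Z.Hg (PC IsPC fdet)

noncomputable section

namespace Vale.Agent.P281Z.Pk

open Mg

section gen

variable {n : ℕ} {V : Mf n}

theorem Mg.meas_ind {A : Type} [TopologicalSpace A] [MeasurableSpace A] [BorelSpace A] {O : Set A}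
    (hO : IsOpen O) {F : A → ℂ} (h : ∀ x ∈ O, ContinuousAt F x) (r : ℝ) :
    Measurable (O.indicator fun x => ‖F x‖ₑ ^ r) := by
  classical
  rw [← piecewise_eq_indicator]
  exact ContinuousOn.measurable_piecewise (fun x hx => (ENNReal.continuous_rpow_const.continuousAt.comp
    (h x hx).enorm).continuousWithinAt) continuousOn_const hO.measurableSet

theorem isDm_uniq {D : Chart n V.X → V.X → ℝ≥0∞} {μ μ' : Measure V.X} (h : IsDm D μ)
    (h' : IsDm D μ') : μ = μ' :=
  uniq (S := univ) (V := fun c : atlas (Cm n) V.X => c.1.source) (fun c => c.1.open_source)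
    (fun x _ => mem_iUnion.2 ⟨⟨_, (at_chart x).1⟩, (at_chart x).2⟩) (by simp) (by simp)
    fun c f a b => (h c c.2 f a b).trans (h' c c.2 f a b).symm

theorem dm_eq {D : Chart n V.X → V.X → ℝ≥0∞} {μ : Measure V.X} (h : IsDm D μ) : dm D = μ := by
  have k : ∃ μ, IsDm D μ := ⟨μ, h⟩
  rw [dm, dif_pos k]
  exact isDm_uniq k.choose_spec h

/-- the measure of a pluricanonical form, in all holomorphic coordinates -/
theorem dm_co {m : ℕ} (hm : 0 < m) {O : Set V.X} (hO : IsOpen O) {t : Chart n V.X → V.X → ℂ}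
    (h1 : ∀ c, ∀ x ∈ O, At c x → Hol n (t c) x)
    (h2 : ∀ c c', ∀ x ∈ O, At c x → At c' x → t c x = (jacM c c' x).det ^ m * t c' x) :
    IsDm (tm m O t) (dm (tm m O t)) ∧ dm (tm m O t) Oᶜ = 0 ∧ ∀ a, Co n a →
      ∀ f : V.X → ℝ≥0∞, Measurable f → (∀ x ∉ a.source, f x = 0) → ∫⁻ x, f x ∂dm (tm m O t) =
        ∫⁻ z in a.target, f (a.symm z) * tm m O (tc m t) a (a.symm z) := by
  have k : ∀ a : {a : Chart n V.X // Co n a}, ∃ ν : Measure V.X, ∀ f : V.X → ℝ≥0∞, Measurable f →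
      ∫⁻ x, f x ∂ν = ∫⁻ z in a.1.target, f (a.1.symm z) * tm m O (tc m t) a (a.1.symm z) :=
    fun a => (par_ch a.1).loc (((meas_ind (hO.inter a.1.open_source) (F := tc m t a) (fun x hx =>
      (tc_hol ((hO.eventually_mem hx.1).mono fun y hy c c' => h2 c c' y hy)
        (h1 _ x hx.1 (at_chart x)) a.2 hx.2).cont) (2 / m)).comp_aemeasurable
      (a.1.continuousOn_symm.aemeasurable a.1.open_target.measurableSet)).congr
      ((ae_restrict_mem a.1.open_target.measurableSet).mono fun z hz => by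
        by_cases e : a.1.symm z ∈ O <;> simp [tm, e, a.1.map_target hz]))
  choose ν hν using k
  obtain ⟨μ, a1, a2⟩ := Mg.glue (S := O) (fun a : {a : Chart n V.X // Co n a} => a.1.open_source) ν
    (fun a => by
      rw [← lintegral_indicator_one hO.measurableSet.compl,
        hν a _ (measurable_one.indicator hO.measurableSet.compl)]
      refine (lintegral_congr fun z => ?_).trans lintegral_zero
      by_cases e : a.1.symm z ∈ O <;> simp [tm, e])
    fun a b f hf ha hb => by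
      rw [hν a f hf, hν b f hf]
      refine (par_ch a.1).chg (par_ch b.1) (fun _ _ _ => Iff.rfl)
        (F := fun x => f x * tm m O (tc m t) a x) (F' := fun x => f x * tm m O (tc m t) b x)
        (fun z hz hz' => ?_) (fun x _ e => by simp [hb x e]) fun x _ e => by simp [ha x e]
      have e := co_an a.2 (a.1.map_target hz) (b.2.an _ hz')
      have e' := jd_eq a.2 b.2 (a.1.map_target hz) hz'
      rw [a.1.right_inv hz] at e e'
      refine ⟨e, ?_⟩
      rw [← e', mul_left_comm]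
      by_cases e : a.1.symm z ∈ O
      · simp only [tm, indicator_of_mem e]
        rw [tc_chg a.2 b.2 (a.1.map_target hz) hz', en_pow hm]
      · simp [tm, e]
  have a3 : IsDm (tm m O t) μ := fun c hc f hf h0 => by
    rw [a2 ⟨c, co_chart hc⟩ f hf h0, hν _ f hf]
    refine setLIntegral_congr_fun c.open_target.measurableSet fun z hz => ?_
    have hz' := At.of_target hc hz
    by_cases e : c.symm z ∈ O
    · simp only [tm, indicator_of_mem e, tc, ← h2 _ _ _ e hz' (at_chart _)]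
    · simp [tm, e]
  rw [dm_eq a3]
  exact ⟨a3, a1, fun a ha f hf h0 => (a2 ⟨a, ha⟩ f hf h0).trans (hν _ f hf)⟩

variable {w e : ℕ} {X : Mf (w + e)} {W : Mf w} {g : X.X → W.X} {y : W.X}
  {D : PC w e X.X W.X → X.X → ℝ≥0∞}

theorem isFm_uniq (hc : ∀ x, g x = y → ∃ q : PC w e X.X W.X, IsPC g q ∧ x ∈ q.2.source)
    {μ μ' : Measure X.X} (h : IsFm g y D μ) (h' : IsFm g y D μ') : μ = μ' :=
  uniq (V := fun q : {q : PC w e X.X W.X // IsPC g q ∧ y ∈ q.1.source} => q.1.2.source)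
    (fun q => q.1.2.open_source) (fun x hx =>
      let ⟨q, a, b⟩ := hc x hx
      mem_iUnion.2 ⟨⟨q, a, (show g x = y from hx) ▸ (pc_at a b).2⟩, b⟩) h.1 h'.1
    fun q f a b => (h.2 q q.2.1 q.2.2 f a b).trans (h'.2 q q.2.1 q.2.2 f a b).symm

theorem fm_eq (hc : ∀ x, g x = y → ∃ q : PC w e X.X W.X, IsPC g q ∧ x ∈ q.2.source)
    {μ : Measure X.X} (h : IsFm g y D μ) : fm g y D = μ := by
  have k : ∃ μ, IsFm g y D μ := ⟨μ, h⟩
  rw [fm, dif_pos k]
  exact isFm_uniq hc k.choose_spec h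

/-- existence of the measure on a fibre -/
theorem isFm_ex (hg : Continuous g) {O : Set X.X} (hO : MeasurableSet O)
    (h0 : ∀ q, ∀ x ∉ O, D q x = 0)
    (h1 : ∀ q, IsPC g q → y ∈ q.1.source → AEMeasurable (fun z => D q (q.2.symm (q.1 y, z)))
      (volume.restrict {z | (q.1 y, z) ∈ q.2.target}))
    (h2 : ∀ q q' x, IsPC g q → IsPC g q' → x ∈ q.2.source → x ∈ q'.2.source → g x = y →
      D q x = ‖fdet q q' x‖ₑ ^ 2 * D q' x) : ∃ μ, IsFm g y D μ ∧ μ (g ⁻¹' {y} ∩ O)ᶜ = 0 := by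
  choose ν hν using fun q : {q : PC w e X.X W.X // IsPC g q ∧ y ∈ q.1.source} =>
    (par_pc q.2.1 q.2.2).loc (h1 q q.2.1 q.2.2)
  have hS : MeasurableSet (g ⁻¹' {y} ∩ O)ᶜ :=
    ((isClosed_singleton.preimage hg).measurableSet.inter hO).compl
  obtain ⟨μ, a1, a2⟩ := Mg.glue (S := g ⁻¹' {y} ∩ O)
    (fun q : {q : PC w e X.X W.X // IsPC g q ∧ y ∈ q.1.source} => q.1.2.open_source) ν
    (fun q => by
      rw [← lintegral_indicator_one hS, hν q _ (measurable_one.indicator hS)]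
      refine (setLIntegral_congr_fun (par_pc q.2.1 q.2.2).oT.measurableSet
        fun z hz => ?_).trans lintegral_zero
      by_cases e : q.1.2.symm (q.1.1 y, z) ∈ O
      · simp [e, pc_fib q.2.1 q.2.2 hz]
      · simp [h0 _ _ e])
    fun q q' f hf ha hb => by
      rw [hν q f hf, hν q' f hf]
      refine (par_pc q.2.1 q.2.2).chg (par_pc q'.2.1 q'.2.2) (fun _ _ _ => Iff.rfl)
        (F := fun x => f x * D q x) (F' := fun x => f x * D q' x)
        (fun z hz hz' => ?_) (fun x _ e => by simp [hb x e]) fun x _ e => by simp [ha x e]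
      have k := q.1.2.map_target hz
      have e := analyticAt_snd.fun_comp (sl_an q.2.1 k ((pc_co q'.2.1).an _ hz'))
      have e' := fdet_eq q.2.1 q'.2.1 k hz'
      rw [q.1.2.right_inv hz] at e e'
      refine ⟨e, ?_⟩
      rw [← e', mul_left_comm, h2 _ _ _ q.2.1 q'.2.1 k hz' (pc_fib q.2.1 q.2.2 hz)]
  exact ⟨μ, ⟨measure_mono_null (compl_subset_compl.2 inter_subset_left) a1,
    fun q a b f hf h => (a2 ⟨q, a, b⟩ f hf h).trans (hν _ f hf)⟩, a1⟩

end gen

namespace Et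

variable {w e m : ℕ} {B : Bs w} {E : Et B e m} (h : E.Geo) {i : B.l.ι} {y : B.W.X}
  {q : PC w e E.X.X B.W.X} {x : E.X.X}

include h

theorem Geo.oU (i : B.l.ι) : IsOpen (B.l.U i \ E.Q) := (h.base.lb.isOpen i).sdiff h.thin.closed

theorem Geo.oO (i : B.l.ι) : IsOpen (E.O i) :=
  (((h.base.lb.isOpen i).sdiff h.thin₀.closed).preimage h.hol.cont).inter (snc_open_off h.snc)

theorem Geo.pc (hx : E.g x ∈ B.l.U i) (hQ : E.g x ∉ E.Q) {U : Set E.X.X} (hU : U ∈ 𝓝 x) :
    ∃ q : PC w e E.X.X B.W.X, IsPC E.g q ∧ q.1 = B.ch i ∧ x ∈ q.2.source ∧ q.2.source ⊆ U :=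
  ex_pc (h.hol.at x) ((h.reg _ hQ).sbm h.hol h.snc rfl) (h.base.ch i _ hx) hU

theorem Geo.rlh (hx : x ∈ E.O i) (hq : IsPC E.g q) (hx' : x ∈ q.2.source) :
    Hol (w + e) (rl m (B.ch i) E.g (E.t i) q) x :=
  rl_hol (h.hol.at x) (((h.oO i).eventually_mem hx).mono fun y hy c c' => h.tchg i c c' y hy)
    (h.thol i _ x hx (at_chart x)) hq hx' (h.base.ch i _ hx.1.1)

theorem Geo.meas (i : B.l.ι) (hq : IsPC E.g q) :
    Measurable (q.2.source.indicator (fmm m (E.O i) (B.ch i) E.g (E.t i) q)) := by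
  rw [fmm, indicator_indicator]
  exact meas_ind (q.2.open_source.inter (h.oO i)) (fun x hx => (h.rlh hx.2 hq hx.1).cont) _

theorem Geo.nu (hy : y ∈ B.l.U i) (hQ : y ∉ E.Q) :
    IsFm E.g y (fmm m (E.O i) (B.ch i) E.g (E.t i)) (E.ν i y) ∧
      E.ν i y (E.g ⁻¹' {y} ∩ E.O i)ᶜ = 0 := by
  obtain ⟨μ, a, b⟩ := isFm_ex (y := y) (D := fmm m (E.O i) (B.ch i) E.g (E.t i)) h.hol.cont
    (h.oO i).measurableSet (fun q x hx => indicator_of_notMem hx _)
    (fun q a b => (((h.meas i a).comp_aemeasurable ((par_pc a b).cont.aemeasurable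
      (par_pc a b).oT.measurableSet)).congr ((ae_restrict_mem (par_pc a b).oT.measurableSet).mono
        fun z hz => indicator_of_mem (q.2.map_target hz) _)))
    fun q q' x a b c d k => by
      by_cases e : x ∈ E.O i
      · simp only [fmm, indicator_of_mem e]
        rw [rl_chg a b c d (h.base.ch i _ e.1.1), en_pow h.pos]
      · simp [fmm, e]
  rw [ν, fm_eq (fun x hx => let ⟨q, k1, _, k2, _⟩ := h.pc (hx ▸ hy) (hx ▸ hQ) univ_mem
    ⟨q, k1, k2⟩) a]
  exact ⟨a, b⟩

theorem Geo.mu (i : B.l.ι) : IsDm (tm m (E.O i ∩ E.g ⁻¹' E.Qᶜ) (E.t i)) (E.μ i) ∧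
    E.μ i (E.O i ∩ E.g ⁻¹' E.Qᶜ)ᶜ = 0 ∧ ∀ a, Co (w + e) a →
      ∀ f : E.X.X → ℝ≥0∞, Measurable f → (∀ x ∉ a.source, f x = 0) → ∫⁻ x, f x ∂E.μ i =
        ∫⁻ z in a.target, f (a.symm z) *
          tm m (E.O i ∩ E.g ⁻¹' E.Qᶜ) (tc m (E.t i)) a (a.symm z) :=
  dm_co h.pos ((h.oO i).inter (h.thin.closed.isOpen_compl.preimage h.hol.cont))
    (fun c x hx => h.thol i c x hx.1) fun c c' x hx => h.tchg i c c' x hx.1

end Et

/-- **NU** -/
theorem nu : NU := fun w e m B E h i y hy hQ => by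
  obtain ⟨h1, h2⟩ := h.nu hy hQ
  refine ⟨h1, sfin h2 ?_⟩
  rintro x ⟨hx, hO⟩
  obtain rfl : E.g x = y := hx
  obtain ⟨q, a1, -, a2, -⟩ := h.pc hy hQ univ_mem
  have c : ContinuousAt (fun x => ‖rl m (B.ch i) E.g (E.t i) q x‖ₑ ^ (2 / m : ℝ)) x :=
    ENNReal.continuous_rpow_const.continuousAt.comp (h.rlh hO a1 a2).cont.enorm
  have hC : ‖rl m (B.ch i) E.g (E.t i) q x‖ₑ ^ (2 / m : ℝ) ≠ ⊤ :=
    ENNReal.rpow_ne_top_of_nonneg (by positivity) enorm_ne_top
  obtain ⟨N, b1, b2, b3⟩ := _root_.eventually_nhds_iff.1 ((c.eventually (gt_mem_nhds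
    (ENNReal.lt_add_right hC one_ne_zero))).and (((q.2.continuousAt a2).snd.eventually
      (Metric.ball_mem_nhds _ one_pos)).and (q.2.open_source.eventually_mem a2)))
  refine ⟨N, b2.mem_nhds b3, ?_⟩
  have hT := (par_pc a1 (pc_at a1 a2).2).oT.measurableSet
  rw [← lintegral_indicator_one b2.measurableSet, h1.2 q a1 (pc_at a1 a2).2 _
    (measurable_one.indicator b2.measurableSet) fun z hz =>
      indicator_of_notMem (fun k => hz (b1 z k).2.2) _]
  refine lt_of_le_of_lt (setLIntegral_mono' hT (g := (Metric.ball (q.2 x).2 1).indicator fun _ =>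
    ‖rl m (B.ch i) E.g (E.t i) q x‖ₑ ^ (2 / m : ℝ) + 1) fun z hz => ?_)
    ((setLIntegral_le_lintegral _ _).trans_lt ?_)
  · by_cases k : q.2.symm (q.1 (E.g x), z) ∈ N
    · have k' := (b1 _ k).2.1
      rw [q.2.right_inv hz] at k'
      rw [indicator_of_mem k, indicator_of_mem (show z ∈ Metric.ball (q.2 x).2 1 from k'), Pi.one_apply, one_mul]
      exact (indicator_le_self _ _ _).trans (b1 _ k).1.le
    · simp [k]
  · rw [lintegral_indicator_const measurableSet_ball]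
    exact ENNReal.mul_lt_top (ENNReal.add_lt_top.2 ⟨hC.lt_top, ENNReal.one_lt_top⟩)
      measure_ball_lt_top

/-- **MU** -/
theorem mu : MU := fun _ _ _ _ _ h i => (h.mu i).1

/-- **FUB** -/
theorem fub : FUB := fun w e m B E h i f hf => by
  classical
  set U := B.l.U i \ E.Q
  set χ := B.ch i
  have hU : ∀ y ∈ U, y ∈ χ.source := fun y hy => (h.base.ch i y hy.1).2
  have hUm : MeasurableSet U := (h.oU i).measurableSet
  obtain ⟨J, A, h1, h2, h3, h4, h5⟩ := part (V := fun q : {q : PC w e E.X.X B.W.X //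
    IsPC E.g q ∧ q.1 = χ ∧ q.2.source ⊆ E.g ⁻¹' U} => q.1.2.source) fun q => q.1.2.open_source
  have := h1.to_subtype
  have h6 : ∀ x, E.g x ∈ U → x ∈ ⋃ j, A j := fun x hx =>
    let ⟨q, a, b, c, d⟩ := h.pc hx.1 hx.2 (((h.oU i).preimage h.hol.cont).mem_nhds hx)
    h5 ▸ mem_iUnion.2 ⟨⟨q, a, b, d⟩, c⟩
  let D : J → E.X.X → ℝ≥0∞ := fun j x => (A j).indicator f x * fmm m (E.O i) χ E.g (E.t i) j.1.1 x
  let F : J → Cm w × Cm e → ℝ≥0∞ := fun j => j.1.1.2.target.indicator fun v => D j (j.1.1.2.symm v)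
  have hA : ∀ j, ∀ x ∉ j.1.1.2.source, (A j).indicator f x = 0 := fun j x hx =>
    indicator_of_notMem (mt (h3 j ·) hx) _
  have hF : ∀ j, Measurable (F j) := fun j => by
    have k := ((hf.indicator (h2 j)).mul (h.meas i j.1.2.1)).comp
      (j.1.1.2.continuousOn_symm.measurable_piecewise (g := fun _ => j.1.1.2.symm 0)
        continuousOn_const j.1.1.2.open_target.measurableSet)
    refine (show _ = F j from funext fun v => ?_) ▸ k.indicator j.1.1.2.open_target.measurableSet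
    by_cases e : v ∈ j.1.1.2.target
    · simp [F, D, e, j.1.1.2.map_target e, χ]
    · simp [F, e]
  have hG : ∀ j, Measurable fun a => ∫⁻ z, F j (a, z) := fun j => (hF j).lintegral_prod_right'
  have h7 : ∀ y ∈ U, ∫⁻ x, f x ∂E.ν i y = ∑' j, ∫⁻ z, F j (χ y, z) := fun y hy => by
    obtain ⟨a1, a2⟩ := (h.nu hy.1 hy.2).1
    rw [lint_part h2 h4 (Eventually.mono (show ∀ᵐ x ∂E.ν i y, x ∈ E.g ⁻¹' {y} from
      mem_ae_iff.2 a1) fun x b c => (c (h6 x ((show E.g x = y from b) ▸ hy))).elim)]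
    refine tsum_congr fun j => ?_
    have b : y ∈ j.1.1.1.source := by rw [j.1.2.2.1]; exact hU y hy
    rw [a2 _ j.1.2.1 b _ (hf.indicator (h2 j)) (hA j),
      ← lintegral_indicator (par_pc j.1.2.1 b).oT.measurableSet,
      show χ y = j.1.1.1 y by rw [j.1.2.2.1]]
    rfl
  refine ⟨?_, ?_⟩
  · have k0 : Measurable fun a => ∑' j, ∫⁻ z, F j (a, z) := Measurable.tsum hG
    have k := (k0.comp ((χ.continuousOn.mono hU).measurable_piecewise
      (g := fun _ => 0) continuousOn_const hUm)).indicator hUm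
    refine (show _ = U.indicator fun y => ∫⁻ x, f x ∂E.ν i y from funext fun y => ?_) ▸ k
    by_cases e : y ∈ U
    · simp [e, h7 y e]
    · simp [e]
  have hT : MeasurableSet (χ.target ∩ χ.symm ⁻¹' U) :=
    (χ.continuousOn_symm.isOpen_inter_preimage χ.open_target (h.oU i)).measurableSet
  obtain ⟨-, a1, a2⟩ := h.mu i
  rw [setLIntegral_congr_fun hT fun z hz => by rw [h7 _ hz.2, χ.right_inv hz.1],
    lintegral_tsum fun j => (hG j).aemeasurable,
    lint_part h2 h4 (Eventually.mono (show ∀ᵐ x ∂E.μ i, x ∈ E.O i ∩ E.g ⁻¹' E.Qᶜ from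
      mem_ae_iff.2 a1) fun x b c => (c (h6 x ⟨b.1.1.1, b.2⟩)).elim)]
  refine tsum_congr fun j => ?_
  obtain ⟨b1, b2, b3⟩ := j.1.2
  rw [a2 _ (qc_co b1) _ (hf.indicator (h2 j)) (hA j), ← lint_sub .univ hT (subset_univ _),
    Measure.restrict_univ, ← lintegral_prod _ (hF j).aemeasurable, ← Measure.volume_eq_prod,
    lintegral_indicator j.1.1.2.open_target.measurableSet,
    ← apL_pres.setLIntegral_comp_preimage_emb
      (Fin.appendHomeomorph (X := ℂ) w e).symm.measurableEmbedding]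
  · refine setLIntegral_congr_fun (qc j.1.1).open_target.measurableSet fun z hz => ?_
    have k := (qc j.1.1).map_target hz
    refine congrArg _ ?_
    change tm _ _ _ _ ((qc j.1.1).symm z) = fmm _ _ _ _ _ _ ((qc j.1.1).symm z)
    generalize (qc j.1.1).symm z = x at k
    have k' := b3 k
    by_cases e : x ∈ E.O i
    · rw [tm, fmm, indicator_of_mem e, indicator_of_mem (show x ∈ _ ∩ _ from ⟨e, k'.2⟩), rl_tc, b2,
        jd_self (co_chart (h.base.ch i _ k'.1).1) (hU _ k'), one_pow, one_mul]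
    · simp [tm, fmm, e]
  · refine fun a _ ha => (lintegral_congr fun z => indicator_of_notMem (fun k => ha ?_) _).trans
      lintegral_zero
    have k1 := j.1.1.2.map_target k
    have k2 := (b1.2.fst _ k1).2
    rw [j.1.1.2.right_inv k, b2] at k2
    generalize j.1.1.2.symm (a, z) = x at k1 k2
    obtain rfl : a = _ := k2
    exact ⟨χ.map_source (hU _ (b3 k1)), by
      rw [mem_preimage, χ.left_inv (hU _ (b3 k1))]; exact b3 k1⟩

end Vale.Agent.P281Z.Pk
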