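import Vale.Agent.P281Z.Pk.Sk
import Vale.Agent.P281Z.Nt.Conv
import Vale.Agent.P281Z.Mf.Fib
import Vale.Agent.P271.H879.Null

/-!
# P281Z: big open subsets of the fibres
-/

open scoped Manifold ContDiff Topology ENNReal
open Set Filter MeasureTheory Metric
open Vale.Agent.P272.K Vale.Agent.P285.H281.FD
open Vale.Agent.P277Z (Hol Nz at_chart)
open Vale.Agent.P277Z.Slc (LEq Snc)
open Vale.Agent.P281Z.Hg (PC IsPC)

noncomputable section

namespace Vale.Agent.P281Z.Pk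

section pc

variable {w e : ℕ} {X : Mf (w + e)} {W : Mf w} {g : X.X → W.X} {q : PC w e X.X W.X} {x : X.X}
  {y : W.X}

/-- product charts exist -/
theorem pc_ex (hg : HolM (w + e) w g) (hs : Sbm (w + e) w g x) :
    ∃ q : PC w e X.X W.X, IsPC g q ∧ x ∈ q.2.source :=
  let ⟨c, h1, h2⟩ := P281.H152.K.exists_prodChart hg (chart_mem_atlas (Cm w) (g x))
    (mem_chart_source _ _) ((Nt.sbm_iff (hg.at x)).1 hs)
  ⟨(_, c), ⟨chart_mem_atlas _ _, h2⟩, h1⟩

theorem pc_eq (hq : IsPC g q) (hx : x ∈ q.2.source) (hy : g x = y) :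
    (q.1 y, (q.2 x).2) = q.2 x := Prod.ext (hy ▸ (hq.2.fst x hx).2.symm) rfl

theorem pc_fib (hq : IsPC g q) (hy : y ∈ q.1.source) {z : Cm e} (hz : (q.1 y, z) ∈ q.2.target) :
    g (q.2.symm (q.1 y, z)) = y := by
  obtain ⟨a, b⟩ := hq.2.fst _ (q.2.map_target hz)
  rw [q.2.right_inv hz] at b
  exact q.1.injOn a hy b.symm

theorem pc_hol (hq : IsPC g q) (hx : x ∈ q.2.source) {h : X.X → ℂ} (hh : Hol (w + e) h x) :
    AnalyticAt ℂ (fun z => h (q.2.symm z)) (q.2 x) :=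
  (contMDiffAt_iff_contDiffAt.1 (ContMDiffAt.comp_of_eq (Nt.hol_iff.1 hh)
    (hq.2.symm_hol.contMDiffAt (q.2.open_target.mem_nhds (q.2.map_source hx)))
    (q.2.left_inv hx))).analyticAt

/-- holomorphic functions are holomorphic along the fibres -/
theorem FH.of_hol {h : X.X → ℂ} (hh : Hol (w + e) h x) : FH g h x := fun _ hq hx =>
  (pc_hol hq hx hh).comp_of_eq (analyticAt_const.prod analyticAt_id) rfl

theorem pc_tend (hq : IsPC g q) (hx : x ∈ q.2.source) (hy : g x = y) :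
    Tendsto (fun z => q.2.symm (q.1 y, z)) (𝓝 (q.2 x).2) (𝓝 x) :=
  (q.2.tendsto_symm hx).comp (pc_eq hq hx hy ▸ (Continuous.prodMk_right (q.1 y)).tendsto _)

theorem pc_freq (hq : IsPC g q) (hx : x ∈ q.2.source) {P : X.X → Prop}
    (h : ∃ᶠ x' in 𝓝 x, g x' = y ∧ P x') : ∃ᶠ z in 𝓝 (q.2 x).2, P (q.2.symm (q.1 y, z)) :=
  (continuousAt_snd.comp (q.2.continuousAt hx)).tendsto.frequently
    ((h.and_eventually (q.2.open_source.mem_nhds hx)).mono fun x' k => by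
      rw [Function.comp, pc_eq hq k.2 k.1.1, q.2.left_inv k.2]
      exact k.1.2)

/-- the complement of a big set is null -/
theorem IsFm.null {D} {μ : Measure X.X} (h : IsFm g y D μ) (hg : HolM (w + e) w g)
    (hs : ∀ x, g x = y → Sbm (w + e) w g x) {O : Set X.X} (hO : IsOpen O) (hb : FBig g y O) :
    μ Oᶜ = 0 := by
  refine measure_null_of_locally_null _ fun x _ => ?_
  by_cases hx : g x = y
  swap
  · exact ⟨_, mem_nhdsWithin_of_mem_nhds
      ((isClosed_singleton.preimage hg.cont).isOpen_compl.mem_nhds hx), h.1⟩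
  obtain ⟨q, hq, hxq⟩ := pc_ex hg (hs x hx)
  obtain ⟨f, hf, h0, h1⟩ := hb x hx
  have hy : y ∈ q.1.source := hx ▸ (hq.2.fst x hxq).1
  have hA : AnalyticAt ℂ (fun z => f (q.2.symm (q.1 y, z))) (q.2 x).2 :=
    (pc_hol hq hxq hf).comp_of_eq (analyticAt_const.prod analyticAt_id) (pc_eq hq hxq hx)
  obtain ⟨r, hr, hB⟩ := Metric.eventually_nhds_iff_ball.1 hA.eventually_analyticAt
  obtain ⟨z₀, k0, k1⟩ := ((pc_freq hq hxq h0).and_eventually (ball_mem_nhds _ hr)).exists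
  have hn := P271.H879.null_zeros volume
    (fun z hz => (hB z hz).differentiableAt.differentiableWithinAt) k1 k0
  obtain ⟨N, hN, hNo, hxN⟩ := _root_.eventually_nhds_iff.1 (h1.and
    ((show ∀ᶠ x' in 𝓝 x, x' ∈ q.2.source from q.2.open_source.mem_nhds hxq).and
      ((continuousAt_snd.comp (q.2.continuousAt hxq)).eventually (ball_mem_nhds _ hr))))
  have hm : MeasurableSet (N ∩ Oᶜ) := hNo.measurableSet.inter hO.measurableSet.compl
  refine ⟨N ∩ Oᶜ, inter_mem (mem_nhdsWithin_of_mem_nhds (hNo.mem_nhds hxN)) self_mem_nhdsWithin, ?_⟩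
  rw [← lintegral_indicator_one hm, h.2 q hq hy _ (measurable_one.indicator hm)
    fun x' k => indicator_of_notMem (fun k' => k (hN _ k'.1).2.1) _]
  have ho : IsOpen {z : Cm e | (q.1 y, z) ∈ q.2.target} :=
    q.2.open_target.preimage (Continuous.prodMk_right _)
  refine (setLIntegral_congr_fun_ae ho.measurableSet ?_).trans lintegral_zero
  filter_upwards [measure_eq_zero_iff_ae_notMem.1 hn] with z hz ht
  rw [indicator_of_notMem, zero_mul]
  rintro ⟨a, b⟩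
  obtain ⟨c, -, d⟩ := hN _ a
  rw [Function.comp, q.2.right_inv ht] at d
  exact b (c (pc_fib hq hy ht) fun k => hz ⟨d, k⟩)

end pc

variable {w e m : ℕ} {B : Bs w} {E : Et B e m}

theorem Et.Geo.open_O (hE : E.Geo) (i) : IsOpen (E.O i) :=
  (((hE.base.lb.isOpen i).sdiff hE.thin₀.closed).preimage hE.hol.cont).inter (snc_open_off hE.snc)

theorem Et.Geo.ne_of (hE : E.Geo) {i c x} (hx : x ∈ E.O i) (hc : At c x) (h : E.t i c x ≠ 0) :
    E.t i (chartAt (Cm (w + e)) x) x ≠ 0 :=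
  right_ne_zero_of_mul (hE.tchg i c _ x hx hc (at_chart x) ▸ h)

theorem nul_of (h : NU) : NUL := fun _ _ _ B E hE i y hy hQ _ hO hb =>
  (h _ _ _ B E hE i y hy hQ).1.null hE.hol
    (fun _ hx => (hE.reg y hQ).sbm hE.hol hE.snc hx) hO hb

theorem bigo : BIGO := fun w e m B E hE i => by
  refine ⟨isOpen_iff_mem_nhds.2 fun x hx => ?_, fun y hy hQ x hx => ?_⟩
  · filter_upwards [(hE.open_O i).mem_nhds hx.1, at_near (at_chart (n := w + e) x),
      (hE.thol i _ x hx.1 (at_chart x)).cont.eventually_ne hx.2] with z a b c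
    exact ⟨a, hE.ne_of a b c⟩
  subst hx
  obtain ⟨k, a, u, h1, h2⟩ := hE.den i _ x hy (at_chart x)
  obtain ⟨ζ, hζ, -⟩ := hE.snc x
  have h3 : ∀ᶠ z in 𝓝 x, ∀ l, ζ l z = 0 ↔ z ∈ E.G l := eventually_all.2 fun l => (hζ l).1
  obtain ⟨j, hj⟩ : ∃ j, ∃ᶠ z in 𝓝 x, E.g z = E.g x ∧ (∏ l, ζ l z) * u j z ≠ 0 := by
    refine frequently_exists.1 (((hE.ne i _ x hy hQ (at_chart x)).and_eventually
      (h2.and h3)).mono fun z k => ?_)
    obtain ⟨⟨j, b⟩, c⟩ := k.2.1 k.1.2.1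
    exact ⟨j, k.1.1, mul_ne_zero (Finset.prod_ne_zero_iff.2 fun l _ =>
      mt (k.2.2 l).1 (k.1.2.1.2 l)) (c j ▸ mul_ne_zero b k.1.2.2)⟩
  refine ⟨_, fun c hc => (Finset.analyticAt_fun_prod _ fun l _ => (hζ l).hol c hc).mul
    ((h1 j).2 c hc), hj, ?_⟩
  filter_upwards [h2, h3, at_near (at_chart (n := w + e) x)] with z b c d hz h0
  have hO : z ∈ E.O i := ⟨by
    rw [mem_preimage, hz]
    exact ⟨hy, fun k => hQ (hE.sub k)⟩, fun l k =>
      Finset.prod_ne_zero_iff.1 (left_ne_zero_of_mul h0) l (Finset.mem_univ l) ((c l).2 k)⟩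
  exact ⟨hO, hE.ne_of hO d (right_ne_zero_of_mul ((b hO).2 j ▸ right_ne_zero_of_mul h0))⟩

end Vale.Agent.P281Z.Pk
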