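import Vale.Agent.P281Z.Pk.Sk
import Vale.Agent.P284.H286.K.Meas

/-!
# P281Z, the canonical bundle formula: gluing of local measures
-/

open scoped Topology ENNReal
open Set Filter MeasureTheory Function
open Vale.Agent.P272.K

noncomputable section

namespace Vale.Agent.P281Z.Pk

namespace Mg

variable {d : ℕ} {X I : Type} [TopologicalSpace X] {S : Set X}

/-- `σ` is a parametrization of `S ∩ V` by `T`, with the inverse `τ` -/
structure Par (S V : Set X) (T : Set (Cm d)) (σ : Cm d → X) (τ : X → Cm d) : Prop where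
  oV : IsOpen V
  oT : IsOpen T
  cont : ContinuousOn σ T
  mem : ∀ z ∈ T, σ z ∈ S ∧ σ z ∈ V ∧ τ (σ z) = z
  inv : ∀ x ∈ S, x ∈ V → τ x ∈ T ∧ σ (τ x) = x

/-- change of variables by an injective holomorphic map -/
theorem chgv {s : Set (Cm d)} (hs : MeasurableSet s) {Φ : Cm d → Cm d}
    (h : ∀ z ∈ s, AnalyticAt ℂ Φ z) (hi : InjOn Φ s) (F : Cm d → ℝ≥0∞) :
    ∫⁻ z in Φ '' s, F z = ∫⁻ z in s, ‖(fderiv ℂ Φ z).det‖ₑ ^ 2 * F (Φ z) := by
  rw [lintegral_image_eq_lintegral_abs_det_fderiv_mul volume hs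
    (f' := fun z => (fderiv ℂ Φ z).restrictScalars ℝ) (fun z hz =>
      ((h z hz).differentiableAt.hasFDerivAt.restrictScalars ℝ).hasFDerivWithinAt) hi]
  simp only [P284.H286.K.abs_det_rs, ENNReal.ofReal_pow (norm_nonneg _), ofReal_norm]

theorem lint_sub {E : Type} [MeasureSpace E] {s t : Set E} (ht : MeasurableSet t)
    (hs : MeasurableSet s) (h : s ⊆ t) {F : E → ℝ≥0∞} (h0 : ∀ z ∈ t, z ∉ s → F z = 0) :
    ∫⁻ z in t, F z = ∫⁻ z in s, F z := by
  rw [← inter_eq_self_of_subset_left h, ← setLIntegral_indicator hs]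
  exact setLIntegral_congr_fun ht fun z hz => by
    by_cases k : z ∈ s
    · rw [indicator_of_mem k]
    · rw [indicator_of_notMem k, h0 z hz k]

/-- change of the parametrization -/
theorem Par.chg {S' V V' : Set X} {T T' : Set (Cm d)} {σ σ' : Cm d → X} {τ τ' : X → Cm d}
    (h : Par S V T σ τ) (h' : Par S' V' T' σ' τ') (hS : ∀ x ∈ V, x ∈ V' → (x ∈ S ↔ x ∈ S'))
    {F F' : X → ℝ≥0∞} (k : ∀ z ∈ T, σ z ∈ V' → AnalyticAt ℂ (fun z => τ' (σ z)) z ∧
      F (σ z) = ‖(fderiv ℂ (fun z => τ' (σ z)) z).det‖ₑ ^ 2 * F' (σ z))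
    (h0 : ∀ x ∈ V, x ∉ V' → F x = 0) (h0' : ∀ x ∈ V', x ∉ V → F' x = 0) :
    ∫⁻ z in T, F (σ z) = ∫⁻ z in T', F' (σ' z) := by
  have m := (h.cont.isOpen_inter_preimage h.oT h'.oV).measurableSet
  have m' := (h'.cont.isOpen_inter_preimage h'.oT h.oV).measurableSet
  have a : ∀ z ∈ T ∩ σ ⁻¹' V', τ' (σ z) ∈ T' ∧ σ' (τ' (σ z)) = σ z := fun z hz =>
    h'.inv _ ((hS _ (h.mem z hz.1).2.1 hz.2).1 (h.mem z hz.1).1) hz.2
  have e : T' ∩ σ' ⁻¹' V = (fun z => τ' (σ z)) '' (T ∩ σ ⁻¹' V') := by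
    refine Subset.antisymm (fun z hz => ?_) ?_
    · obtain ⟨b1, b2, b3⟩ := h'.mem z hz.1
      obtain ⟨c1, c2⟩ := h.inv _ ((hS _ hz.2 b2).2 b1) hz.2
      exact ⟨τ (σ' z), ⟨c1, by rwa [mem_preimage, c2]⟩, by simp only [c2, b3]⟩
    · rintro _ ⟨z, hz, rfl⟩
      exact ⟨(a z hz).1, by rw [mem_preimage, (a z hz).2]; exact (h.mem z hz.1).2.1⟩
  rw [lint_sub h.oT.measurableSet m inter_subset_left fun z hz e =>
      h0 _ (h.mem z hz).2.1 fun b => e ⟨hz, b⟩,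
    lint_sub h'.oT.measurableSet m' inter_subset_left fun z hz e =>
      h0' _ (h'.mem z hz).2.1 fun b => e ⟨hz, b⟩, e,
    chgv m (fun z hz => (k z hz.1 hz.2).1) fun z hz z' hz' b => by
      rw [← (h.mem z hz.1).2.2, ← (a z hz).2, show τ' (σ z) = τ' (σ z') from b, (a z' hz').2,
        (h.mem z' hz'.1).2.2]]
  exact setLIntegral_congr_fun m fun z hz => by simp only [(a z hz).2, (k z hz.1 hz.2).2]

variable [MeasurableSpace X] [BorelSpace X]

/-- the local measure -/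
theorem Par.loc {V : Set X} {T : Set (Cm d)} {σ : Cm d → X} {τ : X → Cm d} (h : Par S V T σ τ)
    {D : Cm d → ℝ≥0∞} (hD : AEMeasurable D (volume.restrict T)) : ∃ ν : Measure X,
      ∀ f : X → ℝ≥0∞, Measurable f → ∫⁻ x, f x ∂ν = ∫⁻ z in T, f (σ z) * D z := by
  classical
  have hg : Measurable (T.piecewise σ fun _ => σ 0) :=
    h.cont.measurable_piecewise continuousOn_const h.oT.measurableSet
  refine ⟨((volume.restrict T).withDensity D).map (T.piecewise σ fun _ => σ 0), fun f hf => ?_⟩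
  rw [lintegral_map hf hg]
  refine (lintegral_withDensity_eq_lintegral_mul₀ hD (hf.comp hg).aemeasurable).trans ?_
  refine setLIntegral_congr_fun h.oT.measurableSet fun z hz => ?_
  simp only [Pi.mul_apply, comp_apply, piecewise_eq_of_mem _ _ _ hz, mul_comm]

variable [SecondCountableTopology X]

/-- a countable partition which is subordinate to a family of open sets -/
theorem part {V : I → Set X} (hV : ∀ i, IsOpen (V i)) : ∃ (J : Set I) (A : J → Set X),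
    J.Countable ∧ (∀ j, MeasurableSet (A j)) ∧ (∀ j, A j ⊆ V j) ∧ Pairwise (Disjoint on A) ∧
      ⋃ j, A j = ⋃ i, V i := by
  obtain ⟨J, h1, h2⟩ := TopologicalSpace.isOpen_iUnion_countable V hV
  have := h1.to_subtype
  obtain ⟨c, hc⟩ := exists_injective_nat J
  refine ⟨J, fun j => V j \ ⋃ j' : {j' // c j' < c j}, V j'.1, h1, fun j =>
    (hV _).measurableSet.diff (isOpen_iUnion fun _ => hV _).measurableSet, fun j => sdiff_subset,
    fun j j' e => ?_, Subset.antisymm (iUnion_subset fun j => sdiff_subset.trans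
      (subset_iUnion _ j.1)) fun x hx => ?_⟩
  · refine disjoint_left.2 fun x a b => ?_
    rcases lt_or_gt_of_ne (hc.ne e) with k | k
    · exact b.2 (mem_iUnion.2 ⟨⟨j, k⟩, a.1⟩)
    · exact a.2 (mem_iUnion.2 ⟨⟨j', k⟩, b.1⟩)
  · rw [← h2] at hx
    obtain ⟨i, hi, a⟩ := mem_iUnion₂.1 hx
    have ne : {j : J | x ∈ V j}.Nonempty := ⟨⟨i, hi⟩, a⟩
    exact mem_iUnion.2 ⟨argminOn c _ ne, argminOn_mem c _ ne, fun b =>
      let ⟨j, k⟩ := mem_iUnion.1 b; not_lt_argminOn c _ (a := j.1) k j.2⟩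

omit [TopologicalSpace X] [BorelSpace X] [SecondCountableTopology X] in
theorem lint_part {J : Type} [Countable J] {A : J → Set X} (hA : ∀ j, MeasurableSet (A j))
    (hd : Pairwise (Disjoint on A)) {μ : Measure X} {f : X → ℝ≥0∞}
    (h : ∀ᵐ x ∂μ, x ∉ ⋃ j, A j → f x = 0) :
    ∫⁻ x, f x ∂μ = ∑' j, ∫⁻ x, (A j).indicator f x ∂μ := by
  simp only [lintegral_indicator (hA _)]
  rw [← lintegral_iUnion hA hd, ← lintegral_indicator (.iUnion hA)]
  refine lintegral_congr_ae (h.mono fun x k => ?_)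
  by_cases e : x ∈ ⋃ j, A j
  · rw [indicator_of_mem e]
  · rw [indicator_of_notMem e, k e]

/-- gluing -/
theorem glue {V : I → Set X} (hV : ∀ i, IsOpen (V i)) (ν : I → Measure X)
    (h0 : ∀ i, ν i Sᶜ = 0) (h : ∀ i j, ∀ f : X → ℝ≥0∞, Measurable f → (∀ x ∉ V i, f x = 0) →
      (∀ x ∉ V j, f x = 0) → ∫⁻ x, f x ∂ν i = ∫⁻ x, f x ∂ν j) :
    ∃ μ : Measure X, μ Sᶜ = 0 ∧ ∀ i, ∀ f : X → ℝ≥0∞, Measurable f → (∀ x ∉ V i, f x = 0) →
      ∫⁻ x, f x ∂μ = ∫⁻ x, f x ∂ν i := by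
  obtain ⟨J, A, h1, h2, h3, h4, h5⟩ := part hV
  have := h1.to_subtype
  refine ⟨.sum fun j : J => (ν j).restrict (A j), Measure.sum_apply_eq_zero.2 fun j =>
    nonpos_iff_eq_zero.1 ((Measure.restrict_le_self _).trans (h0 j).le), fun i f hf hi => ?_⟩
  rw [lintegral_sum_measure, lint_part h2 h4 (.of_forall fun x hx =>
    hi x fun a => hx (h5 ▸ mem_iUnion.2 ⟨i, a⟩))]
  refine tsum_congr fun j => ?_
  rw [← lintegral_indicator (h2 j)]
  exact h j i _ (hf.indicator (h2 j)) (fun x hx => indicator_of_notMem (mt (h3 j ·) hx) _)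
    fun x hx => by simp [hi x hx]

/-- uniqueness -/
theorem uniq {V : I → Set X} (hV : ∀ i, IsOpen (V i)) (hS : S ⊆ ⋃ i, V i) {μ μ' : Measure X}
    (h0 : μ Sᶜ = 0) (h0' : μ' Sᶜ = 0) (h : ∀ i, ∀ f : X → ℝ≥0∞, Measurable f →
      (∀ x ∉ V i, f x = 0) → ∫⁻ x, f x ∂μ = ∫⁻ x, f x ∂μ') : μ = μ' := by
  obtain ⟨J, A, h1, h2, h3, h4, h5⟩ := part hV
  have := h1.to_subtype
  refine Measure.ext_of_lintegral _ fun f hf => ?_
  have k : ∀ μ : Measure X, μ Sᶜ = 0 → ∀ᵐ x ∂μ, x ∉ ⋃ j, A j → f x = 0 := fun μ a =>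
    Eventually.mono (show ∀ᵐ x ∂μ, x ∈ S from mem_ae_iff.2 a) fun x b c => (c (h5 ▸ hS b)).elim
  rw [lint_part h2 h4 (k μ h0), lint_part h2 h4 (k μ' h0')]
  exact tsum_congr fun j => h j _ (hf.indicator (h2 j))
    fun x hx => indicator_of_notMem (mt (h3 j ·) hx) _

omit [BorelSpace X] in
theorem sfin {μ : Measure X} (h0 : μ Sᶜ = 0) (h : ∀ x ∈ S, ∃ N ∈ 𝓝 x, μ N < ⊤) :
    SigmaFinite μ := by
  choose! N h1 h2 using h
  obtain ⟨T, a, b, c⟩ := TopologicalSpace.countable_cover_nhdsWithin (s := S) (f := N)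
    fun x hx => mem_nhdsWithin_of_mem_nhds (h1 x hx)
  refine Measure.sigmaFinite_of_countable ((b.image N).insert Sᶜ) ?_ ?_
  · rintro _ (rfl | ⟨x, hx, rfl⟩)
    · exact h0 ▸ ENNReal.zero_lt_top
    · exact h2 x (a hx)
  · rw [sUnion_insert, sUnion_image]
    exact eq_univ_of_forall fun x => (em (x ∈ S)).elim (fun k => .inr (c k)) .inl

end Mg

end Vale.Agent.P281Z.Pk
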