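import Vale.Agent.P281Z.Sc.L2
import Vale.Agent.P271.H408.Ext

/-!
# P281Z: square integrable functions extend across any hypersurface
-/

open scoped Manifold ContDiff Topology ENNReal
open Set Filter Function Metric MeasureTheory
open Vale.Agent.P272.K Vale.Agent.P285.H281.FD
open Vale.Agent.P277Z (Hol Nz at_chart hol_const)

noncomputable section

namespace Vale.Agent.P281Z

variable {n : ℕ} {X : Type} [TopologicalSpace X] [ChartedSpace (Cm n) X]
  [IsManifold 𝓘(ℂ, Cm n) ω X] {h u : X → ℂ} {x : X} {φ : X → ℝ≥0∞}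

/-- the extension theorem of Riemann in `L²` -/
theorem Li.riem (hl : Li n φ x) (hh : Hol n h x) (h0 : Nz h x)
    (hu : ∀ᶠ y in 𝓝 x, h y ≠ 0 → Hol n u y ∧ ‖u y‖ₑ ^ (2 : ℝ) ≤ φ y) :
    ∃ b, Hol n b x ∧ ∀ᶠ y in 𝓝 x, h y ≠ 0 → b y = u y := by
  have he := at_chart (n := n) x
  set e := chartAt (Cm n) x
  obtain ⟨U, hU, hi⟩ := hl.at he
  have h1 : ∀ᶠ z in 𝓝 (e x), z ∈ e.target := e.open_target.mem_nhds (e.map_source he.2)
  obtain ⟨V, hB, hV, hxV⟩ := _root_.eventually_nhds_iff.1 ((hh e he).eventually_analyticAt.and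
    (h1.and ((at_ev he (hu.and (Nz.near h0 hh))).and (show ∀ᶠ z in 𝓝 (e x), z ∈ U from hU))))
  have hd : DifferentiableOn ℂ (fun z => h (e.symm z)) V :=
    fun z hz => (hB z hz).1.differentiableAt.differentiableWithinAt
  obtain ⟨F, hF, e'⟩ := P271.H408.ext_L2 (f := fun z => u (e.symm z)) hV hd
    (fun p hp => by
      obtain ⟨-, a, b, -⟩ := hB p hp
      refine not_eventually.1 fun k => b.2 ((P277Z.At.ev (e := e) ⟨he.1, e.map_target a⟩
        (p := fun w => h w = 0)).1 ?_)
      rwa [e.right_inv a])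
    (fun z hz => by
      obtain ⟨-, a, b, -⟩ := hB z hz.1
      have := (b.1 hz.2).1 e ⟨he.1, e.map_target a⟩
      rw [e.right_inv a] at this
      exact this.differentiableAt.differentiableWithinAt)
    fun p hp => by
      obtain ⟨r, hr, hb⟩ := Metric.isOpen_iff.1 hV p hp
      refine ⟨r, hr, (lt_of_le_of_lt ((setLIntegral_mono' ((hd.continuousOn.mono
        hb).isOpen_inter_preimage isOpen_ball isOpen_ne).measurableSet fun z hz => ?_).trans
          (lintegral_mono_set fun z hz => (hB z (hb hz.1)).2.2.2)) hi).ne⟩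
      simpa using ((hB z (hb hz.1)).2.2.1.1 hz.2).2
  refine ⟨fun w => F (e w), P277Z.hol_comp he (P268.analyticAt_of_differentiableOn hV hF hxV), ?_⟩
  filter_upwards [(e.continuousAt he.2).eventually (hV.mem_nhds hxV),
    e.open_source.mem_nhds he.2] with w h2 h3 h4
  have := e' _ h2 (by rwa [e.left_inv h3])
  rwa [e.left_inv h3] at this

end Vale.Agent.P281Z
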