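import Vale.Agent.P281Z.Pk.Sk

/-!
# P281Z, the canonical bundle formula: fibres of finite mass
-/

open scoped Manifold ContDiff Topology ENNReal
open Set Filter MeasureTheory
open Vale.Agent.P272.K Vale.Agent.P285.H281.FD

noncomputable section

namespace Vale.Agent.P281Z.Pk

namespace R0

variable {w e m : ℕ} {B : Bs w} {E : Et B e m} {i : B.l.ι} {y : B.W.X}

theorem rho_nn (hE : E.Geo) (x : E.X.X) : 0 ≤ E.ρ x ∧ (x ∈ off E.G → 0 < E.ρ x) := by
  obtain ⟨ζ, hζ, -⟩ := hE.snc x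
  obtain ⟨r, C, hC, h⟩ := hE.cpb x ζ hζ
  have h1 := h.self_of_nhds.2
  exact ⟨nonneg_of_mul_nonneg_right ((Finset.prod_nonneg fun _ _ => by positivity).trans h1) hC,
    fun hx => (mul_pos_iff_of_pos_left hC).1 ((Finset.prod_pos fun l _ => pow_pos (norm_pos_iff.2
      (mt (hζ l).mem.1 (hx l))) _).trans_le h1)⟩

theorem wt_le (hE : E.Geo) : ∃ K : ℝ, 1 ≤ K ∧ ∀ ε : ℝ, 0 ≤ ε → ∀ x,
    E.wt ε x ≤ ENNReal.ofReal (K ^ ε) := by
  obtain ⟨K, hK⟩ := (isCompact_range hE.cont).bddAbove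
  exact ⟨max K 1, le_max_right _ _, fun ε hε x => ENNReal.ofReal_le_ofReal
    (Real.rpow_le_rpow (rho_nn hE x).1 (le_max_of_le_left (hK ⟨x, rfl⟩)) hε)⟩

theorem J_zero : E.J i 0 y = E.ν i y univ := by simp [Et.J, Et.wt]

theorem J_le (hE : E.Geo) : ∃ K : ℝ, 1 ≤ K ∧ ∀ ε : ℝ, 0 ≤ ε → ∀ i y,
    E.J i ε y ≤ ENNReal.ofReal (K ^ ε) * E.J i 0 y :=
  (wt_le hE).imp fun K h => ⟨h.1, fun ε hε i y => by
    rw [J_zero, ← lintegral_const]
    exact lintegral_mono (h.2 ε hε)⟩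

theorem ae_O (hN : NUL) (hB : BIGO) (hE : E.Geo) (hy : y ∈ B.l.U i) (hQ : y ∉ E.Q) :
    ∀ᵐ x ∂E.ν i y, x ∈ E.O i :=
  (show ∀ᵐ x ∂E.ν i y, x ∈ {x | x ∈ E.O i ∧ E.t i (chartAt (Cm (w + e)) x) x ≠ 0} from
    hN _ _ _ B E hE i y hy hQ _ (hB _ _ _ B E hE i).1 ((hB _ _ _ B E hE i).2 y hy hQ)).mono
    fun _ h => h.1

/-- removal of the weight -/
theorem int_lim (hE : E.Geo) (hO : ∀ᵐ x ∂E.ν i y, x ∈ E.O i) {φ : E.X.X → ℂ}
    (hφ : Integrable φ (E.ν i y)) : Tendsto (fun ε : ℝ => ∫ x, φ x * (E.ρ x ^ ε : ℝ) ∂E.ν i y)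
      (𝓝[>] 0) (𝓝 (∫ x, φ x ∂E.ν i y)) := by
  obtain ⟨K, hK⟩ := (isCompact_range hE.cont).bddAbove
  refine tendsto_integral_filter_of_dominated_convergence (fun x => ‖φ x‖ * max K 1)
    (.of_forall fun ε => hφ.1.mul (Complex.measurable_ofReal.comp
      (hE.cont.measurable.pow_const ε)).aestronglyMeasurable) ?_ (hφ.norm.mul_const _)
    (hO.mono fun x hx => ?_)
  · filter_upwards [Ioo_mem_nhdsGT (zero_lt_one' ℝ)] with ε hε
    refine .of_forall fun x => ?_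
    rw [norm_mul, Complex.norm_real, Real.norm_of_nonneg (Real.rpow_nonneg (rho_nn hE x).1 _)]
    refine mul_le_mul_of_nonneg_left ((Real.rpow_le_rpow (rho_nn hE x).1
      (le_max_of_le_left (hK ⟨x, rfl⟩) : _ ≤ max K 1) hε.1.le).trans ?_) (norm_nonneg _)
    simpa using Real.rpow_le_rpow_of_exponent_le (le_max_right K 1) hε.2.le
  · have h1 : ContinuousAt (fun ε : ℝ => φ x * (E.ρ x ^ ε : ℝ)) 0 :=
      continuousAt_const.mul (Complex.continuous_ofReal.continuousAt.comp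
        (Real.continuousAt_const_rpow ((rho_nn hE x).2 hx.2).ne'))
    simpa using h1.tendsto.mono_left nhdsWithin_le_nhds

theorem J_eq (hE : E.Geo) (ε : ℝ) : (E.J i ε y).toReal = ∫ x, E.ρ x ^ ε ∂E.ν i y :=
  (integral_eq_lintegral_of_nonneg_ae (.of_forall fun x => Real.rpow_nonneg (rho_nn hE x).1 _)
    (hE.cont.measurable.pow_const ε).aestronglyMeasurable).symm

theorem J_lim (hE : E.Geo) (hO : ∀ᵐ x ∂E.ν i y, x ∈ E.O i) (h : E.J i 0 y < ⊤) :
    Tendsto (fun ε : ℝ => (E.J i ε y).toReal) (𝓝[>] 0) (𝓝 (E.J i 0 y).toReal) := by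
  have : IsFiniteMeasure (E.ν i y) := ⟨J_zero (E := E) ▸ h⟩
  have h1 := (Complex.continuous_re.tendsto _).comp (int_lim hE hO (integrable_const 1))
  simp only [one_mul, integral_complex_ofReal, Function.comp_def, ← J_eq hE] at h1
  simpa [J_zero, Measure.real] using h1

theorem nm_eq (hE : E.Geo) (hO : ∀ᵐ x ∂E.ν i y, x ∈ E.O i) (h : E.J i 0 y < ⊤) {k a : ℝ}
    (h0 : 0 < a) (h1 : Tendsto (fun ε : ℝ => ε ^ k * (E.J i ε y).toReal) (𝓝[>] 0) (𝓝 a)) :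
    E.J i 0 y = ENNReal.ofReal a := by
  have h2 := J_lim hE hO h
  have h3 : ∀ k : ℝ, 0 < k → Tendsto (fun ε : ℝ => ε ^ k) (𝓝[>] 0) (𝓝 0) := fun k hk => by
    simpa [Real.zero_rpow hk.ne'] using
      (Real.continuousAt_rpow_const 0 k (.inr hk.le)).tendsto.mono_left nhdsWithin_le_nhds
  rcases lt_trichotomy k 0 with hk | rfl | hk
  · have h4 : (E.J i 0 y).toReal = 0 * a := tendsto_nhds_unique h2
      (((h3 _ (neg_pos.2 hk)).mul h1).congr' (eventually_mem_nhdsWithin.mono fun ε hε => by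
        simp only [← mul_assoc, ← Real.rpow_add hε, neg_add_cancel, Real.rpow_zero, one_mul]))
    obtain ⟨K, -, hK⟩ := J_le hE
    have h5 := ((ENNReal.toReal_eq_zero_iff _).1 (h4.trans (zero_mul a))).resolve_right h.ne
    refine (h0.ne' (tendsto_nhds_unique h1 (tendsto_const_nhds.congr'
      (eventually_mem_nhdsWithin.mono fun ε hε => ?_)))).elim
    have h6 := hK ε (le_of_lt hε) i y
    rw [h5, mul_zero, nonpos_iff_eq_zero] at h6
    simp only [h6, ENNReal.toReal_zero, mul_zero]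
  · simp only [Real.rpow_zero, one_mul] at h1
    rw [tendsto_nhds_unique h1 h2, ENNReal.ofReal_toReal h.ne]
  · exact (h0.ne' ((tendsto_nhds_unique h1 ((h3 k hk).mul h2)).trans (zero_mul _))).elim

end R0

open R0 in
theorem reg0_of (hN : NUL) (hB : BIGO) : REG0 := by
  intro w d B C hC hK k h hn i y hy H ζ j _ _ _ ⟨O, hO, h1⟩ ε hε
  have hE := hC.toGeo
  have he := hE.base.ch i y hy
  obtain ⟨K, -, h2⟩ := J_le hE
  obtain ⟨O', k1, k2, k3⟩ := mem_nhds_iff.1 (inter_mem hO (inter_mem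
    ((B.ch i).open_target.mem_nhds ((B.ch i).map_source he.2)) (at_ev he (lb_near hE.base.lb hy))))
  have k4 : IsOpen (O' ∩ (B.ch i).symm ⁻¹' C.Qᶜ) :=
    ((B.ch i).continuousOn_symm.mono fun z hz => (k1 hz).2.1).isOpen_inter_preimage k2
      hE.thin.1.closed.isOpen_compl
  refine ⟨O', k2.mem_nhds k3, ((setLIntegral_mono' k4.measurableSet (g := fun z =>
    ENNReal.ofReal (K ^ ε) * ENNReal.ofReal (h i ((B.ch i).symm z) ^ 1 *
      ‖ζ ((B.ch i).symm z)‖ ^ (2 * j))) fun z hz => ?_).trans_lt ?_)⟩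
  · have a1 := hn i _ (k1 hz.1).2.2 hz.2
    beta_reduce
    rw [pow_one, pow_one, ENNReal.ofReal_mul a1.1.le, ← mul_assoc, ← nm_eq hE
      (ae_O hN hB hE (k1 hz.1).2.2 hz.2) (hK i _ (k1 hz.1).2.2 hz.2) a1.1 a1.2]
    exact mul_le_mul_left (h2 ε hε.le i _) _
  · rw [lintegral_const_mul' _ _ ENNReal.ofReal_ne_top]
    exact ENNReal.mul_lt_top ENNReal.ofReal_lt_top
      ((lintegral_mono_set (inter_subset_inter_left _ fun z hz => (k1 hz).1)).trans_lt h1)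

end Vale.Agent.P281Z.Pk
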