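import Vale.Agent.P281Z.Pk.Rl
import Vale.Agent.P281Z.Pk.L2r
import Vale.Agent.P281Z.Pk.Reg0

/-!
# P281Z, the canonical bundle formula: extension of square integrable functions on a fibre
-/

open scoped Manifold ContDiff Topology ENNReal
open Set Filter MeasureTheory Function
open Vale.Agent.P272.K Vale.Agent.P285.H281.FD
open Vale.Agent.P277Z (Hol Nz at_chart)
open Vale.Agent.P281Z.Hg (PC IsPC)

noncomputable section

namespace Vale.Agent.P281Z.Pk

namespace Lx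

open Mg

theorem hol_self {n : ℕ} {a : Cm n → ℂ} {z : Cm n} : Hol n a z ↔ AnalyticAt ℂ a z :=
  ⟨fun h => h (.refl _) ⟨chartedSpaceSelf_atlas.2 rfl, trivial⟩, fun h e he => by
    obtain rfl := chartedSpaceSelf_atlas.1 he.1
    exact h⟩

theorem li_self {n : ℕ} {a : Cm n → ℝ≥0∞} {z : Cm n} {U : Set (Cm n)} (hU : U ∈ 𝓝 z)
    (h : ∫⁻ z in U, a z < ⊤) : Li n a z :=
  ⟨.refl _, ⟨chartedSpaceSelf_atlas.2 rfl, trivial⟩, U, hU, h⟩

variable {w e : ℕ} {X : Mf (w + e)} {W : Mf w} {g : X.X → W.X} {q : PC w e X.X W.X} {x : X.X}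
  {y : W.X} {φ : X.X → ℂ} {O : Set X.X}

theorem tend (hx : x ∈ q.2.source) : ContinuousAt (fun x => (q.2 x).2) x :=
  (q.2.continuousAt hx).snd

theorem back (hq : IsPC g q) (hx : x ∈ q.2.source) :
    ∀ᶠ x' in 𝓝 x, g x' = g x → q.2.symm ((q.2 x).1, (q.2 x').2) = x' := by
  filter_upwards [q.2.open_source.mem_nhds hx] with x' k k'
  rw [(hq.2.fst x hx).2, ← k', pc_eq hq k, q.2.left_inv k]

/-- the neighbourhoods in the fibre -/
theorem ev_fib (hq : IsPC g q) (hx : x ∈ q.2.source) {P : X.X → Prop} :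
    (∀ᶠ z in 𝓝 (q.2 x).2, P (q.2.symm ((q.2 x).1, z))) ↔ ∀ᶠ x' in 𝓝 x, g x' = g x → P x' := by
  refine ⟨fun h => ?_, fun h => ?_⟩
  · filter_upwards [(tend hx).eventually h, back hq hx] with x' k1 k2 k3 using k2 k3 ▸ k1
  · have c : ContinuousAt (fun z => ((q.2 x).1, z)) (q.2 x).2 := by fun_prop
    filter_upwards [((q.2.tendsto_symm hx).comp c).eventually h,
      c.eventually (q.2.open_target.mem_nhds (q.2.map_source hx))] with z k1 k2
    refine k1 ?_
    rw [comp_apply, (hq.2.fst x hx).2] at *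
    exact pc_fib hq (pc_at hq hx).2 k2

theorem fh_cont (h : FH g φ x) (hq : IsPC g q) (hx : x ∈ q.2.source) :
    ContinuousWithinAt φ (g ⁻¹' {g x}) x :=
  ((h q hq hx).continuousAt.comp (f := fun x => (q.2 x).2)
    (tend hx)).continuousWithinAt.congr_of_eventuallyEq
    (eventually_nhdsWithin_iff.2 ((back hq hx).mono fun _ k k' => congrArg φ (k k').symm))
    (congrArg φ (q.2.left_inv hx).symm)

/-- the local extension, in the coordinates of the fibre -/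
theorem loc {D : PC w e X.X W.X → X.X → ℝ≥0∞} {ν : Measure X.X} (hN : IsFm g (g x) D ν)
    (hg : Continuous g) (hq : IsPC g q) (hx : x ∈ q.2.source) (hO : IsOpen O)
    (hB : FBig g (g x) O) (hφ : ∀ x' ∈ O, g x' = g x → FH g φ x') {ψ : X.X → ℝ≥0∞}
    (hψ : ∫⁻ x, ‖φ x‖ₑ ^ 2 * ψ x ∂ν < ⊤) {C : ℝ≥0∞} (hC : C ≠ ⊤)
    (h1 : ∀ᶠ x' in 𝓝 x, x' ∈ O → 1 ≤ C * ψ x' ∧ 1 ≤ C * D q x') :
    AnalyticAt ℂ (fun z => extendFrom (O ∩ g ⁻¹' {g x}) φ (q.2.symm ((q.2 x).1, z))) (q.2 x).2 := by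
  classical
  obtain ⟨V, hV, hVo, hxV⟩ := _root_.mem_nhds_iff.1 (inter_mem h1 (q.2.open_source.mem_nhds hx))
  have hS : MeasurableSet (V ∩ O ∩ g ⁻¹' {g x}) :=
    (hVo.inter hO).measurableSet.inter (isClosed_singleton.preimage hg).measurableSet
  have hf : Measurable ((V ∩ O ∩ g ⁻¹' {g x}).piecewise (fun x => ‖φ x‖ₑ ^ 2) 0) :=
    ContinuousOn.measurable_piecewise (fun x' k =>
      ((ENNReal.continuous_pow 2).continuousAt.comp_continuousWithinAt (fh_cont (hφ x' k.1.2 k.2) hq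
        (hV k.1.1).2).enorm).mono fun _ m => m.2.trans k.2.symm) continuousOn_const hS
  have h2 := hN.2 q hq (pc_at hq hx).2 _ hf fun x' k =>
    piecewise_eq_of_notMem _ _ _ fun m => k (hV m.1.1).2
  have h3 := (lintegral_mono (μ := ν) (f := (V ∩ O ∩ g ⁻¹' {g x}).piecewise (fun x => ‖φ x‖ₑ ^ 2) 0)
    (g := fun x => C * (‖φ x‖ₑ ^ 2 * ψ x)) fun x' => by
      by_cases k : x' ∈ V ∩ O ∩ g ⁻¹' {g x}
      · rw [piecewise_eq_of_mem _ _ _ k]
        exact (le_mul_of_one_le_right' ((hV k.1.1).1 k.1.2).1).trans_eq (mul_left_comm _ _ _)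
      · rw [piecewise_eq_of_notMem _ _ _ k]
        exact zero_le).trans_lt ((lintegral_const_mul' _ _ hC).trans_lt
          (ENNReal.mul_lt_top hC.lt_top hψ))
  rw [h2, ← (hq.2.fst x hx).2] at h3
  replace h3 := (lintegral_const_mul' _ _ hC).trans_lt (ENNReal.mul_lt_top hC.lt_top h3)
  obtain ⟨h, k1, k2, k3⟩ := hB x rfl
  have k4 := hol_self.2 (sl_an hq hx k1)
  have k5 : Nz (fun z => h (q.2.symm ((q.2 x).1, z))) (q.2 x).2 := fun k =>
    let ⟨_, a, b⟩ := (k2.and_eventually ((ev_fib hq hx (P := fun x => h x = 0)).1 k)).exists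
    a.2 (b a.1)
  have c : ContinuousAt (fun z => ((q.2 x).1, z)) (q.2 x).2 := by fun_prop
  have k6 := c.eventually (q.2.open_target.mem_nhds (q.2.map_source hx))
  have k7 := (ev_fib hq hx (P := fun x' => g x' = g x ∧ x' ∈ V ∧ (h x' ≠ 0 → x' ∈ O))).2
    ((k3.and (hVo.mem_nhds hxV)).mono fun _ a b => ⟨b, a.2, a.1 b⟩)
  have k8 : ∀ᶠ z in 𝓝 (q.2 x).2, q.2.symm ((q.2 x).1, z) ∈ O →
      Hol e (fun z => φ (q.2.symm ((q.2 x).1, z))) z := by
    filter_upwards [k6, k7] with z a b m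
    have := hφ _ m b.1 q hq (q.2.map_target a)
    rw [q.2.right_inv a] at this
    exact hol_self.2 this
  obtain ⟨F, m1, m2⟩ := (li_self k6 h3).riem k4 k5
    (u := fun z => φ (q.2.symm ((q.2 x).1, z))) (by
      filter_upwards [k7, k8] with z b b' m
      refine ⟨b' (b.2.2 m), ?_⟩
      rw [(V ∩ O ∩ g ⁻¹' {g x}).piecewise_eq_of_mem _ _ ⟨⟨b.2.1, b.2.2 m⟩, b.1⟩, mul_left_comm,
        ENNReal.rpow_two]
      exact le_mul_of_one_le_right' ((hV b.2.1).1 (b.2.2 m)).2)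
  have m3 : ∀ᶠ z in 𝓝 (q.2 x).2, q.2.symm ((q.2 x).1, z) ∈ O →
      F z = φ (q.2.symm ((q.2 x).1, z)) := by
    filter_upwards [m1.near, m2.eventually_nhds, Nz.near k5 k4, k8] with z a b b' m m'
    exact tendsto_nhds_unique_of_frequently_eq a.cont (m m').cont
      (((not_eventually.1 b').and_eventually b).mono fun _ r => r.2 r.1)
  refine (hol_self.1 m1).congr ?_
  filter_upwards [m1.near, m3.eventually_nhds, Nz.near k5 k4, k6, k7.eventually_nhds]
    with z a b b' m m'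
  have r := q.2.map_target m
  have r1 := m'.self_of_nhds.1
  have r2 := ev_fib hq r (P := fun x' => x' ∉ O ∩ g ⁻¹' {g x})
  have r3 := ev_fib hq r (P := fun x' => x' ∈ O → F (q.2 x').2 = φ x')
  have r4 := tend r
  rw [q.2.right_inv m] at r2 r3
  refine (extendFrom_eq (mem_closure_iff_frequently.2 fun s => b' ?_) ?_).symm
  · filter_upwards [r2.2 (s.mono fun _ s _ => s), m'] with z' s1 s2
    exact by_contra fun s3 => s1 ⟨s2.2.2 s3, s2.1⟩
  · rw [ContinuousAt, q.2.right_inv m] at r4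
    refine ((a.cont.tendsto.comp r4).mono_left nhdsWithin_le_nhds).congr'
      (eventually_nhdsWithin_iff.2 ((r3.1 ?_).mono fun x' s s' => s (s'.2.trans r1.symm) s'.1))
    filter_upwards [b, (by fun_prop : ContinuousAt (fun z => ((q.2 x).1, z)) z).eventually
      (q.2.open_target.mem_nhds m)] with z' s1 s2 s3
    rw [q.2.right_inv s2]
    exact s1 s3

theorem one_le {T : Type} [TopologicalSpace T] {f : T → ℝ≥0∞} {t : T} (h : ContinuousAt f t)
    (h0 : f t ≠ 0) : ∃ C : ℝ≥0∞, C ≠ ⊤ ∧ ∀ᶠ s in 𝓝 t, 1 ≤ C * f s := by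
  obtain ⟨c, h1, h2⟩ := exists_between (pos_iff_ne_zero.2 h0)
  exact ⟨c⁻¹, ENNReal.inv_ne_top.2 h1.ne', (h.eventually (lt_mem_nhds h2)).mono fun s k =>
    (ENNReal.inv_mul_cancel h1.ne' (ne_top_of_lt h2)).symm.trans_le (mul_le_mul_right k.le _)⟩

theorem isOpen_O {m : ℕ} {B : Bs w} {E : Et B e m} (hE : E.Geo) (i : B.l.ι) : IsOpen (E.O i) :=
  (((hE.base.lb.isOpen i).sdiff hE.thin₀.1.closed).preimage hE.hol.cont).inter
    (Hyp.of_snc hE.snc).isOpen

end Lx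

open Lx Mg in
/-- **L2X** -/
theorem l2x_of (hN : NU) : L2X := fun w e m B E hE i y hy hQ O hO hs hB φ hφ hL => by
  refine ⟨extendFrom (O ∩ E.g ⁻¹' {y}) φ, fun x hx hxy ht q hq hxq => ?_, fun x hx hxy =>
    extendFrom_extends (fun x' k => ?_) x ⟨hx, hxy⟩⟩
  · subst hxy
    have hχ := hE.base.ch i _ hy
    have h1 := (isOpen_O hE i).mem_nhds hx
    obtain ⟨C, a1, a2⟩ := one_le (f := E.wt 1) (t := x) (ENNReal.continuous_ofReal.continuousAt.comp
      (hE.cont.continuousAt.rpow_const (.inr zero_le_one)))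
      (ENNReal.ofReal_pos.2 (Real.rpow_pos_of_pos ((R0.rho_nn hE x).2 hx.2) _)).ne'
    obtain ⟨C', b1, b2⟩ := one_le (t := x)
      (f := fun x => ‖rl m (B.ch i) E.g (E.t i) q x‖ₑ ^ (2 / m : ℝ))
      (ENNReal.continuous_rpow_const.continuousAt.comp (rl_hol (hE.hol.at x)
        (mem_of_superset h1 fun x' k c c' => hE.tchg i c c' x' k)
        (hE.thol i _ x hx (at_chart x)) hq hxq hχ).cont.enorm)
      (ENNReal.rpow_pos (enorm_pos.2 ((rl_ne hq hxq hχ).2 ht)) enorm_ne_top).ne'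
    refine loc (hN w e m B E hE i _ hy hQ).1 hE.hol.cont hq hxq hO hB hφ (hL 1 one_pos)
      (C := max C C') (max_lt a1.lt_top b1.lt_top).ne ?_
    filter_upwards [a2, b2] with x' k1 k2 k3
    rw [fmm, indicator_of_mem (hs k3)]
    exact ⟨k1.trans (mul_le_mul_left (le_max_left _ _) _),
      k2.trans (mul_le_mul_left (le_max_right _ _) _)⟩
  · obtain ⟨q, hq, -, hx', -⟩ := ex_pc (hE.hol.at x') ((hE.reg y hQ).sbm hE.hol hE.snc k.2)
      (at_chart _) univ_mem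
    exact (fh_cont (hφ x' k.1 k.2) hq hx').mono fun _ m => m.2.trans k.2.symm

end Vale.Agent.P281Z.Pk
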