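import Vale.Agent.P281Z.Pk.BigA

/-!
# P281Z, the canonical bundle formula: bigness on the fibres
-/

open scoped Manifold ContDiff Topology
open Set Filter
open Vale.Agent.P272.K Vale.Agent.P285.H281.FD
open Vale.Agent.P277Z (Hol hol_const)
open Vale.Agent.P277Z.Slc (isLB_can)
open Vale.Agent.P277.HD (pull)

noncomputable section

namespace Vale.Agent.P281Z.Pk

namespace Big

/-- a refinement of the cover -/
def ref {X : Type} (L : Bd X) {ι : Type} (U : ι → Set X) (φ : ι → L.ι) : Bd X :=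
  ⟨ι, U, fun a b => L.g (φ a) (φ b)⟩

theorem lb_ref {n : ℕ} {V : Mf n} {L : Bd V.X} {ι : Type} {U : ι → Set V.X} {φ : ι → L.ι}
    (hL : IsLB n L) (h1 : ∀ a, IsOpen (U a)) (h2 : ∀ x, ∃ a, x ∈ U a)
    (h3 : ∀ a, U a ⊆ L.U (φ a)) : IsLB n (ref L U φ) ∧ cls n (ref L U φ) = cls n L :=
  have k : IsLB n (ref L U φ) := ⟨h1, h2, fun a b c y hc k k' => hL.holo _ _ c y hc (h3 a k) (h3 b k'),
    fun a b y k k' => hL.ne_zero _ _ y (h3 a k) (h3 b k'),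
    fun a b c y k k' k'' => hL.cocycle _ _ _ y (h3 a k) (h3 b k') (h3 c k'')⟩
  ⟨k, (cls_eq k hL).2 (liso_of_map' hL φ h3 fun _ _ _ _ _ => rfl)⟩

variable {w e p m : ℕ} {F : Fd w e p m} {β : Fin F.k → ℚ}

variable (F) in
/-- `N K + γ^* M` in the frames of `l` -/
def bun : Bd F.T.Y.X := ref (((Bd.can w F.T.Y.X).pow (F.a * m)).mul (pull F.γ F.M))
  (fun a : F.d.l.ι × F.M.ι => F.d.l.U a.1 ∩ F.γ ⁻¹' F.M.U a.2) fun a => (F.d.ch a.1, a.2)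

theorem lb_bun (hF : F.Or) : IsLB w (bun F) ∧ cls w (bun F) =
    (F.a * m) • cls w (Bd.can w F.T.Y.X) + cls w (pull F.γ F.M) := by
  have hM := hF.hγ.lb hF.lbM
  have hl := hF.ok.base.lb
  rw [← cls_pow isLB_can, ← cls_mul (lb_pow isLB_can _) hM]
  exact lb_ref (lb_mul (lb_pow isLB_can _) hM) (fun a => (hl.isOpen _).inter (hM.isOpen _))
    (fun y => let ⟨a, k⟩ := hl.cover y; let ⟨b, k'⟩ := hM.cover y; ⟨(a, b), k, k'⟩)
    fun a y k => ⟨hF.ok.base.ch _ y k.1, k.2⟩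

theorem theta (hF : F.Or) (hβ : F.Be β) (j : Fin F.k) : ∃ l, Dom F.T.toFb F.A l j ∧
    m * (F.T.δ l : ℝ) + F.o l ≤ F.A l j * (m * (β j : ℝ) - F.b j / F.a) :=
  (hβ.eq j).imp fun l k => ⟨k.1, by
    have k1 : (F.A l j : ℝ) ≠ 0 := Nat.cast_ne_zero.2 k.1.1.ne'
    have k2 : (m : ℝ) ≠ 0 := Nat.cast_ne_zero.2 hF.ok.pos.ne'
    have k3 : (F.a : ℝ) ≠ 0 := Nat.cast_ne_zero.2 hF.pos.ne'
    rw [k.2, Fd.cf]
    push_cast
    exact le_of_eq (by field_simp; ring)⟩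

theorem sec (hF : F.Or) {O : Set F.T.Y.X} {ι : Type} {u : ι → F.d.l.ι → F.T.Y.X → ℂ}
    (v1 : ∀ b i, ∀ y ∈ O, y ∈ F.d.l.U i → y ∈ off F.D → Hol w (u b i) y)
    (v2 : ∀ b i i', ∀ y ∈ O, y ∈ F.d.l.U i → y ∈ F.d.l.U i' → y ∈ off F.D →
      u b i y = F.d.l.g i i' y * (jacM (F.d.ch i) (F.d.ch i') y).det ^ m * u b i' y)
    (v3 : ∀ b i, ∀ y ∈ O, y ∈ F.d.l.U i →
      BdP w id F.D (fun j => m * (β j : ℝ) - F.b j / F.a) (u b i) y) {a' : ℕ} (e1 : F.a = a' + 1)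
    (b b' : ι) : SecP w w id O (bun F) F.D (fun j => (F.a * m : ℕ) * (β j : ℝ))
      fun a y => u b a.1 y * u b' a.1 y ^ a' * (F.q a.1 a.2 y)⁻¹ := by
  refine ⟨fun a y h0 k hy => ?_, fun a a₁ y h0 k k' hy => ?_, fun a y h0 k => ?_⟩
  · have m1 := hF.qhol a.1 a.2 y k.1 k.2 hy
    exact ((v1 b _ y h0 k.1 hy).mul ((v1 b' _ y h0 k.1 hy).pow _)).mul (m1.1.inv m1.2)
  · have m1 := hF.qchg a.1 a₁.1 a.2 a₁.2 y k.1 k'.1 k.2 k'.2 hy
    have m2 := (hF.qhol a.1 a.2 y k.1 k.2 hy).2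
    have m3 := (hF.qhol a₁.1 a₁.2 y k'.1 k'.2 hy).2
    rw [v2 b _ a₁.1 y h0 k.1 k'.1 hy, v2 b' _ a₁.1 y h0 k.1 k'.1 hy]
    simp only [bun, ref, Bd.mul, Bd.pow, Bd.can, pull, e1] at m1 ⊢
    field_simp
    linear_combination (-(jacM (F.d.ch a.1) (F.d.ch a₁.1) y).det ^ ((a' + 1) * m) * u b a₁.1 y *
      u b' a₁.1 y ^ a') * m1
  · refine (((v3 b _ y h0 k.1).mul continuousAt_id ((v3 b' _ y h0 k.1).pow continuousAt_id
      a')).mul continuousAt_id (inv_bd hF.sn.snc (hF.oq a.1 a.2 y k.1 k.2)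
        ((lb_near (lb_bun hF).1 k).mono fun z m => hF.qhol _ _ z m.1 m.2))).mono continuousAt_id
      fun l _ => le_of_eq ?_
    rw [e1]
    push_cast
    field_simp
    ring

end Big

open Big

theorem big_of (hGR : GR) (hG : GEN) (hD : DENS) (hP : OPN) : BIG := by
  intro w e p m F hF a hT hd β hβ
  obtain ⟨S₁, hS₁, h1⟩ := hT.one
  have hf := hT.ok.fibn.hol
  have hh := hT.fibn.hol
  have := hT.ok.connY
  obtain ⟨S, ρ, s1, s2, s3⟩ := hGR (w + e) p F.T.X F.T.B F.T.fb.f ((Bd.can _ F.T.X.X).pow m) F.T.κ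
    F.T.G (fun l => m * (F.T.δ l : ℝ)) hT.fibn.connY (hh.comp hf) (lb_pow isLB_can m) hT.ok.snc
  obtain ⟨Q, q1, q2⟩ := hG w p F.T.Y F.T.B F.T.h _ F.D hh hF.sn.snc
  refine fun hc => (s1.union q1).neg.not_diff hT.big (hc.mono ?_)
  rintro y ⟨⟨F', j, hj, hk⟩, hy⟩
  rw [mem_union, not_or] at hy
  obtain ⟨V, i, hi, -⟩ := (q2 y hy.2).fib hT.dim.2 hh hF.sn.snc
  refine ⟨V, i, hi, ?_⟩
  obtain ⟨U, k, s, u1, u2, u3, -, u4⟩ := s3 y
  obtain ⟨s', t1, x₀, t2, c, t3, t4, t5⟩ :=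
    (kap_iff (s2 y hy.1) (hh.comp hf) hT.ok.snc hj m a).1 hk
  choose r hr using fun b => (u4 y u2 hy.1).1 _ F' j hj _ (t1 b)
  have hO := u1.preimage hh.cont
  choose u v1 v2 v3 v4 using fun b => desc hF.toOr hd hS₁ (fun y k F j hj => (h1 y k F j hj).2) hO
    (s := fun c x => ∑ l, r b l * s l c x)
    (secP_sum _ fun l _ => (u3 l).smul fun x _ => hol_const _ x) hD hP (theta hF hβ)
  obtain ⟨hL, hK⟩ := lb_bun hF
  obtain ⟨a', e1⟩ := Nat.exists_eq_add_one_of_ne_zero hF.pos.ne'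
  have hσ := fun b => sec hF v1 v2 v3 e1 b 0
  obtain ⟨g, g1, g2⟩ := hi.lift (hf.comp hj.hol) fun z => hj.fib z
  have hU : ∀ z, i z ∈ F.T.h ⁻¹' U := fun z => show F.T.h (i z) ∈ U from (hi.fib z).symm ▸ u2
  have h0 : i (g x₀) ∈ off F.D := (g2 x₀).symm ▸ hF.sn.pre _ t2
  obtain ⟨b₀, hb⟩ := hL.cover (i (g x₀))
  refine (sy_of (L := pull i (bun F)) _ (fun b => ((hσ b).comp hi.hol).res fun z _ => hU z) h0
    (RkAt.of_comp (rkAt_of t4 t5 (a' := b₀) hb (w := fun z => u 0 b₀.1 (i (g z)) ^ a' *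
      (F.q b₀.1 b₀.2 (i (g z)))⁻¹ * (F.d.t b₀.1 c (j z))⁻¹) ?_) (g1.at x₀)
      fun b a k => hi.hol.hol ((hσ b).hol a _ (hU _) k h0))).kapL (.of_snc hF.sn.snc) hi.hol.cont
    (lb_mul (lb_pow isLB_can _) ((hF.hγ.comp hi.hol).lb hF.lbM)) (hi.hol.lb hL) one_pos ?_
    fun l => by rw [Nat.cast_one, one_mul]
  · filter_upwards [((t1 0).hol c x₀ trivial t3 t2).ne_near t4, hj.hol.cont.continuousAt.eventually
      (((snc_open_off hT.ok.snc).eventually_mem t2).and (at_near t3)),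
      (hi.hol.comp g1).cont.continuousAt.eventually (lb_near hL hb)] with z m1 m2 m3
    have m4 : ∀ b, s' b c z = u b b₀.1 (i (g z)) * F.d.t b₀.1 c (j z) := fun b => by
      rw [hr b z m2.1 c m2.2, g2]
      exact v4 b _ c _ (g2 z ▸ hU _) (g2 z ▸ m3.1) m2.1 m2.2
    rw [m4 0] at m1
    have m5 := right_ne_zero_of_mul m1
    exact ⟨mul_ne_zero (mul_ne_zero (pow_ne_zero _ (left_ne_zero_of_mul m1)) (inv_ne_zero
      (hF.qhol _ _ _ m3.1 m3.2 ((g2 z).symm ▸ hF.sn.pre _ m2.1)).2)) (inv_ne_zero m5),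
      fun b => by rw [m4 b]; field_simp⟩
  · rw [one_nsmul, cls_pull hi.hol hL, hK, map_add, ← cls_pull hi.hol (hF.hγ.lb hF.lbM),
      cls_mul (lb_pow isLB_can _) ((hF.hγ.comp hi.hol).lb hF.lbM), cls_pow isLB_can,
      map_nsmul, cls_can (q2 y hy.2) hh hF.sn.snc hi]
    rfl

end Vale.Agent.P281Z.Pk
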