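import Vale.Agent.P281Z.Pk.EigT
import Vale.Agent.P281Z.Pk.L2r

/-!
# P281Z, the canonical bundle formula: finite fibre integrals, square integrable functions
-/

open scoped Manifold ContDiff Topology ENNReal Matrix
open Set Filter MeasureTheory
open Vale.Agent.P272.K Vale.Agent.P285.H281.FD
open Vale.Agent.P277Z (Hol Nz at_chart)
open Vale.Agent.P277Z.Slc (Ind LEq Snc isLB_can)
open Vale.Agent.P277Z.Slc.Dv (ext ext_eq eq_of_dense)

noncomputable section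

namespace Vale.Agent.P281Z.Pk

namespace Eig

variable {n p : ℕ} {M : Fb n p} {ρ : M.X.X → ℝ} {x : M.X.X} {ζ : M.κ → M.X.X → ℂ} {ε : ℝ}

/-- the weight is comparable with a monomial -/
theorem wt (h : Rc M ρ) (hζ : ∀ l, LEq n (M.G l) x (ζ l)) (hε : 0 ≤ ε) : ∃ C : ℝ≥0∞, C ≠ ⊤ ∧
    ∀ᶠ y in 𝓝 x, y ∈ off M.G →
      ENNReal.ofReal (ρ y ^ ε) ≤ C * ∏ l, ‖ζ l y‖ₑ ^ (if 0 < M.δ l then ε else 0) ∧
      ∏ l, ‖ζ l y‖ₑ ^ (if 0 < M.δ l then ε else 0) ≤ C * ENNReal.ofReal (ρ y ^ ε) := by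
  obtain ⟨C, h1, h2⟩ := h.2 x ζ hζ
  refine ⟨ENNReal.ofReal (C ^ ε), ENNReal.ofReal_ne_top, ?_⟩
  filter_upwards [h2, off_iff hζ] with y k1 k2 k3
  have k4 : 0 ≤ ∏ l, ‖ζ l y‖ ^ (if 0 < M.δ l then 1 else 0 : ℕ) := by positivity
  have k5 : 0 ≤ ρ y := (mul_nonneg_iff_of_pos_left h1).1 (k4.trans k1.2)
  have k6 : ∏ l, ‖ζ l y‖ₑ ^ (if 0 < M.δ l then ε else 0) =
      ENNReal.ofReal ((∏ l, ‖ζ l y‖ ^ (if 0 < M.δ l then 1 else 0 : ℕ)) ^ ε) := by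
    have := enorm_wt (k2.1 k3) le_rfl 1 fun l => if 0 < M.δ l then ε else 0
    rw [ENNReal.rpow_zero, Real.rpow_zero, one_mul, one_mul] at this
    rw [this, ← Real.finsetProd_rpow _ _ fun _ _ => by positivity]
    refine congrArg _ (Finset.prod_congr rfl fun l _ => ?_)
    split_ifs <;> simp
  rw [k6, ← ENNReal.ofReal_mul (by positivity), ← ENNReal.ofReal_mul (by positivity),
    ← Real.mul_rpow h1.le k4, ← Real.mul_rpow h1.le k5]
  exact ⟨ENNReal.ofReal_le_ofReal (Real.rpow_le_rpow k5 k1.1 hε),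
    ENNReal.ofReal_le_ofReal (Real.rpow_le_rpow k4 k1.2 hε)⟩

theorem ineq {κ T : Type} [Fintype κ] {ζ : κ → T → ℂ} {x : T} (hζ : ∀ l, ζ l x ≠ 0) {δ γ : κ → ℝ}
    {m t C C' : ℝ} (hm : 1 ≤ m) (ht : 0 ≤ t) (h1 : t * ∏ l, ‖ζ l x‖ ^ (m * δ l) ≤ C)
    (h2 : ∏ l, ‖ζ l x‖ ^ (2 * δ l - γ l) ≤ C') : (t * ∏ l, ‖ζ l x‖ ^ (m * δ l)) ^ (2 : ℝ) ≤
      C ^ (2 - 2 / m) * C' * (t ^ (2 / m) * ∏ l, ‖ζ l x‖ ^ γ l) := by
  have h0 : 0 ≤ t * ∏ l, ‖ζ l x‖ ^ (m * δ l) := by positivity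
  have h3 : 0 ≤ 2 - 2 / m := sub_nonneg.2 (div_le_self zero_le_two hm)
  have h4 : (∏ l, ‖ζ l x‖ ^ (m * δ l)) ^ (2 / m) =
      (∏ l, ‖ζ l x‖ ^ (2 * δ l - γ l)) * ∏ l, ‖ζ l x‖ ^ γ l := by
    rw [← Real.finsetProd_rpow _ _ fun _ _ => by positivity, ← Finset.prod_mul_distrib]
    refine Finset.prod_congr rfl fun l _ => ?_
    rw [← Real.rpow_mul (norm_nonneg _), ← Real.rpow_add (norm_pos_iff.2 (hζ l))]
    congr 1
    field_simp
    ring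
  rw [Real.rpow_of_add_eq h0 two_ne_zero (sub_add_cancel 2 (2 / m)),
    Real.mul_rpow (z := 2 / m) ht (by positivity), h4, mul_left_comm (t ^ _), ← mul_assoc]
  exact mul_le_mul_of_nonneg_right (mul_le_mul (Real.rpow_le_rpow h0 h1 h3) h2 (by positivity)
    (Real.rpow_nonneg (h0.trans h1) _)) (by positivity)

variable {w e m : ℕ} {M : Fb (w + e) w} {d : Ed M m} {F : Mf e} {j : F.X → M.X.X} {i : d.l.ι}
  {y : M.Y.X} {c : Chart (w + e) M.X.X} {a : F.X}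

/-- the poles of the form on the fibre -/
theorem bd (hE : d.E.Geo) (hS : d.Sec) (hy : y ∈ d.l.U i) (hQ : y ∉ d.Q)
    (hj : Emb e (w + e) j (M.f ⁻¹' {y})) (hc : At c (j a)) :
    BdP e id (fun l => j ⁻¹' M.G l) (fun l => m * (M.δ l : ℝ)) (fun b => d.t i c (j b)) a := by
  obtain ⟨ζ, hζ, -⟩ := hE.snc (j a)
  exact (bdP_iff_pull hj.hol.cont.continuousAt hζ ((hE.reg y hQ).leq hE.hol hj hζ)).1
    (((hS i).bdP (a := c) (show M.f (j a) ∈ d.l.U i \ d.Q from (hj.fib a).symm ▸ ⟨hy, hQ⟩)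
      hc).comp hj.hol.cont.continuousAt)

/-- the local extension of `φ t ∏ ζ^(m δ)` -/
theorem loc (hNU : NU) (hM : M.Ok) (hE : d.E.Geo) (hS : d.Sec) (hR : Rc M d.ρ) (hy : y ∈ d.l.U i)
    (hQ : y ∉ d.Q) (hj : Emb e (w + e) j (M.f ⁻¹' {y})) {O : Set M.X.X} (hO : IsOpen O)
    (hs : O ⊆ d.E.O i) (hB : FBig M.f y O) {φ : M.X.X → ℂ} (hφ : ∀ x ∈ O, M.f x = y → FH M.f φ x)
    (hL : d.E.L2 i y φ) {z : M.κ → ℤ} (hz : ∀ l, m * (M.δ l : ℝ) = z l) (hc : At c (j a))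
    {ζ : M.κ → M.X.X → ℂ} (hζ : ∀ l, LEq (w + e) (M.G l) (j a) (ζ l)) :
    ∃ b, Hol e b a ∧ ∀ᶠ x in 𝓝 a, j x ∈ O →
      b x = φ (j x) * d.t i c (j x) * ∏ l, ζ l (j x) ^ z l := by
  obtain ⟨ε, hε, h1⟩ := ((eventually_all.2 fun l : {l // 0 < M.δ l} => Ioc_mem_nhdsGT
    (show (0 : ℝ) < 2 * M.δ l from by exact_mod_cast mul_pos two_pos l.2)).and
      self_mem_nhdsWithin).exists
  have hζ' := (hE.reg y hQ).leq hE.hol hj hζ
  have hJ := hj.hol.cont.continuousAt (x := a)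
  obtain ⟨h, h2, h3, h4⟩ := hB.fib hj a
  obtain ⟨C₁, k1⟩ := bd hE hS hy hQ hj hc _ hζ'
  obtain ⟨C₂, -, k2⟩ := bdd_near (t := a)
    (f := fun x => ∏ l, ‖ζ l (j x)‖ ^ (2 * (M.δ l : ℝ) - if 0 < M.δ l then ε else 0))
    (tendsto_finsetProd _ fun l _ => (hζ' l).hol.cont.norm.rpow_const (.inr (by
      split_ifs with k
      · exact sub_nonneg.2 (hε ⟨l, k⟩).2
      · exact_mod_cast (by simpa using (hM.bdry l).1 : 0 ≤ 2 * M.δ l - 0))))
  obtain ⟨C₃, k3, k4⟩ := wt hR hζ h1.le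
  have h5 : ∀ᶠ x in 𝓝 a, j x ∈ O →
      Hol e (fun x => φ (j x) * d.t i c (j x) * ∏ l, ζ l (j x) ^ z l) x := by
    filter_upwards [hJ.eventually (at_near hc), eventually_all.2 fun l => (hζ' l).near] with x m1 m2 m3
    exact (((fh_iff hj hE.hol (hE.sbm hQ hj x)).1 (hφ _ m3 (hj.fib x))).mul
      (hj.hol.hol (hE.thol i c _ (hs m3) m1))).mul (hol_mono m2 (hs m3).2 z)
  obtain ⟨b, h6, h7⟩ := ((hE.l2 hNU hy hQ hj hO hφ hL h1 hc).mono
    (C := ENNReal.ofReal (C₁ ^ (2 - 2 / m : ℝ) * C₂) * C₃)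
    (ENNReal.mul_ne_top ENNReal.ofReal_ne_top k3) (.of_forall fun _ => le_rfl)).riem h2 h3
    (u := fun x => φ (j x) * d.t i c (j x) * ∏ l, ζ l (j x) ^ z l) (by
      filter_upwards [h4, h5, k1, k2, hJ.eventually k4, off_iff hζ'] with x m1 m2 m3 m4 m5 m6 m7
      have m8 := (hs (m1 m7)).2
      have m9 := ENNReal.ofReal_le_ofReal (ineq (ζ := fun l x => ζ l (j x)) (m6.1 m8)
        (Nat.one_le_cast.2 hE.pos) (norm_nonneg _) (m3 m8) m4)
      rw [ENNReal.ofReal_mul' (by positivity), ← enorm_wt (ζ := fun l x => ζ l (j x)) (m6.1 m8)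
        (by positivity), ← ENNReal.ofReal_rpow_of_nonneg (by positivity) zero_le_two] at m9
      simp only [hz] at m9
      rw [wt_int ζ z, ← norm_mul, ofReal_norm] at m9
      refine ⟨m2 (m1 m7), ?_⟩
      rw [indicator_of_mem (show x ∈ j ⁻¹' O from m1 m7), mul_assoc (φ _), enorm_mul,
        ENNReal.mul_rpow_of_nonneg _ _ zero_le_two, ENNReal.rpow_two]
      refine (mul_le_mul_right (m9.trans (mul_le_mul_right (mul_le_mul_right (m5 m8).2 _) _))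
        _).trans (le_of_eq ?_)
      rw [Et.wt]
      ring)
  refine ⟨b, h6, ?_⟩
  filter_upwards [h5, h6.near, h7.eventually_nhds, h3.near h2] with x m1 m2 m3 m4 m5
  exact tendsto_nhds_unique_of_frequently_eq m2.cont (m1 m5).cont
    (((not_eventually.1 m4).and_eventually m3).mono fun _ k => k.2 k.1)

end Eig

/-- **FIN** -/
theorem fin_of (hNU : NU) : FIN := fun w e m M d hM hE hS hR i y hy hQ ε hε => by
  obtain ⟨F, j, hj, hG⟩ := (hE.reg y hQ).fib (d := e) rfl hE.hol hE.snc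
  refine hE.fin hy hQ hj (hNU _ _ _ _ _ hE i y hy hQ).1
    ((hE.cont.measurable.pow_const ε).ennreal_ofReal) fun a => ⟨_, at_chart _, ?_⟩
  obtain ⟨ζ, hζ, -⟩ := hE.snc (j a)
  obtain ⟨C, h1, h2⟩ := Eig.wt hR hζ hε.le
  have hm : (0 : ℝ) < m := Nat.cast_pos.2 hE.pos
  refine ((Eig.bd hE hS hy hQ hj (at_chart _)).li hG ((hE.reg y hQ).leq hE.hol hj hζ)
    (r := 2 / m) (γ := fun l => if 0 < M.δ l then ε else 0) (by positivity)
      fun l _ => ?_).mono_off hG h1 ?_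
  · have h3 : (M.δ l : ℝ) ≤ 1 := by exact_mod_cast (hM.bdry l).2
    rw [← mul_assoc, div_mul_cancel₀ _ hm.ne']
    split_ifs with h
    · linarith
    · have : (M.δ l : ℝ) ≤ 0 := by exact_mod_cast not_lt.1 h
      linarith
  · filter_upwards [hj.hol.cont.continuousAt.eventually h2] with b hb k
    rw [mul_left_comm, mul_comm]
    exact mul_le_mul_right (hb k).1 _

/-- **EIG** -/
theorem eig_of (hNU : NU) : EIG := by
  intro w e m M d hM hE hS h1 hR hz i y hy hQ O hO hs hB φ hφ hL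
  obtain ⟨F, j, hj, hG⟩ := (hE.reg y hQ).fib (d := e) rfl hE.hol hE.snc
  choose z hz using hz
  have hz' : ∀ l, m * (M.δ l : ℝ) = (z l : ℤ) := fun l => by exact_mod_cast hz l
  have hD := hB.dense hj
  have hJ := hj.hol.cont
  have hφ' : ∀ a, j a ∈ O → Hol e (fun b => φ (j b)) a := fun a ha =>
    (fh_iff hj hE.hol (hE.sbm hQ hj a)).1 (hφ _ ha (hj.fib a))
  let s : Chart (w + e) M.X.X → F.X → ℂ := fun c =>
    ext (j ⁻¹' O) fun b => φ (j b) * d.t i c (j b)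
  have k1 : ∀ c a, j a ∈ O → At c (j a) → s c a = φ (j a) * d.t i c (j a) := fun c a ha hc =>
    P277Z.Slc.Dv.ext_at hD ((hφ' a ha).mul (hj.hol.hol (hE.thol i c _ (hs ha) hc))).cont
      (.of_forall fun _ _ => rfl)
  have k2 : ∀ c a (ζ : M.κ → M.X.X → ℂ), At c (j a) →
      (∀ l, LEq (w + e) (M.G l) (j a) (ζ l)) → ∃ b, Hol e b a ∧
      ∀ᶠ x in 𝓝 a, j x ∈ off M.G → Hol e (s c) x ∧ b x = s c x * ∏ l, ζ l (j x) ^ (z l : ℤ) := by
    intro c a ζ hc hζ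
    obtain ⟨b, m1, m2⟩ := Eig.loc hNU hM hE hS hR hy hQ hj hO hs hB hφ hL hz' hc hζ
    have hζ' := (hE.reg y hQ).leq hE.hol hj hζ
    refine ⟨b, m1, ?_⟩
    filter_upwards [m1.near, m2.eventually_nhds, eventually_all.2 fun l => (hζ' l).near,
      off_iff hζ'] with x m3 m4 m5 m6 m7
    have m8 := hol_mono m5 m7 fun l => z l
    have m9 : ∏ l, ζ l (j x) ^ (z l : ℤ) ≠ 0 :=
      Finset.prod_ne_zero_iff.2 fun l _ => zpow_ne_zero _ (m6.1 m7 l)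
    have m10 := ext_eq hD (f := fun b => φ (j b) * d.t i c (j b)) (m3.div m8 m9) (by
      filter_upwards [m4, m8.ne_near m9] with u r1 r2 r3 using eq_div_of_mul_eq r2 (r1 r3).symm)
    exact ⟨(m3.div m8 m9).congr m10, (div_eq_iff m9).1 m10.self_of_nhds⟩
  have k3 : ∀ c a, At c (j a) → j a ∈ off M.G → Hol e (s c) a := fun c a hc ha =>
    let ⟨ζ, hζ, _⟩ := hE.snc (j a)
    let ⟨_, _, m⟩ := k2 c a ζ hc hζ
    (m.self_of_nhds ha).1
  refine (h1 i y hy hQ F j hj s ⟨fun c a _ => k3 c a, fun c c' a _ hc hc' ha => ?_,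
    fun c a _ hc => ?_⟩).elim fun α hα => ⟨α, fun x hx hx' => ?_⟩
  · refine eq_of_dense hD (k3 c a hc ha).cont ((hj.hol.hol (lb_hol (lb_pow isLB_can m) hc
      hc')).mul (k3 c' a hc' ha)).cont ?_
    filter_upwards [hJ.continuousAt.eventually ((at_near hc).and (at_near hc'))] with x m1 m2
    rw [k1 c x m2 m1.1, k1 c' x m2 m1.2, mul_left_comm]
    exact congrArg _ (hE.tchg i c c' _ (hs m2) m1.1 m1.2)
  · obtain ⟨ζ, hζ, -⟩ := hE.snc (j a)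
    obtain ⟨b, m1, m2⟩ := k2 c a ζ hc hζ
    have hζ' := (hE.reg y hQ).leq hE.hol hj hζ
    simp only [hz']
    exact (bdP_iff_pull hJ.continuousAt hζ hζ').2
      (bdP_of_ext m1 hζ' (m2.mono fun x m m' => (m m').2))
  · obtain ⟨a, rfl⟩ := hj.ex hx'
    have hc := at_chart (n := w + e) (j a)
    refine tendsto_nhds_unique_of_frequently_eq (hφ' a hx).cont tendsto_const_nhds fun k => ?_
    obtain ⟨x, ⟨m1, -, m2⟩, m3, m4, m5⟩ := ((hE.ne i _ (j a) (hx'.symm ▸ hy) (hx'.symm ▸ hQ)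
      hc).and_eventually ((hj.ev.1 k).and ((hO.eventually_mem hx).and (at_near hc)))).exists
    obtain ⟨b, rfl⟩ := hj.ex (m1.trans hx')
    exact m3 b rfl (mul_right_cancel₀ m2 ((k1 _ b m4 m5).symm.trans (hα _ b (hs m4).2 m5)))

end Vale.Agent.P281Z.Pk
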