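import Vale.Agent.P281Z.Pk.Defs

/-!
# P281Z, the canonical bundle formula: statements
-/

open scoped Manifold ContDiff Topology ENNReal Matrix
open Set Filter MeasureTheory
open Vale.Agent.P272.K Vale.Agent.P285.H281.FD
open Vale.Agent.P277Z (Hol Mer Nz)
open Vale.Agent.P277Z.Slc (lin Ind LEq Snc)
open Vale.Agent.P277Z.Hir (Cpb)
open Vale.Agent.P277.HD (pull)
open Vale.Agent.P281Z.Hg (PC IsPC fdet)

noncomputable section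

namespace Vale.Agent.P281Z.Pk

/-- a statement on forms -/
def ForE (P : ∀ (w e m : ℕ) (B : Bs w), Et B e m → Prop) : Prop :=
  ∀ (w e m : ℕ) (B : Bs w) (E : Et B e m), E.Geo → P w e m B E

/-! ### Measures -/

/-- **NU** -/
def NU : Prop := ForE fun _ _ m B E => ∀ i, ∀ y ∈ B.l.U i, y ∉ E.Q →
  IsFm E.g y (fmm m (E.O i) (B.ch i) E.g (E.t i)) (E.ν i y) ∧ SigmaFinite (E.ν i y)

/-- **MU** -/
def MU : Prop := ForE fun _ _ m _ E => ∀ i, IsDm (tm m (E.O i ∩ E.g ⁻¹' E.Qᶜ) (E.t i)) (E.μ i)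

/-- **FUB** -/
def FUB : Prop := ForE fun _ _ _ B E => ∀ i (f : E.X.X → ℝ≥0∞), Measurable f →
  Measurable ((B.l.U i \ E.Q).indicator fun y => ∫⁻ x, f x ∂E.ν i y) ∧
  ∫⁻ x, f x ∂E.μ i = ∫⁻ z in (B.ch i).target ∩ (B.ch i).symm ⁻¹' (B.l.U i \ E.Q),
    ∫⁻ x, f x ∂E.ν i ((B.ch i).symm z)

/-- **NUL** -/
def NUL : Prop := ForE fun _ _ _ B E => ∀ i, ∀ y ∈ B.l.U i, y ∉ E.Q → ∀ O, IsOpen O →
  FBig E.g y O → E.ν i y Oᶜ = 0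

/-- **L2X**: extension of square integrable functions -/
def L2X : Prop := ForE fun w e _ B E => ∀ i, ∀ y ∈ B.l.U i, y ∉ E.Q → ∀ O, IsOpen O → O ⊆ E.O i →
  FBig E.g y O → ∀ φ, (∀ x ∈ O, E.g x = y → FH E.g φ x) → E.L2 i y φ →
  ∃ φ', (∀ x ∈ E.O i, E.g x = y → E.t i (chartAt (Cm (w + e)) x) x ≠ 0 → FH E.g φ' x) ∧
    ∀ x ∈ O, E.g x = y → φ' x = φ x

/-- **BIGO**: the set where `t i` is holomorphic and not zero is big -/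
def BIGO : Prop := ForE fun w e _ B E => ∀ i,
  IsOpen {x | x ∈ E.O i ∧ E.t i (chartAt (Cm (w + e)) x) x ≠ 0} ∧ ∀ y ∈ B.l.U i, y ∉ E.Q →
    FBig E.g y {x | x ∈ E.O i ∧ E.t i (chartAt (Cm (w + e)) x) x ≠ 0}

/-! ### The forms -/

/-- **RHO** -/
def RHO : Prop := ∀ (n p : ℕ) (M : Fb n p), Snc n M.G → ∃ ρ, Rc M ρ

/-- **ETA** -/
def ETA : Prop := ∀ (w e p a m : ℕ) (T : Tw (w + e) w p), T.One e a m → ∀ ρ, Rc T.toFb ρ →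
  ∃ d : Ed T.toFb m, d.ρ = ρ ∧ d.E.Geo ∧ d.Sec ∧ d.One

/-- a statement on forms with a boundary -/
def ForD (P : ∀ (w e m : ℕ) (M : Fb (w + e) w), Ed M m → Prop) : Prop :=
  ∀ (w e m : ℕ) (M : Fb (w + e) w) (d : Ed M m), M.Ok → P w e m M d

/-- **FIN** -/
def FIN : Prop := ForD fun _ _ _ M d => d.E.Geo → d.Sec → Rc M d.ρ → d.E.Fi

/-- **EIG** -/
def EIG : Prop := ForD fun _ _ m M d => d.E.Geo → d.Sec → d.One → Rc M d.ρ →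
  (∀ l, ∃ z : ℕ, m * M.δ l = z) → d.E.Un

/-- a statement on pull backs -/
def ForP (P : ∀ (w e m : ℕ) (M M₁ : Fb (w + e) w) (_ : Ed M m) (_ : M₁.X.X → M.X.X)
    (_ : M₁.Y.X → M.Y.X), Set M₁.Y.X → Prop) : Prop :=
  ∀ (w e m : ℕ) (M M₁ : Fb (w + e) w) (d : Ed M m) u v (Q₁ : Set M₁.Y.X), M.Ok → M₁.Ok →
    M₁.Sq M u v → M₁.X.Kah → M₁.Y.Kah → d.E.Geo → Thin w Q₁ →
    (∀ y ∉ Q₁, v y ∉ d.Q ∧ Imm w w v y ∧ RegAt (w + e) w M₁.f M₁.G y) → P w e m M M₁ d u v Q₁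

/-- **PLG** -/
def PLG : Prop := ForP fun _ _ _ _ M₁ d u v Q₁ => (d.pull M₁ u v Q₁).E.Geo

/-- **PLJ** -/
def PLJ : Prop := ForP fun _ _ _ _ M₁ d u v Q₁ => ∀ i, ∀ y ∈ (d.pull M₁ u v Q₁).l.U i, y ∉ Q₁ →
  ((d.pull M₁ u v Q₁).E.ν i y).map u = d.E.ν i.1 (v y)

/-- **PLU** -/
def PLU : Prop := ForP fun _ _ _ _ M₁ d u v Q₁ => d.E.Un → (d.pull M₁ u v Q₁).E.Un

/-- **PLS** -/
def PLS : Prop := ForP fun _ _ _ _ M₁ d u v Q₁ => d.Sec → (d.pull M₁ u v Q₁).Sec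

/-- **ONEM** -/
def ONEM : Prop := ∀ (n w p e a m : ℕ) (T : Tw n w p) (M₁ : Fb n w) u v, T.One e a m → M₁.Ok →
  M₁.Sq T.toFb u v → M₁.X.Kah → M₁.Y.Kah →
  (∀ l, M₁.δ l = 1 ∨ M₁.δ l = 0 ∨ ∃ l', M₁.δ l = T.δ l') → (tw T M₁ v).One e a m

/-! ### The cover and its Hodge theory -/

/-- **COV** -/
def COV : Prop := ∀ (w e m : ℕ) (B : Bs w) (E : Et B e m), E.Ok → ∀ N, 0 < N →
  ∃ C : Et (B.pow N) (m * N * e) 1, Lg C ∧ C.Q₀ = E.Q ∧ ∀ i, ∀ y ∈ B.l.U i, y ∉ C.Q →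
    ∀ ε : ℝ, 0 ≤ ε → C.J i ε y = m * E.J i ε y ^ (m * N)

/-- a statement on covers -/
def ForC (P : ∀ (w d : ℕ) (B : Bs w), Et B d 1 → Prop) : Prop :=
  ∀ (w d : ℕ) (B : Bs w) (C : Et B d 1), Lg C → P w d B C

/-- the variation of Hodge structure -/
def Lv {w d : ℕ} {B : Bs w} (C : Et B d 1) : Prop :=
  ∃ (n k : ℕ) (D : Hg.Loc w n k C.Qᶜ) (ψ : B.l.ι → B.W.X → B.W.X → Fin n → ℂ) (c : ℕ),
    Lin D B.l ψ ∧ C.Nm C.Q c (hN D ψ)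

/-- inversion of adjunction -/
def Reg {w d : ℕ} {B : Bs w} (C : Et B d 1) : Prop := ∀ k h, C.Nm C.Q k h → C.RG 1 C.Q h

/-- **LV** -/
def LV : Prop := ForC fun _ _ _ C => Lv C

/-- **REG** -/
def REG : Prop := ForC fun _ _ _ C => Reg C

/-- **LV0** -/
def LV0 : Prop := ForC fun _ _ _ C => C.Kl → Lv C

/-- **REG0** -/
def REG0 : Prop := ForC fun _ _ _ C => C.Kl → Reg C

/-- **HLW** -/
def HLW : Prop := ∀ (w n k : ℕ) (B : Bs w) (Q : Set B.W.X) (D : Hg.Loc w n k Qᶜ) ψ, B.Ok →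
  Thin w Q → Lin D B.l ψ → (∀ i, ∀ y ∈ B.l.U i, ∃ (σ : B.W.X → ℂ) (δ : ℝ), Hol w σ y ∧ Nz σ y ∧
    0 < δ ∧ LI (B.ch i) Qᶜ (fun z => ENNReal.ofReal (hN D ψ i z ^ δ * ‖σ z‖ ^ 2)) y) →
  Nonempty (Lf.Out B.W Qᶜ B.l (hN D ψ))

/-! ### Orders -/

/-- **ORDS** -/
def ORDS : Prop := ForD fun w e _ M d => ∀ (κ : Type) [Fintype κ] (D : κ → Set M.Y.X),
  (∀ l, IsConnected (M.G l)) → Snc w D → (∀ j, IsConnected (D j)) →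
  (∀ y ∈ off D, RegAt (w + e) w M.f M.G y) → (∀ x ∈ off M.G, M.f x ∈ off D) →
  d.Q = (off D)ᶜ → d.E.Ok → ∃ A o, d.Or D A o

/-- **ORDQ** -/
def ORDQ : Prop := ∀ (w r a : ℕ) (W : Mf w) (Z : Mf r) (γ : W.X → Z.X) (l : Bd W.X) (M : Bd Z.X)
  (q : l.ι → M.ι → W.X → ℂ) (κ : Type) [Fintype κ] (D : κ → Set W.X), HolM w r γ → IsLB w l →
  IsLB r M → Snc w D → (∀ j, IsConnected (D j)) →
  (∀ i j, ∀ y ∈ l.U i, γ y ∈ M.U j → Mer w (q i j) y ∧ (y ∈ off D → Hol w (q i j) y ∧ q i j y ≠ 0)) →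
  (∀ i i' j j', ∀ y ∈ l.U i, y ∈ l.U i' → γ y ∈ M.U j → γ y ∈ M.U j' → y ∈ off D →
    q i j y * M.g j j' (γ y) = l.g i i' y ^ a * q i' j' y) →
  ∃ b : κ → ℤ, ∀ i j, ∀ y ∈ l.U i, γ y ∈ M.U j → OrdAt w D b (q i j) y

/-- a statement on log smooth models -/
def ForS (P : ∀ (n w : ℕ) (M : Fb n w) (κ : Type) [Fintype κ], (κ → Set M.Y.X) →
    (M.κ → κ → ℕ) → Prop) : Prop :=
  ∀ (n w : ℕ) (M : Fb n w) (κ : Type) [Fintype κ] (D : κ → Set M.Y.X) A, Sn M D A → P n w M κ D A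

/-- **DENS** -/
def DENS : Prop := ForS fun _ _ M _ _ D A => ∀ l j, Dom M A l j → ∀ P P', OD (M.G l) P →
  OD (D j) P' → ∀ y ∈ D j, ∃ᶠ z in 𝓝 y, ∃ x, M.f x = z ∧ Gd M D l j x ∧ P x ∧ P' z

/-- **OPN** -/
def OPN : Prop := ForS fun _ _ M _ _ D _ => ∀ l j x, Gd M D l j x → ∀ P : M.X.X → Prop,
  (∀ᶠ z in 𝓝 x, z ∈ off M.G → P z) →
  ∀ᶠ y in 𝓝 (M.f x), y ∈ off D → ∃ z ∈ off M.G, M.f z = y ∧ P z

/-- **GENY** -/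
def GENY : Prop := ForS fun _ _ M _ _ D A => (∀ j, OD (D j) fun y => (∀ j', j' ≠ j → y ∉ D j') ∧
    ∀ l, ∀ x ∈ M.G l, M.f x = y → (∃ j', 0 < A l j') → Dom M A l j) ∧
  (∀ l j j', Dom M A l j → 0 < A l j' → j' = j) ∧
  ∀ l, (∀ j, A l j = 0) → OD (M.G l) fun x => M.f x ∈ off D

/-- **UP** -/
def UP : Prop := ForD fun w _ m M d => ∀ (κ : Type) [Fintype κ] (D : κ → Set M.Y.X) A o,
  d.Or D A o → ∀ S k h, Thin w S → d.Q ⊆ S → d.E.Nm S k h → ∀ i, ∀ y ∈ d.l.U i,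
  ∀ ζ : κ → M.Y.X → ℂ, (∀ j, LEq w (D j) y (ζ j)) → ∀ c : κ → ℝ,
  (∀ l, ∀ x ∈ M.G l, M.f x = y → (∃ j, 0 < A l j) → -1 < (o l : ℝ) / m + ∑ j, A l j * c j) →
  LI (d.ch i) Sᶜ (fun z => ENNReal.ofReal (h i z * ∏ j, ‖ζ j z‖ ^ (2 * c j))) y

/-- a statement on the final model -/
def ForF (P : ∀ w e p m : ℕ, Fd w e p m → Prop) : Prop :=
  ∀ (w e p m : ℕ) (F : Fd w e p m), F.Or → P w e p m F

/-- **UPP** -/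
def UPP : Prop := ForF fun _ _ _ _ F => ∀ k h, F.d.E.Nm F.d.Q k h → F.Hb h → F.Upp

/-- **LOW** -/
def LOW : Prop := ForF fun w _ _ m F => ∀ k h, F.d.E.Nm F.d.Q k h → F.Hb h →
  (∀ N, 0 < N → ∃ Q', Thin w Q' ∧ F.d.Q ⊆ Q' ∧ F.d.E.RG (m * N) Q' h) → F.Low

/-- **PUSH** -/
def PUSH : Prop := ForF fun w e _ _ F => F.d.Sec → ∀ β, F.Be β →
  ∀ (M₁ : Fb (w + e) w) u v, M₁.Ok → F.T.toFb.Sq M₁ u v →
  (∀ l, (∀ x ∈ F.T.G l, ¬ Imm (w + e) (w + e) u x) ∨ ∃ x ∈ F.T.G l, NeAt F.T.toFb l x) →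
  ∀ L j, (F.gp β L).Kap j → M₁.Kap j

/-- **TAU** -/
def TAU : Prop := ForF fun _ e _ m F => ∀ a, F.T.One e a m → F.Low → ∀ β, F.Be β →
  ∀ k, F.T.fb.Tau k → (F.fb β).Tau k

/-- **BIG** -/
def BIG : Prop := ForF fun w e p m F => ∀ a, F.T.One e a m → F.d.Sec → ∀ β, F.Be β →
  Oft w p F.T.h a fun V i => KapL a w i (((Bd.can a V.X).pow (F.a * m)).mul
    (pull (fun x => F.γ (i x)) F.M)) F.D (fun j => (F.a * m : ℕ) * (β j : ℝ)) a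

end Vale.Agent.P281Z.Pk
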