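import Vale.Agent.P281Z.Pk.EtaB
import Vale.Agent.P281Z.Pk.Sk

/-!
# P281Z, the relative forms: ETA
-/

open scoped Manifold ContDiff Topology
open Set Filter
open Vale.Agent.P272.K Vale.Agent.P285.H281.FD Vale.Agent.P277Z
open Vale.Agent.P277Z.Slc (Ind LEq Snc isLB_can)
open Vale.Agent.P277.HD (pull)

noncomputable section

namespace Vale.Agent.P281Z.Pk

open Eta

theorem eta_of (hG : GR) (hR : Eta.REL) : ETA := by
  intro w e p a m T hT ρ hρ
  have hM := hT.ok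
  have hK : IsLB (w + e) ((Bd.can (w + e) T.X.X).pow m) := lb_pow isLB_can m
  have hW : IsLB w ((Bd.can w T.Y.X).pow m) := lb_pow isLB_can m
  have hH := Hyp.of_snc hM.snc
  have hf := hM.fibn.hol
  obtain ⟨S₀, r, a1, a2, a3⟩ := hG _ _ T.X T.Y T.f _ T.κ T.G (fun l => m * (T.δ l : ℝ)) hM.connY hf
    hK hM.snc
  obtain ⟨S₁, b1, b2⟩ := hT.one
  have h : Gv (M := T.toFb) ((Bd.can (w + e) T.X.X).pow m) (fun l => m * (T.δ l : ℝ)) (S₀ ∪ S₁) e := by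
    refine ⟨hM, rfl, hK, a1.union b1, fun y hy => a2 y fun k => hy (.inl k), fun y hy F i hi => ?_⟩
    have c1 : IsLB e (Bd.can e F.X) := isLB_can
    have c2 : IsLB e (pull i (Bd.can (w + e) T.X.X)) := hi.hol.lb isLB_can
    have c3 : cls e ((Bd.can e F.X).pow m) = cls e ((pull i (Bd.can (w + e) T.X.X)).pow m) := by
      rw [cls_pow c1, cls_pow c2, (cls_eq c1 c2).2 (adj_iso hi hf fun x hx =>
        (a2 y fun k => hy (.inl k)).sbm hf hM.snc hx)]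
    obtain ⟨c4, c5⟩ := b2 y (fun k => hy (.inr k)) F i hi
    exact ⟨(kapM_iff.1 c4).of_cls hH hi.hol.cont (lb_pow c2 m) (lb_pow c1 m) c3.symm
      fun _ => le_rfl, fun k => c5 (kapM_iff.2
        (k.of_cls hH hi.hol.cont (lb_pow c1 m) (lb_pow c2 m) c3 fun _ => le_rfl))⟩
  have D := fun y₀ => Classical.choice (
    let ⟨_, _, _, c1, c2, c3, c4, c5⟩ := a3 y₀
    ld hR h c1 c2 c3 c4 fun y hy k F i hi => (c5 y hy fun j => k (.inl j)).1 e F i hi)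
  obtain ⟨C, c1, Q, c2, c3⟩ := cocycle h D
  have go : ∀ α, ∀ y ∈ (D α).U \ Q, y ∈ (D α).Go := fun α y hy => (c3 α y hy.1).1 hy.2
  have sec : ∀ α, SecP (w + e) (w + e) id (T.f ⁻¹' ((D α).U \ Q)) ((Bd.can (w + e) T.X.X).pow m)
      T.G (fun l => m * (T.δ l : ℝ)) (D α).t := fun α => (Ld.t_sec h).res fun x => go α _
  have nS : ∀ y ∉ Q, y ∉ S₀ ∪ S₁ := fun y hy => (go y y ⟨(D y).mem, hy⟩).2.1
  let l : Bd T.Y.X := ⟨T.Y.X, fun α => (D α).U, fun α β y => C α β y /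
    ((Bd.can w T.Y.X).pow m).g (chartAt (Cm w) α) (chartAt (Cm w) β) y⟩
  have hl : IsLB w l := ⟨fun α => (D α).opn, fun y => ⟨y, (D y).mem⟩, fun α β c y hc p q =>
    (((c1 α β y p q).1.div (lb_hol hW ((D α).ch y p) ((D β).ch y q))
      (hW.ne_zero _ _ y ((D α).ch y p) ((D β).ch y q))) c hc).contDiffAt, fun α β y p q =>
    div_ne_zero (c1 α β y p q).2.1 (hW.ne_zero _ _ y ((D α).ch y p) ((D β).ch y q)),
    fun α β γ y p q r => by
      simp only [l]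
      rw [div_mul_div_comm, (c1 α β y p q).2.2.2 γ r,
        hW.cocycle _ _ _ y ((D α).ch y p) ((D β).ch y q) ((D γ).ch y r)]⟩
  refine ⟨⟨l, fun α => chartAt (Cm w) α, fun α => (D α).t, Q, ρ⟩, rfl, ⟨hT.pos, ⟨hM.connY, hT.kahW,
    hl, fun α => (D α).ch⟩, hT.kahX, hf, hM.snc, c2, c2, Subset.rfl,
    fun y hy => h.reg y (nS y hy), fun y _ => hM.fibn.surj y,
    fun α c x hx hc => (sec α).hol c x hx.1 hc hx.2,
    fun α c c' x hx hc hc' => (sec α).chg c c' x hx.1 hc hc' hx.2, fun α β c x p q hc => ?_,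
    fun α c x hx hc => ?_, fun α c x p q hc => ?_, hρ.1, fun x ζ hζ => ⟨_, hρ.2 x ζ hζ⟩⟩, sec,
    fun α y p q F j hj s hs => ?_⟩
  · exact ((c1 α β _ p.1.1 q.1.1).2.2.1 (go α _ p.1) (go β _ q.1) x p.2 rfl c hc).trans
      (congrArg (· * _) (div_mul_cancel₀ _
        (hW.ne_zero _ _ _ ((D α).ch _ p.1.1) ((D β).ch _ q.1.1))).symm)
  · obtain ⟨ζ, hζ⟩ := hH x
    choose z hz using hT.int
    choose u k1 k2 using fun j => (((D α).sec j).bdP hx hc).ext (k := fun l => z l) hM.snc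
      (fun l _ => by
        rw [show (m * (T.δ l : ℝ)) = z l by exact_mod_cast hz l]
        exact lt_add_one _)
      (((D α).sec j).ev hK ((D α).opn.preimage hf.cont) hx hc) hζ
    refine ⟨_, fun j y => (D α).A j (T.f y) * ∏ l, ζ l y ^ z l, u, fun j =>
      ⟨(hf.hol (((D α).prim _ hx).hol j)).mul (Hol.prod _ fun l _ => (hζ l).hol.pow _), k1 j⟩, ?_⟩
    filter_upwards [eventually_all.2 k2, off_iff hζ, At.near hc] with y p q r t
    obtain ⟨j, hj⟩ := (go α _ t.1).2.2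
    refine ⟨⟨j, mul_ne_zero hj (Finset.prod_ne_zero_iff.2 fun l _ =>
      pow_ne_zero _ (q.1 t.2 l))⟩, fun j => ?_⟩
    rw [p j t.2, Ld.eq (go α _ t.1) t.2 r j, mul_right_comm]
    simp only [zpow_natCast]
  · exact ((h.fib_ne (nS _ q) (go α _ ⟨p, q⟩) (Ld.t_sec h) (Ld.t_gn (go α _ ⟨p, q⟩))
      rfl).and_eventually (At.near hc)).mono fun z k =>
        ⟨k.1.1, ⟨show T.f z ∈ (D α).U \ Q from k.1.1 ▸ ⟨p, q⟩, k.1.2.1⟩, k.1.2.2 c k.2⟩
  · exact (h.fib_one (nS _ q) (go α _ ⟨p, q⟩) (Ld.t_sec h) (Ld.t_gn (go α _ ⟨p, q⟩)) hj hs).imp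
      fun a k c x p q => k c x q p

end Vale.Agent.P281Z.Pk
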