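import Vale.Agent.P281Z.Pk.HlwA
import Vale.Agent.P281Z.Hm.Conn
import Vale.Agent.P281Z.Hm.Sk2
import Vale.Agent.P281Z.Lf.Rech
import Vale.Agent.P281Z.Mf.Adapt
import Vale.Agent.P281Z.Nt.Hyp
import Vale.Agent.P284.H451.CntA

/-!
# P281Z, the canonical bundle formula: the Hodge line on the base (HLW)
-/

open scoped Manifold ContDiff Topology Matrix ENNReal
open Set Filter Matrix MeasureTheory
open Vale.Agent.P272.K Vale.Agent.P285.H281.FD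
open Vale.Agent.P277Z (Hol Nz at_chart)
open Vale.Agent.P277.HD (pull)
open Vale.Agent.P281Z.Hm (Cv GV Ln)
open Vale.Agent.P281Z.Lf (eqn leq_eqn norm_eqn snc_of Out)

noncomputable section

namespace Vale.Agent.P281Z.Pk

namespace Hl

variable {w n : ℕ} {W V : Mf w} {μ : V.X → W.X} {Q : Set W.X} {l : Bd W.X} {χ : Chart w W.X}
  {F : W.X → ℝ≥0∞}

/-- the model -/
theorem model (hR : Rs.RES) (hI : Rs.IDL) (hK : W.Kah) (hQ : Thin w Q) :
    ∃ (V : Mf w) (μ : V.X → W.X) (S : Hm.Snc w V.X), Modif w μ Q ∧ V.Kah ∧ S.Conn ∧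
      ∀ y, y ∈ S.U ↔ μ y ∉ Q := by
  obtain ⟨I, rfl, -⟩ := hI w W Q hQ.1
  obtain ⟨R⟩ := hR w w W univ I an_univ
    (subM_open (compl_eq_univ_sdiff I.Z ▸ hQ.closed.isOpen_compl))
  obtain ⟨V, u, S, σ, h1, -, h2⟩ := adapt R.V R.snc
  obtain ⟨S', h3, h4, -⟩ := Hm.stConn w V.X S
  refine ⟨V, fun x => R.π (u x), S', Modif.comp_of ⟨hQ, R.ovr⟩ h1.modif hQ subset_rfl (by simp),
    h1.kah (R.kah hK), h4, fun y => ?_⟩
  rw [h3, R.bad, not_exists]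
  exact (forall_congr' fun l => by rw [h2]; rfl).trans
    (σ.forall_congr_right (q := fun l => u y ∉ R.G l))

theorem li_near {S : Set W.X} {y : W.X} (h : LI χ S F y) (hχ : At χ y) :
    ∀ᶠ z in 𝓝 y, LI χ S F z :=
  let ⟨O, hO, h⟩ := h
  ((χ.continuousAt hχ.2).eventually (eventually_mem_nhds_iff.2 hO)).mono fun _ k => ⟨O, k, h⟩

/-- the change of variables -/
theorem li_pull (hμ : Modif w μ Q) {e : Chart w V.X} {y : V.X} (he : At e y) (hχ : At χ (μ y))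
    (h : LI χ Qᶜ F (μ y)) :
    LI e (μ ⁻¹' Qᶜ) (fun x => ‖(dfM μ e χ x).det‖ₑ ^ 2 * F (μ x)) y := by
  obtain ⟨O, hO, h⟩ := h
  obtain ⟨N, h1, h2, h3⟩ := eventually_nhds_iff.1 ((at_ev he ((hμ.hol.at y).cont.eventually
    ((at_near hχ).and ((χ.continuousAt hχ.2).eventually hO)))).and he.nhds_target)
  have h4 : IsOpen (N ∩ e.symm ⁻¹' (μ ⁻¹' Qᶜ)) :=
    (e.continuousOn_symm.mono fun z hz => (h1 z hz).2).isOpen_inter_preimage h2
      hμ.thin_pre.closed.isOpen_compl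
  refine ⟨N, h2.mem_nhds h3, lt_of_le_of_lt (le_of_eq_of_le ?_ (lintegral_mono_set
    (s := (fun z => χ (μ (e.symm z))) '' (N ∩ e.symm ⁻¹' (μ ⁻¹' Qᶜ))) ?_)) h⟩
  · rw [P284.H451.lint_image h4.measurableSet]
    · refine setLIntegral_congr_fun h4.measurableSet fun z hz => ?_
      simp only [dfM, LinearMap.det_toMatrix', df, e.right_inv (h1 z hz.1).2,
        (h1 z hz.1).1.1.left_inv]
    · intro z hz
      have := (hμ.hol.at _).an (At.of_target he.1 (h1 z hz.1).2) (h1 z hz.1).1.1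
      rw [e.right_inv (h1 z hz.1).2] at this
      exact this.differentiableAt
    · exact fun z hz z' hz' k => e.symm.injOn (h1 z hz.1).2 (h1 z' hz'.1).2
        (hμ.inj hz'.2 (χ.injOn (h1 z hz.1).1.1.2 (h1 z' hz'.1).1.1.2 k))
  · rintro _ ⟨z, hz, rfl⟩
    refine ⟨(h1 z hz.1).1.2, ?_⟩
    rw [mem_preimage, (h1 z hz.1).1.1.left_inv]
    exact hz.2

/-- a general point of a component -/
theorem gen {S : Hm.Snc w V.X} (hμ : Modif w μ Q) (hU : ∀ y, y ∈ S.U ↔ μ y ∉ Q) {j : Fin S.r}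
    {y : V.X} (hy : y ∈ S.G0 j) {σ : W.X → ℂ} (h1 : Hol w σ (μ y)) (h2 : Nz σ (μ y)) :
    ∃ᶠ x in 𝓝 y, x ∈ S.G0 j ∧ ∀ᶠ z in 𝓝 x, z ∈ S.U → σ (μ z) ≠ 0 := by
  have h3 := hμ.hol.hol h1
  have h4 : ∃ᶠ x in 𝓝 y, x ∈ off S.G ∧ σ (μ x) ≠ 0 := frequently_frequently_nhds.1
    (((hμ.thin_pre.freq y).and_eventually ((hμ.hol.at y).cont.eventually (h2.near h1))).mono
      fun x k => (((hμ.sbm k.1).freq (hμ.hol.at x) (not_eventually.1 k.2)).and_eventually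
        (hμ.thin_pre.closed.isOpen_compl.mem_nhds k.1)).mono fun z m => ⟨(hU z).2 m.2, m.1⟩)
  obtain ⟨k, h5⟩ := (bdP_of_cont (c := fun _ => 0) continuousAt_id (fun _ _ => le_rfl)
    h3.cont).ord (snc_of S) (h3.near.mono fun _ k _ => k) h4
  obtain ⟨b, k1, -, k2, k3⟩ := h5 _ (leq_eqn S y)
  refine ((k3 j hy.1).and_eventually ((k1.near.and ((k2.and
    (off_iff (leq_eqn S y))).eventually_nhds)).and (eventually_all.2 fun j' : {j' // j' ≠ j} =>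
      (leq_eqn S y j').not_mem_near (hy.2 _ j'.2)))).mono fun x m =>
        ⟨⟨m.1.1, fun j' c => m.2.2 ⟨j', c⟩⟩, ?_⟩
  filter_upwards [m.2.1.2, m.2.1.1.ne_near m.1.2] with z a c d
  exact (a.1 d).trans_ne (mul_ne_zero c (Finset.prod_ne_zero_iff.2 fun j' _ =>
    zpow_ne_zero _ (a.2.1 d j')))

theorem prod_ab {S : Hm.Snc w V.X} {j : Fin S.r} {y : V.X} (hy : y ∈ S.G0 j) (a : Fin S.r → ℕ)
    (x : V.X) : ∏ i, S.ab y i (chartAt (Cm w) y x) ^ ((2 * a j : ℕ) : ℝ) =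
      ‖∏ i, eqn S y i x ^ a i‖ ^ 2 := by
  rw [norm_prod, ← Finset.prod_pow]
  refine Finset.prod_congr rfl fun i _ => ?_
  rw [norm_pow, norm_eqn, Real.rpow_natCast, ← pow_mul, mul_comm]
  by_cases h : i = j
  · rw [h]
  · rw [S.ab_of_not (hy.2 i h), one_pow, one_pow]

/-- moderate growth -/
theorem mod (hG : Hm.StModG) (hL : Hm.StL1L) {S : Hm.Snc w V.X} (hμ : Modif w μ Q) (hS : S.Conn)
    (hU : ∀ y, y ∈ S.U ↔ μ y ∉ Q) {C : Cv V.X S.U} {T : GV w C (Fin n)} (L : Ln T (pull μ l))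
    {H : l.ι → W.X → ℝ} (hH : ∀ i, ∀ y ∈ S.U, μ y ∈ l.U i → L.hY i y = H i (μ y))
    (hc : ∀ i, ∀ y ∉ Q, y ∈ l.U i → ContinuousAt (H i) y) {ch : l.ι → Chart w W.X}
    (hch : ∀ i, ∀ y ∈ l.U i, At (ch i) y)
    (h : ∀ i, ∀ y ∈ l.U i, ∃ (σ : W.X → ℂ) (δ : ℝ), Hol w σ y ∧ Nz σ y ∧ 0 < δ ∧
      LI (ch i) Qᶜ (fun z => ENNReal.ofReal (H i z ^ δ * ‖σ z‖ ^ 2)) y) : L.Mod := by
  refine hG w V.X S C _ T _ L hS fun j ⟨y₀, hy₀⟩ => ?_
  obtain ⟨i, hi⟩ := L.lb.cover y₀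
  obtain ⟨σ, δ, h1, h2, hδ, h3⟩ := h i _ hi
  obtain ⟨y, ⟨hy, k1⟩, k2, k3, k4⟩ := ((gen hμ hU hy₀ h1 h2).and_eventually
    ((lb_near L.lb hi).and ((hμ.hol.at y₀).cont.eventually
      (h1.near.and (li_near h3 (hch i _ hi)))))).exists
  have he := at_chart (n := w) y
  have hχ := hch i _ k2
  have k5 := (hμ.hol.at y).cont.eventually (at_near hχ)
  obtain ⟨a, c, m1, m2, m3⟩ := Nt.Hp.mon (snc_of S) (leq_eqn S y) ((hμ.hol.hol k3).mul
    (hol_det (hol_dfM (hμ.hol.at y) he hχ))) (by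
      filter_upwards [k1, at_near he, k5] with x a b c d
      exact mul_ne_zero (a d) ((imm_iff_det (hμ.hol.at x) b c).1 (hμ.imm ((hU x).1 d))))
  obtain ⟨B, hB, m4⟩ := bdd_near ((m1.cont.inv₀ m2).norm.pow 2)
  obtain ⟨O, hO, m5⟩ := li_pull hμ he hχ k4
  obtain ⟨N, n1, n2, n3⟩ := eventually_nhds_iff.1 ((at_ev he (m3.and (m4.and
    ((m1.ne_near m2).and (lb_near L.lb k2))))).and (he.nhds_target.and hO))
  refine ⟨y, hy, i, k2, hL w V.X S C _ T (L.ψ i) (L.hY i) y _ (lb_near L.lb k2)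
    (fun f z a b => (L.ln i _ f z a b).an) (fun x => L.hY_eq) δ (2 * a j : ℕ) hδ N
    (n2.mem_nhds n3) ?_⟩
  set e := chartAt (Cm w) y
  have n4 : IsOpen (N ∩ e.symm ⁻¹' (μ ⁻¹' Qᶜ)) :=
    (e.continuousOn_symm.mono fun z hz => (n1 z hz).2.1).isOpen_inter_preimage n2
      hμ.thin_pre.closed.isOpen_compl
  have n5 : ∀ z ∈ N ∩ e.symm ⁻¹' (μ ⁻¹' Qᶜ), L.hY i (e.symm z) = H i (μ (e.symm z)) :=
    fun z hz => hH i _ ((hU _).2 hz.2) (n1 z hz.1).1.2.2.2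
  refine IntegrableOn.of_forall_sdiff_eq_zero (s := N ∩ e.symm ⁻¹' (μ ⁻¹' Qᶜ))
    ⟨ContinuousOn.aestronglyMeasurable (.mul (ContinuousOn.rpow_const (ContinuousOn.congr
      (fun z hz => ContinuousAt.continuousWithinAt ?_) n5) fun _ _ => .inr hδ.le)
      (Continuous.continuousOn (continuous_finsetProd _ fun i _ => Continuous.rpow_const ?_
        fun _ => .inr (Nat.cast_nonneg _)))) n4.measurableSet, ?_⟩ n2.measurableSet fun z hz => ?_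
  · exact (hc i _ hz.2 (n1 z hz.1).1.2.2.2).comp (f := fun z => μ (e.symm z))
      (hμ.hol.cont.continuousAt.comp (e.continuousAt_symm (n1 z hz.1).2.1))
  · by_cases k : y ∈ S.G i
    · obtain ⟨r, -, hr⟩ := S.exists_lab k
      rw [funext (S.ab_of_lab k hr)]
      fun_prop
    · rw [funext (S.ab_of_not k)]
      exact continuous_const
  · refine lt_of_le_of_lt ?_ (ENNReal.mul_lt_top (a := ENNReal.ofReal B) ENNReal.ofReal_lt_top
      ((lintegral_mono_set (inter_subset_inter_left _ fun z hz => (n1 z hz).2.2)).trans_lt m5))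
    rw [← lintegral_const_mul' _ _ ENNReal.ofReal_ne_top]
    refine setLIntegral_mono' n4.measurableSet fun z hz => ?_
    obtain ⟨⟨p1, p2, p3, -⟩, p4, -⟩ := n1 z hz.1
    have p5 := prod_ab hy a (e.symm z)
    have p6 := Real.rpow_nonneg (L.hY_nonneg i (e.symm z)) δ
    rw [e.right_inv p4, ← (inv_mul_eq_iff_eq_mul₀ p3).2 p1, norm_mul, norm_mul] at p5
    change ‖(c (e.symm z))⁻¹‖ ^ 2 ≤ B at p2
    beta_reduce
    rw [p5, Real.enorm_eq_ofReal (by positivity), ← n5 z hz, ← ofReal_norm,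
      ← ENNReal.ofReal_pow (norm_nonneg _), ← ENNReal.ofReal_mul (by positivity),
      ← ENNReal.ofReal_mul hB.le]
    refine ENNReal.ofReal_le_ofReal (le_of_eq_of_le ?_ (mul_le_mul_of_nonneg_right p2
      (by positivity)))
    ring
  · rw [Ln.hY, dif_neg fun ⟨x, hx⟩ => hz.2 ⟨hz.1, (hU _).1 (hx ▸ C.mem x)⟩, Real.zero_rpow hδ.ne',
      zero_mul]

/-- the output on the model is an output -/
def comp (hR : REM) (hμ : Modif w μ Q) (hl : IsLB w l) {U : Set V.X} (hU : ∀ y, y ∈ U ↔ μ y ∉ Q)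
    {H₁ : l.ι → V.X → ℝ} {H : l.ι → W.X → ℝ} (hH : ∀ i, ∀ y ∈ U, μ y ∈ l.U i → H₁ i y = H i (μ y))
    (O : Out V U (pull μ l) H₁) : Out W Qᶜ l H :=
  { O with
    μ := fun x => μ (O.μ x)
    B := Q ∪ μ '' O.B
    modif := hμ.comp hR O.modif
    sub := fun y hy => (hU _).1 (O.sub y hy)
    nrm := fun i j y hi hj => by
      obtain ⟨c, g, h1, h2, h3, h4, h5⟩ := O.nrm i j y hi hj
      have h6 : ∀ᶠ x in 𝓝 y, x ∉ O.Q → H₁ i (O.μ x) = H i (μ (O.μ x)) :=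
        (((hμ.hol.comp O.modif.hol).at y).cont.eventually (lb_near hl hi)).mono fun x a b =>
          hH i _ (O.sub x b) a
      refine ⟨c, g, h1, h2, h3, ?_, fun ε hε => (h5 ε hε).imp fun C h7 => ?_⟩
      · filter_upwards [h4, h6] with x a b d using b d ▸ a d
      · filter_upwards [h7, h6] with x a b d using b d ▸ a d }

end Hl

open Hl in
/-- **HLW** -/
theorem hlw_of (hH : Lf.HL) (hR : Rs.RES) (hI : Rs.IDL) (hM : REM) (hC : Hm.StCov)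
    (hG : Hm.StModG) (hL : Hm.StL1L) : HLW := by
  intro w n k B Q D ψ hB hQ hψ h
  have := hB.conn
  obtain ⟨V, μ, S, hμ, h1, h2, h3⟩ := model hR hI hB.kah hQ
  obtain ⟨C, T, L, k1, k2, k3⟩ := line hC hψ hB.lb hQ.closed.isOpen_compl hQ.conn
  obtain ⟨C₁, T₁, L₁, m1, m2, m3⟩ := back hμ h3 L k1 k2
  have h4 : ∀ i, ∀ y ∈ S.U, μ y ∈ B.l.U i → L₁.hY i y = hN D ψ i (μ y) := fun i y hy hi => by
    obtain ⟨x, rfl⟩ := C₁.surj y hy
    obtain ⟨x', a, b⟩ := m3 i x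
    rw [L₁.hY_eq hi, b, k3 i x' (a ▸ hi), a]
  exact (hH w V S C₁ _ T₁ _ L₁ hμ.conn h1 m1 m2 (mod hG hL hμ h2 h3 L₁ h4
    (fun i y a b => hN_cont hψ hB.lb a b) hB.ch h)).map (comp hM hμ hB.lb h3 h4)

end Vale.Agent.P281Z.Pk
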