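import Vale.Agent.P281Z.Pk.Upp

/-!
# P281Z, the canonical bundle formula: inversion of adjunction
-/

open scoped Manifold ContDiff Topology ENNReal
open Set Filter MeasureTheory
open Vale.Agent.P272.K Vale.Agent.P285.H281.FD
open Vale.Agent.P277Z (Hol Nz Dvd hol_const at_chart gW_dvd gW_mul)
open Vale.Agent.P277Z.Slc (LEq Snc)

noncomputable section

namespace Vale.Agent.P281Z.Pk

namespace Lu

theorem od_loc {Y : Type} [TopologicalSpace Y] {S : Set Y} {P : Y → Prop} {y : Y}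
    (h : ∀ᶠ w in 𝓝 y, w ∈ S → ∃ᶠ z in 𝓝 w, z ∈ S ∧ ∀ᶠ z' in 𝓝 z, P z') :
    ∃ W ∈ 𝓝 y, OD S fun z => z ∈ W → P z := by
  refine ⟨_, h, fun x hx => ?_⟩
  by_cases hc : ∃ᶠ w in 𝓝 x, (w ∈ S → ∃ᶠ z in 𝓝 w, z ∈ S ∧ ∀ᶠ z' in 𝓝 z, P z') ∧ w ∈ S
  · exact frequently_frequently_nhds.1 (hc.mono fun w k => (k.1 k.2).mono fun z k' =>
      ⟨k'.1, k'.2.mono fun _ a _ _ => a⟩)
  · exact Frequently.filter_mono (frequently_pure.2 ⟨hx, (not_frequently.1 hc).mono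
      fun z k a b => (k ⟨b, a⟩).elim⟩) (pure_le_nhds x)

theorem young (J : ℝ≥0∞) {t : ℝ} (ht : 0 < t) {s : ℕ} (hs : 0 < s) (θ a : ℝ) :
    J * ENNReal.ofReal (t ^ (a + θ * s - θ)) ≤
      ENNReal.ofReal (t ^ (a + θ * s)) + J ^ s * ENNReal.ofReal (t ^ a) := by
  rcases le_total J (ENNReal.ofReal (t ^ θ)) with h | h
  · refine le_add_right ((mul_le_mul_left h _).trans_eq ?_)
    rw [← ENNReal.ofReal_mul (by positivity), ← Real.rpow_add ht, add_sub_cancel]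
  · obtain ⟨s, rfl⟩ := Nat.exists_eq_succ_of_ne_zero hs.ne'
    refine le_add_left ?_
    rw [pow_succ', mul_assoc, show a + θ * (s + 1 : ℕ) - θ = θ * s + a by push_cast; ring,
      Real.rpow_add ht, ENNReal.ofReal_mul (by positivity), Real.rpow_mul_natCast ht.le,
      ENNReal.ofReal_pow (by positivity)]
    gcongr

theorem tend (α β : ℝ) : Tendsto (fun ε => α + ε * β) (𝓝[>] 0) (𝓝 α) :=
  tendsto_nhdsWithin_of_tendsto_nhds (Continuous.tendsto' (by fun_prop) _ _ (by simp))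

section man

variable {n : ℕ} {X : Type} [TopologicalSpace X] [ChartedSpace (Cm n) X]
  [IsManifold 𝓘(ℂ, Cm n) ω X] {x : X} {φ : X → ℝ≥0∞} {ζ a b : X → ℂ} {D : Set X}

theorem li_add {F : ℂ → ℝ≥0∞} (hF : Measurable F) (hζ : Hol n ζ x)
    (h : Li n (fun y => F (ζ y)) x) (h' : Li n φ x) : Li n (fun y => F (ζ y) + φ y) x := by
  obtain ⟨e, he, U, hU, h⟩ := h
  obtain ⟨U', hU', h'⟩ := h'.at he
  obtain ⟨O, h1, h2, h3⟩ := eventually_nhds_iff.1 ((hζ e he).eventually_analyticAt.and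
    (show ∀ᶠ z in 𝓝 (e x), z ∈ U ∩ U' from inter_mem hU hU'))
  refine ⟨e, he, O, h2.mem_nhds h3, (lintegral_add_left' (hF.comp_aemeasurable
    (ContinuousOn.aemeasurable (fun z hz => (h1 z hz).1.continuousAt.continuousWithinAt)
      h2.measurableSet)) fun z => φ (e.symm z)).trans_lt ?_⟩
  exact ENNReal.add_lt_top.2 ⟨(lintegral_mono_set fun z hz => (h1 z hz).2.1).trans_lt h,
    (lintegral_mono_set fun z hz => (h1 z hz).2.2).trans_lt h'⟩

theorem ndvd_mul (h : LEq n D x ζ) (hx : x ∈ D) (ha : Hol n a x) (hb : Hol n b x)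
    (k : ¬ Dvd n ζ a x) (k' : ¬ Dvd n ζ b x) : ¬ Dvd n ζ (fun y => a y * b y) x := fun d => by
  have he := at_chart (n := n) x
  rw [← gW_dvd he h.hol (ha.mul hb), gW_mul he ha hb] at d
  exact ((Md.leq_prime he h hx).dvd_or_dvd d).elim (fun d => k ((gW_dvd he h.hol ha).1 d))
    fun d => k' ((gW_dvd he h.hol hb).1 d)

end man

/-- from the base to the total space -/
theorem lift (hF : FUB) (hM : MU) {w e m : ℕ} {B : Bs w} {E : Et B e m} (hE : E.Geo) {i : B.l.ι}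
    {x : E.X.X} (hi : E.g x ∈ B.l.U i) {ζ : B.W.X → ℂ} (hζ : Hol w ζ (E.g x)) {F : ℂ → ℝ≥0∞}
    (hm : Measurable F) {ε : ℝ} (h : Li w (fun z => E.J i ε z * F (ζ z)) (E.g x)) :
    Li (w + e) (fun y => E.wt ε y * F (ζ (E.g y)) *
      tm m (E.O i ∩ E.g ⁻¹' E.Qᶜ) (E.t i) (chartAt _ x) y) x := by
  classical
  have hχ := hE.base.ch i _ hi
  obtain ⟨U, hU, h⟩ := h.at hχ
  obtain ⟨O, h1, h2, h3⟩ := mem_nhds_iff.1 hU
  obtain ⟨V, k1, k2, k3⟩ := eventually_nhds_iff.1 (hζ.near.and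
    (((B.ch i).continuousAt hχ.2).eventually (h2.eventually_mem h3)))
  have k4 : Measurable (V.piecewise ζ 0) := ContinuousOn.measurable_piecewise (fun z hz =>
    (k1 z hz).1.cont.continuousWithinAt) continuousOn_const k2.measurableSet
  let W : B.W.X → ℝ≥0∞ := V.indicator fun z => F (V.piecewise ζ 0 z)
  have k5 : ∀ z ∈ V, W z = F (ζ z) := fun z hz =>
    (indicator_of_mem hz _).trans (congrArg F (piecewise_eq_of_mem _ _ _ hz))
  have k6 : Measurable (E.wt ε) := (hE.cont.measurable.pow_const ε).ennreal_ofReal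
  have k7 : Measurable fun y => E.wt ε y * W (E.g y) :=
    k6.mul (((hm.comp k4).indicator k2.measurableSet).comp hE.hol.cont.measurable)
  have k8 : ∀ y, ∫⁻ x, E.wt ε x * W (E.g x) ∂E.ν i y = E.J i ε y * W y := fun y => by
    have : ∀ᵐ x ∂E.ν i y, E.g x = y := by
      show E.ν i y (E.g ⁻¹' {y})ᶜ = 0
      unfold Et.ν fm
      split_ifs with c
      exacts [c.choose_spec.1, rfl]
    rw [Et.J, ← lintegral_mul_const _ k6]
    exact lintegral_congr_ae (this.mono fun x hx => by simp only [hx])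
  have k9 : ∫⁻ y, E.wt ε y * W (E.g y) ∂E.μ i < ⊤ := by
    rw [(hF _ _ _ _ _ hE i _ k7).2]
    refine lt_of_le_of_lt ?_ ((lintegral_mono_set h1).trans_lt h)
    rw [← lintegral_indicator h2.measurableSet]
    refine le_trans (setLIntegral_mono' ((B.ch i).isOpen_inter_preimage_symm
      ((hE.base.lb.isOpen i).sdiff hE.thin.closed)).measurableSet fun z hz => ?_)
      (setLIntegral_le_lintegral _ _)
    rw [k8]
    by_cases c : (B.ch i).symm z ∈ V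
    · rw [k5 _ c, indicator_of_mem ((B.ch i).right_inv hz.1 ▸ (k1 _ c).2)]
    · rw [show W _ = 0 from indicator_of_notMem c _, mul_zero]
      exact zero_le
  have he := at_chart (n := w + e) x
  have k10 := hM _ _ _ _ _ hE i _ he.1 _ (k7.indicator (chartAt _ x).open_source.measurableSet)
    fun y hy => indicator_of_notMem hy _
  refine Li.mono (φ := fun y => (chartAt _ x).source.indicator (fun y => E.wt ε y * W (E.g y)) y *
    tm m (E.O i ∩ E.g ⁻¹' E.Qᶜ) (E.t i) (chartAt _ x) y) ⟨_, he, _,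
    (chartAt _ x).open_target.mem_nhds ((chartAt _ x).map_source he.2),
    k10.ge.trans_lt ((lintegral_mono fun y => indicator_le_self _ _ y).trans_lt k9)⟩
    ENNReal.one_ne_top ?_
  filter_upwards [at_near he, hE.hol.cont.continuousAt.eventually (k2.eventually_mem k3)]
    with y m1 m2
  rw [one_mul, indicator_of_mem m1.2, k5 _ m2]

variable {w e p m : ℕ} {F : Fd w e p m} {k : ℝ} {h : F.d.l.ι → F.T.Y.X → ℝ}

/-- the bound for the leading coefficient at general points -/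
theorem base (hF : F.Or) (hN : F.d.E.Nm F.d.Q k h) (hb : F.Hb h) (j : Fin F.k) (N : ℕ)
    {Q : Set F.T.Y.X} (hQ : Thin w Q) (hQ' : F.d.Q ⊆ Q) :
    ∃ y₁ ∈ F.D j, ∃ P, OD (F.D j) P ∧ ∃ (i : F.d.l.ι) (ζ : Fin F.k → F.T.Y.X → ℂ),
      ∀ᶠ y in 𝓝 y₁, y ∈ F.d.l.U i ∧ (∀ l, LEq w (F.D l) y (ζ l)) ∧ (P y →
        (∀ j', j' ≠ j → y ∉ F.D j') → (∀ᶠ z in 𝓝 y, z ∈ Q → z ∈ F.D j) ∧ LI (F.d.ch i) Qᶜ
          (fun z => ENNReal.ofReal (h i z ^ (m * N) *
            ‖ζ j z‖ ^ (2 * ⌊(F.b j : ℝ) * (N / F.a)⌋))) y) := by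
  classical
  have hm : (0 : ℝ) < m := Nat.cast_pos.2 hF.ok.pos
  have ha : (0 : ℝ) < F.a := Nat.cast_pos.2 hF.pos
  obtain ⟨y, hy⟩ := (hF.sn.connD j).nonempty
  obtain ⟨i, hi⟩ := hF.ok.base.lb.cover y
  obtain ⟨i', hi'⟩ := hF.lbM.cover (F.γ y)
  obtain ⟨ζ, hζ⟩ := Hyp.of_snc hF.sn.snc y
  obtain ⟨-, g, -, g1, g2, -, g3⟩ := hb i i' y hi hi'
  obtain ⟨β, b1, -, b2, b3⟩ := hF.oq i i' y hi hi' ζ hζ
  obtain ⟨τ, t1, t2, t3⟩ := hQ.nz y
  obtain ⟨r, η, e1, e2, e3⟩ := Md.exists_ord (hζ j) hy (g1.mul t1) (Nz.mul g1 t1 g2 t2)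
  set j' := ⌊(F.b j : ℝ) * (N / F.a)⌋
  obtain ⟨ε, e4, e5⟩ := (((tend (2 * (j' + 1 - F.b j * (N / F.a))) (-(r * (N / F.a)))).eventually
    (lt_mem_nhds (mul_pos two_pos (sub_pos.2 (Int.lt_floor_add_one _))))).and
      self_mem_nhdsWithin).exists
  obtain ⟨C, hC⟩ := g3 ε e5
  obtain ⟨W, w1, w2⟩ := od_loc (S := F.D j) (P := fun z => η z * β z ≠ 0) (y := y) (by
    filter_upwards [Md.ndv (hζ j) hy (e1.mul b1) (ndvd_mul (hζ j) hy e1 b1 e2
      (not_dvd_of (hζ j) (b3 j hy))), (e1.mul b1).near.eventually_nhds] with z m1 m2 m3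
      using ((m1 m3).and_eventually m2).mono fun z' m4 => ⟨m4.1.1, m4.2.ne_near m4.1.2⟩)
  refine ⟨y, hy, _, w2, i, ζ, ?_⟩
  filter_upwards [lb_near hF.ok.base.lb hi, eventually_all.2 fun l => (hζ l).near, w1, t1.near,
    e1.near, b1.near, (hC.and (b2.and (t3.and e3))).eventually_nhds] with z m1 m2 m3 m4 m5 m6 m7
  refine ⟨m1, m2, fun m8 m9 => ?_⟩
  have n1 := left_ne_zero_of_mul (m8 m3)
  have n2 := right_ne_zero_of_mul (m8 m3)
  constructor
  · filter_upwards [m7, m5.ne_near n1, (m2 j).1] with u s1 s2 s3 s4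
    have s5 := s1.2.2.2
    rw [s1.2.2.1 s4, mul_zero] at s5
    exact s3.1 (eq_zero_of_pow_eq_zero ((mul_eq_zero.1 s5.symm).resolve_right s2))
  obtain ⟨K, n3, n4⟩ := bdd_near (f := fun u => ‖τ u‖ ^ ε * (‖β u‖ ^ 2 * ‖η u‖ ^ ε)⁻¹) (t := z)
    ((m4.cont.norm.rpow_const (.inr e5.le)).mul (((m6.cont.norm.pow 2).mul
      (m5.cont.norm.rpow_const (.inr e5.le))).inv₀ (mul_ne_zero (pow_ne_zero 2 (norm_ne_zero_iff.2 n2))
        (Real.rpow_pos_of_pos (norm_pos_iff.2 n1) ε).ne')))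
  refine of_li (li_wt hF.sn.snc m2 (γ := fun l => (if l = j then (2 * j' : ℝ) else 0) -
    (F.b l * 2 + if l = j then r * ε else 0) * (N / F.a)) fun l hl => ?_) (hF.ok.base.ch i z m1)
    hQ.closed.isOpen_compl (C := ENNReal.ofReal ((|C| * K) ^ (N / F.a : ℝ)))
    ENNReal.ofReal_ne_top ?_
  · obtain rfl : l = j := by_contra fun c => m9 l c hl
    simp only [if_true]
    linarith
  filter_upwards [m7, m5.ne_near n1, m6.ne_near n2, off_iff m2, n4, lb_near hF.ok.base.lb m1]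
    with u s1 s2 s3 s4 s5 s6 s7
  have s8 : u ∉ F.d.Q := fun c => s7 (hQ' c)
  have s9 : u ∈ off F.D := not_not.1 (hF.hQ ▸ s8 :)
  have s10 := (hN i u s6 s8).1
  have s11 := s4.1 s9
  have s12 : h i u ^ (m * F.a) * ∏ l, ‖ζ l u‖ ^ (F.b l * 2 + if l = j then r * ε else 0 : ℝ) ≤
      |C| * K := by
    have s13 := mul_le_mul_of_nonneg_right ((s1.1 s9).trans (le_abs_self C))
      (show 0 ≤ ‖τ u‖ ^ ε * (‖β u‖ ^ 2 * ‖η u‖ ^ ε)⁻¹ by positivity)
    refine le_trans (le_of_eq ?_) (s13.trans (mul_le_mul_of_nonneg_left s5 (abs_nonneg C)))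
    rw [wt_add s11, wt_single, ← wt_rpow ζ, Real.rpow_two, s1.2.1 s9, norm_mul, ← wt_int,
      mul_assoc _ (‖g u‖ ^ ε), ← mul_assoc (‖g u‖ ^ ε), ← Real.mul_rpow (norm_nonneg _)
      (norm_nonneg _), ← norm_mul, s1.2.2.2, norm_mul, norm_pow, Real.mul_rpow (by positivity)
      (norm_nonneg _), Real.rpow_natCast_mul (norm_nonneg _)]
    have : ‖η u‖ ^ ε ≠ 0 := by positivity
    have : ‖β u‖ ≠ 0 := by positivity
    field_simp
  have s13 := Real.rpow_le_rpow (mul_nonneg (by positivity) (wt_nonneg _ _ _)) s12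
    (show (0 : ℝ) ≤ N / F.a by positivity)
  rw [Real.mul_rpow (by positivity) (wt_nonneg _ _ _), wt_rpow, ← Real.rpow_natCast_mul s10.le,
    show ((m * F.a : ℕ) : ℝ) * (N / F.a) = (m * N : ℕ) by push_cast; field_simp,
    Real.rpow_natCast] at s13
  rw [← ENNReal.ofReal_mul (by positivity)]
  refine ENNReal.ofReal_le_ofReal (le_trans (le_of_eq ?_)
    (mul_le_mul_of_nonneg_right s13 (wt_nonneg _ _ _)))
  rw [mul_assoc, ← wt_add s11]
  simp only [add_sub_cancel]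
  rw [wt_single, ← Real.rpow_intCast]
  push_cast
  rfl

theorem step (hD : DENS) (hU : FUB) (hM : MU) (hF : F.Or) (hN : F.d.E.Nm F.d.Q k h) (hb : F.Hb h)
    {l : F.T.κ} {j : Fin F.k} (hd : Dom F.T.toFb F.A l j) {N : ℕ} (h0 : 0 < N) {Q : Set F.T.Y.X}
    (hQ : Thin w Q) (hQ' : F.d.Q ⊆ Q) (hR : F.d.E.RG (m * N) Q h) :
    ∃ r : ℕ, ∀ ε : ℝ, 0 < ε → 0 < 2 / m * (F.o l : ℝ) + (r * ε + F.A l j *
      (ε - 2 - (ε - 2 - 2 * ⌊(F.b j : ℝ) * (N / F.a)⌋) / (m * N : ℕ))) + 2 := by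
  classical
  have hm : (0 : ℝ) < m := Nat.cast_pos.2 hF.ok.pos
  have hs : 0 < m * N := Nat.mul_pos hF.ok.pos h0
  obtain ⟨y₁, h1, P, h2, i, ζ, h3⟩ := base hF hN hb j N hQ hQ'
  obtain ⟨-, ⟨x, rfl, h4, -, h5⟩, h6, h7, h8⟩ := ((hD _ _ _ _ _ _ hF.sn l j hd (fun _ => True) P
    (fun x hx => Frequently.filter_mono (by simpa using hx) (pure_le_nhds x)) h2 y₁
      h1).and_eventually h3).exists
  obtain ⟨h9, h10⟩ := h8 h5 h4.onlyD
  set j' := ⌊(F.b j : ℝ) * (N / F.a)⌋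
  have hS := hF.sn.ok.snc
  obtain ⟨ξ, hξ⟩ := Hyp.of_snc hS x
  obtain ⟨r, C, c1, c2⟩ := hF.ok.cpb x ξ hξ
  obtain ⟨β, b1, -, b2, b3⟩ := hF.sn.ord j x _ (h7 j) ξ hξ
  refine ⟨r l, fun ε hε => ?_⟩
  set θ := (ε - 2 - 2 * j') / (m * N : ℕ) with hθ
  have k0 : 2 * j' + θ * (m * N : ℕ) = ε - 2 := by
    rw [hθ, div_mul_cancel₀ _ (Nat.cast_pos.2 hs).ne']
    ring
  have k1 := li_of (hR i _ h6 _ _ j' h4.memD (h7 j) (h9.mono fun z c => ⟨c, fun c' =>
    (hF.hQ.ge (fun c'' => c'' j c') :)⟩) h10 ε hε) (hF.ok.base.ch i _ h6)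
  have k2 : ∀ a : ℝ, Measurable fun t : ℂ => ENNReal.ofReal (‖t‖ ^ a) := fun a =>
    (measurable_norm.pow_const a).ennreal_ofReal
  have k3 := li_wt hF.sn.snc h7 (γ := fun l => if l = j then ε - 2 else 0) fun l _ => by
    split_ifs <;> linarith
  simp only [wt_single] at k3
  have k4 := lift hU hM hF.ok.toGeo h6 (h7 j).hol (k2 (ε - 2 - θ)) (ε := ε)
    ((li_add (k2 _) (h7 j).hol k3 k1).mono_off hF.sn.snc ENNReal.one_ne_top (by
      filter_upwards [h9, off_iff h7] with z m1 m2 m3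
      rw [one_mul, indicator_of_mem (mem_compl fun c => m3 j (m1 c)), ← Real.rpow_intCast, ← k0]
      push_cast [- Nat.cast_mul]
      exact young _ (norm_pos_iff.2 (m2.1 m3 j)) hs θ _))
  obtain ⟨x', ⟨m1, m2⟩, m3, m4, m5, m6, m7, m8⟩ := ((b3 l h4.mem).and_eventually (k4.near.and
    ((at_near (at_chart (n := w + e) x)).and ((eventually_all.2 fun l => (hξ l).near).and
      (b1.near.and ((b2.and c2).eventually_nhds.and
        (hF.ok.hol.cont.continuousAt.eventually (lb_near hF.ok.base.lb h6)))))))).exists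
  obtain ⟨K, n1, n2⟩ := bdd_near (f := fun u => (‖β u‖ ^ (ε - 2 - θ))⁻¹) (t := x')
    ((m6.cont.norm.rpow_const (.inl (norm_ne_zero_iff.2 m2))).inv₀
      (Real.rpow_pos_of_pos (norm_pos_iff.2 m2) _).ne')
  refine ord_li hS (hF.ot i _ x' m8 m4) m3 m5 (div_pos two_pos hm)
    (γ := fun l => r l * ε + F.A l j * (ε - 2 - θ)) (C := C ^ ε * K)
    (ψ := fun u => F.d.ρ u ^ ε * ‖ζ j (F.T.f u)‖ ^ (ε - 2 - θ)) (by positivity) ?_ m1
  filter_upwards [m7, n2, m6.ne_near m2, off_iff m5,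
    hF.ok.hol.cont.continuousAt.eventually (lb_near hF.ok.base.lb m8)] with u s1 s2 s3 s4 s5 s6
  have s7 : F.T.f u ∉ F.d.Q := fun c => (hF.hQ ▸ c : F.T.f u ∈ (off F.D)ᶜ) (hF.sn.pre u s6)
  constructor
  · have s8 : 0 ≤ ∏ l, ‖ξ l u‖ ^ r l := by positivity
    have s9 := Real.rpow_le_rpow s8 s1.2.2 hε.le
    rw [Real.mul_rpow c1.le ((mul_nonneg_iff_of_pos_left c1).1 (s8.trans s1.2.2))] at s9
    rw [wt_add (s4.1 s6), ← wt_rpow ξ, ← wt_rpow ξ, mul_mul_mul_comm]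
    simp only [Real.rpow_natCast]
    refine mul_le_mul s9 ?_ (by positivity) ((Real.rpow_nonneg s8 _).trans s9)
    refine le_trans (le_of_eq ?_) (mul_le_mul_of_nonneg_right s2 (by positivity))
    rw [s1.1 s6, norm_mul, Real.mul_rpow (norm_nonneg _) (norm_nonneg _),
      inv_mul_cancel_left₀ (by positivity), norm_prod]
    simp only [zpow_natCast, norm_pow]
  · rw [tm, indicator_of_mem (show u ∈ F.d.E.O i ∩ F.d.E.g ⁻¹' F.d.E.Qᶜ from
      ⟨⟨⟨s5, s7⟩, s6⟩, s7⟩), mul_comm, ENNReal.ofReal_mul' (by positivity)]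
    rfl

end Lu

open Lu in
/-- **LOW** -/
theorem low_of (hD : DENS) (hU : FUB) (hM : MU) : LOW := by
  intro w e p m F hF k h hN hb hR l j hd
  have hm : (0 : ℝ) < m := Nat.cast_pos.2 hF.ok.pos
  have ha : (0 : ℝ) < F.a := Nat.cast_pos.2 hF.pos
  obtain ⟨N, hN', h0⟩ : ∃ N : ℕ, F.A l j * F.a < N ∧ 0 < N := ⟨_, lt_add_one _, Nat.succ_pos _⟩
  have h1 : (0 : ℝ) < N := Nat.cast_pos.2 h0
  obtain ⟨Q, h2, h3, h4⟩ := hR N h0
  obtain ⟨r, h5⟩ := step hD hU hM hF hN hb hd h0 h2 h3 h4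
  have h6 := Int.floor_le ((F.b j : ℝ) * (N / F.a))
  set j' := ⌊(F.b j : ℝ) * (N / F.a)⌋
  have h7 := ge_of_tendsto (tend (2 / m * F.o l + F.A l j * (-2 + (2 + 2 * j') / (m * N)) + 2)
    (r + F.A l j * (1 - 1 / (m * N)))) (eventually_nhdsWithin_of_forall fun ε hε =>
      (h5 ε hε).le.trans_eq (by push_cast; ring))
  have h8 : (j' : ℝ) * F.a ≤ F.b j * N := by rwa [← mul_div_assoc, le_div_iff₀ ha] at h6
  have h9 : (0 : ℝ) ≤ N * (F.a * (F.o l + m) - F.a * m * F.A l j) + F.A l j * F.a +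
      F.A l j * (j' * F.a) := by
    refine (mul_nonneg h7 (show (0 : ℝ) ≤ F.a * m * N / 2 by positivity)).trans_eq ?_
    field_simp
    ring
  by_contra! hc
  have h10 : (F.a * (F.o l + m) + 1 : ℝ) ≤ (F.a * m - F.b j) * F.A l j := by exact_mod_cast hc
  have h11 : (F.A l j * F.a : ℝ) < N := by exact_mod_cast hN'
  nlinarith [mul_le_mul_of_nonneg_left h8 (Nat.cast_nonneg (F.A l j)),
    mul_le_mul_of_nonneg_left h10 h1.le]

end Vale.Agent.P281Z.Pk
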