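import Vale.Agent.P281Z.Pk.Sk
import Vale.Agent.P281Z.Md.Fibm

/-!
# P281Z, the canonical bundle formula: the Iitaka fibration on a log model
-/

open scoped Manifold ContDiff Topology
open Set Filter Function

noncomputable section

namespace Vale.Agent.P281Z.Pk

theorem onem_of (h1 : Md.BIR) (h2 : REM) (h3 : GEN) : ONEM := by
  intro n w p e a m T M₁ u v hT hM h kX kY hδ
  obtain ⟨B, hv⟩ := h.mv
  have hh : Fibn w p fun y => T.h (v y) := hT.fibn.modif hv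
  have c := hT.ok.conn
  have c₁ := hM.conn
  have k₀ := hT.fibn.comp hT.ok.fibn
  have k₁ := hh.comp hM.fibn
  refine ⟨hM, hh, kX, kY, hT.kahB, hT.dim, hT.pos, fun l => ?_, ?_, ?_⟩
  · rcases hδ l with k | k | ⟨l', k⟩
    · exact ⟨m, by rw [k, mul_one]⟩
    · exact ⟨0, by rw [k, mul_zero, Nat.cast_zero]⟩
    · exact k ▸ hT.int l'
  · obtain ⟨S, hS, k⟩ := hT.one
    obtain ⟨Q, hQ, r⟩ := h3 n w T.X T.Y T.f _ T.G hT.ok.fibn.hol hT.ok.snc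
    obtain ⟨Q₁, hQ₁, r₁⟩ := h3 n w M₁.X M₁.Y M₁.f _ M₁.G hM.fibn.hol hM.snc
    refine ⟨_, (hv.pre_thin ((hv.thin.union hQ).union hS)).union hQ₁, fun y hy F₁ i₁ hi₁ => ?_⟩
    simp only [mem_union, mem_preimage, not_or] at hy
    obtain ⟨F, i, hi, -⟩ := (r _ hy.1.1.2).fib hT.dim.1 hT.ok.fibn.hol hT.ok.snc
    have key := Md.FibmH.keyM h1 hT.ok hM h hv hy.1.1.1 (r _ hy.1.1.2) (r₁ y hy.2) hi hi₁ m
    exact ⟨(key 0).1 (k _ hy.1.2 F i hi).1, mt (key 1).2 (k _ hy.1.2 F i hi).2⟩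
  · exact (Md.fibM_of h1 h2 h3 (M := T.fb) (M₁ := (tw T M₁ v).fb) (u := u) (v := fun y => y)
      ⟨c, k₀, hT.ok.snc, hT.ok.bdry⟩ ⟨c₁, k₁, hM.snc, hM.bdry⟩
      ⟨h.mu, ⟨∅, modif_id⟩, fun x => congrArg T.h (h.comm x), h.log⟩ m (e + a) a).1 hT.big

end Vale.Agent.P281Z.Pk
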