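import Vale.Agent.P281Z.Pk.Sk
import Vale.Agent.P281Z.Nt.Ne

/-!
# P281Z, the canonical bundle formula: general points of the divisors
-/

open scoped Manifold ContDiff Topology
open Set Filter Function
open Vale.Agent.P272.K
open Vale.Agent.P277Z (Hol Nz at_chart hol_const)
open Vale.Agent.P277Z.Slc (Ind LEq Snc dd dd_mul dd_congr)

set_option linter.unusedSectionVars false

noncomputable section

namespace Vale.Agent.P281Z.Pk

section od

variable {X : Type} [TopologicalSpace X] {S T : Set X} {P Q : X → Prop} {x : X}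

theorem OD.mono (h : OD S P) (k : ∀ x ∈ S, P x → Q x) : OD S Q := fun x hx =>
  (h x hx).mono fun _ a => ⟨a.1, a.2.mono fun z b c => k z c (b c)⟩

theorem OD.and (h : OD S P) (h' : OD S Q) : OD S fun x => P x ∧ Q x := fun x hx =>
  frequently_frequently_nhds.1 ((h x hx).mono fun y a =>
    ((h' y a.1).and_eventually a.2.eventually_nhds).mono fun _ b =>
      ⟨b.1.1, (b.2.and b.1.2).mono fun _ c d => ⟨c.1 d, c.2 d⟩⟩)

theorem od_of_all (h : ∀ x ∈ S, P x) : OD S P := fun _ hx =>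
  (mem_closure_iff_frequently.1 (subset_closure hx)).mono fun _ a => ⟨a, .of_forall h⟩

theorem od_all {ι : Type} [Fintype ι] {P : ι → X → Prop} (h : ∀ i, OD S (P i)) :
    OD S fun x => ∀ i, P i x := by
  classical
  have : ∀ s : Finset ι, OD S fun x => ∀ i ∈ s, P i x := fun s => by
    induction s using Finset.induction_on with
    | empty => exact od_of_all fun _ _ _ k => absurd k (Finset.notMem_empty _)
    | insert a s _ ih => exact ((h a).and ih).mono fun _ _ k => (Finset.forall_mem_insert _ _ _).2 k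
  exact (this Finset.univ).mono fun _ _ k i => k i (Finset.mem_univ i)

theorem od_compl (hT : IsClosed T) (h : ∀ x ∈ S, ¬ ∀ᶠ y in 𝓝 x, y ∈ S → y ∈ T) :
    OD S fun x => x ∉ T := fun x hx =>
  (not_eventually.1 (h x hx)).mono fun _ a =>
    have k := Classical.not_imp.1 a
    ⟨k.1, mem_of_superset (hT.isOpen_compl.mem_nhds k.2) fun _ b _ => b⟩

theorem OD.freq (h : OD S P) (hx : x ∈ S) : ∃ᶠ y in 𝓝 x, y ∈ S ∧ P y :=
  (h x hx).mono fun _ a => ⟨a.1, a.2.self_of_nhds a.1⟩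

end od

namespace Og

variable {n w : ℕ} {X Y : Type} [TopologicalSpace X] [ChartedSpace (Cm n) X] [TopologicalSpace Y]
  [ChartedSpace (Cm w) Y] [IsManifold 𝓘(ℂ, Cm n) ω X] [IsManifold 𝓘(ℂ, Cm w) ω Y]
  {f : X → Y} {x : X} {ξ c : X → ℂ} {ζ : Y → ℂ} {β : Type} [Fintype β] {D : Set Y}

theorem near_only {κ : Type} [Fintype κ] {G : κ → Set X} (hG : Snc n G) {l : κ}
    (h : ∀ k, k ≠ l → x ∉ G k) : ∀ᶠ y in 𝓝 x, ∀ k, k ≠ l → y ∉ G k :=
  eventually_all.2 fun k => eventually_imp_distrib_left.2 fun a =>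
    (snc_thin hG k).closed.isOpen_compl.mem_nhds (h k a)

theorem od_only {κ : Type} [Fintype κ] {G : κ → Set X} (hG : Snc n G) (l : κ) :
    OD (G l) fun x => ∀ k, k ≠ l → x ∉ G k := fun _ hx =>
  (Nt.Hp.genp hG hx).mono fun _ a => ⟨a.1, (near_only hG a.2).mono fun _ b _ => b⟩

theorem ind_open {h : β → X → ℂ} (hi : Ind n h x) :
    𝓝 (fun a => h a x) ≤ map (fun y a => h a y) (𝓝 x) := by
  obtain ⟨d, hd⟩ := Nat.exists_eq_add_of_le (ind_le hi)
  obtain ⟨Θ, -, h1, -, h2⟩ := exists_co hi hd.symm univ_mem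
  rw [← h2 x h1, ← map_fst_nhds, ← Θ.map_nhds_eq h1, map_map]
  exact (map_congr (mem_of_superset (Θ.open_source.mem_nhds h1) h2)).le

theorem ind_unit {g : β → X → ℂ} (hi : Ind n (Sum.elim (fun _ : Unit => ξ) g) x) (h0 : ξ x = 0)
    (hc : Hol n c x) (h1 : c x ≠ 0) :
    Ind n (Sum.elim (fun (_ : Unit) y => c y * ξ y) g) x := by
  refine ⟨Sum.rec (fun _ => hc.mul (hi.1 (.inl ()))) fun i => hi.1 (.inr i), fun e he => ?_⟩
  have k := (hi.2 e he).units_smul (Sum.elim (fun _ => Units.mk0 _ h1) fun _ => 1)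
  refine (congrArg (fun v => LinearIndependent ℂ v) (funext ?_)).mp k
  rintro (_ | i)
  · exact (dd_mul hc (hi.1 (.inl ())) h0 he).symm
  · exact one_smul ℂˣ (dd (g i) e x)

theorem ind_base {φ : β → Y → ℂ} (hf : HolA n w f x) (hφ : ∀ i, Hol w (φ i) (f x))
    (hi : Ind n (Sum.elim (fun _ : Unit => ξ) fun i z => φ i (f z)) x) (h0 : ξ x = 0)
    (hζ : LEq w D (f x) ζ) (hc : Hol n c x) (h : ∀ᶠ y in 𝓝 x, ζ (f y) = c y * ξ y) :
    Ind w (Sum.elim (fun _ : Unit => ζ) φ) (f x) := by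
  refine ⟨Sum.rec (fun _ => hζ.hol) hφ, fun e' he' => Fintype.linearIndependent_iff.2 fun g hg => ?_⟩
  have he := at_chart (n := n) x
  rw [Fintype.sum_sum_type, Fintype.sum_unique] at hg
  have h1 : ∀ i, g (.inr i) = 0 := fun i => by
    refine Fintype.linearIndependent_iff.1 (hi.2 _ he)
      (Sum.elim (fun _ => g (.inl ()) * c x) fun i => g (.inr i)) ?_ (.inr i)
    rw [Fintype.sum_sum_type, Fintype.sum_unique]
    ext1 v
    have k := DFunLike.congr_fun hg (df f (chartAt (Cm n) x) e' x v)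
    have k1 := DFunLike.congr_fun (((dd_comp hζ.hol hf he he').symm.trans (dd_congr h he)).trans
      (dd_mul hc (hi.1 (.inl ())) h0 he)) v
    have k2 := fun i => DFunLike.congr_fun (dd_comp (hφ i) hf he he') v
    simp only [add_apply, smul_apply, Sum.elim_inl, Sum.elim_inr, sum_apply,
      ContinuousLinearMap.comp_apply, smul_eq_mul, zero_apply] at k k1 k2 ⊢
    simp only [k2, mul_assoc, ← k1, k]
  have h2 : ∑ i, g (.inr i) • dd (Sum.elim (fun _ : Unit => ζ) φ (.inr i)) e' (f x) = 0 :=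
    Finset.sum_eq_zero fun i _ => by rw [h1]; ext1 v; exact zero_mul _
  rw [h2, add_zero] at hg
  rintro (_ | i)
  · exact (smul_eq_zero.1 hg).resolve_right
      ((hζ.2 e' he').2 (by rw [h.self_of_nhds, h0, mul_zero]))
  · exact h1 i

/-- the local normal form `(z, s, t) ↦ (z ^ a, s)` is open -/
theorem opn_loc {φ : Fin (w - 1) → Y → ℂ} (hf : HolA n w f x) (hφ : ∀ i, Hol w (φ i) (f x))
    (hi : Ind n (Sum.elim (fun _ : Unit => ξ) fun i z => φ i (f z)) x) (h0 : ξ x = 0)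
    (hζ : LEq w D (f x) ζ) (hc : Hol n c x) (h1 : c x ≠ 0) {a : ℕ} (ha : 0 < a)
    (h : ∀ᶠ y in 𝓝 x, ζ (f y) = c y * ξ y ^ a) : 𝓝 (f x) ≤ map f (𝓝 x) := by
  obtain ⟨b, rfl⟩ := Nat.exists_eq_succ_of_ne_zero ha.ne'
  have hb := ind_base hf hφ hi h0 hζ (hc.mul ((hi.1 (.inl ())).pow b))
    (h.mono fun y k => k.trans (by rw [pow_succ, ← mul_assoc]; rfl))
  have hw := ind_le hb
  obtain ⟨Θ, -, h2, -, h3⟩ := exists_co (d := 0) hb (by simp at hw ⊢; omega) univ_mem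
  obtain ⟨r, r1, r2⟩ : ∃ r, Hol n r x ∧ ∀ y, r y ^ (b + 1) = c y :=
    ⟨fun y => (c y / c x) ^ (((b + 1 : ℕ) : ℂ)⁻¹) * c x ^ (((b + 1 : ℕ) : ℂ)⁻¹),
      Hol.mul (fun e he => ((hc.div (hol_const _ _) h1) e he).cpow analyticAt_const (by
        simp only [e.left_inv he.2, div_self h1]; exact Complex.one_mem_slitPlane)) (hol_const _ _),
      fun y => by rw [mul_pow, Complex.cpow_nat_inv_pow _ ha.ne', Complex.cpow_nat_inv_pow _ ha.ne',
        div_mul_cancel₀ _ h1]⟩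
  have r0 : r x ≠ 0 := fun k => h1 (by rw [← r2, k, zero_pow ha.ne'])
  let pw : Unit ⊕ Fin (w - 1) → ℂ → ℂ := Sum.elim (fun _ z => z ^ (b + 1)) fun _ => id
  have h4 : IsOpenQuotientMap (Pi.map pw) := .piMap
    (Sum.rec (fun _ => Complex.isOpenQuotientMap_pow (b + 1)) fun _ => IsOpenQuotientMap.id)
  have h5 := (h4.isOpenMap.nhds_le _).trans (map_mono (ind_open (ind_unit hi h0 r1 r0)))
  have h6 : ∀ᶠ y in 𝓝 x, f y ∈ Θ.source ∧ Pi.map pw (fun a => Sum.elim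
      (fun (_ : Unit) y => r y * ξ y) (fun i z => φ i (f z)) a y) = (Θ (f y)).1 := by
    filter_upwards [h, hf.cont (Θ.open_source.mem_nhds h2)] with y k1 k2
    refine ⟨k2, (funext ?_).trans (h3 _ k2).symm⟩
    rintro (_ | i)
    · exact (mul_pow _ _ _).trans (by rw [r2]; exact k1.symm)
    · rfl
  rw [h6.self_of_nhds.2, map_map] at h5
  intro U hU
  filter_upwards [(continuous_fst.continuousAt.comp (Θ.continuousAt h2))
    (h5 (image_mem_map (inter_mem h6 hU))), Θ.open_source.mem_nhds h2] with y ⟨z, k1, k2⟩ k3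
  exact Θ.injOn k1.1.1 k3 (Prod.ext (k1.1.2.symm.trans k2) (Subsingleton.elim _ _)) ▸ k1.2

end Og

section sn

variable {n w : ℕ} {M : Fb n w} {κ : Type} [Fintype κ] {D : κ → Set M.Y.X} {A : M.κ → κ → ℕ}
  {l : M.κ} {j : κ} {x : M.X.X} {ζ : M.Y.X → ℂ}

theorem Sn.hol (h : Sn M D A) : HolM n w M.f := h.ok.fibn.hol

theorem Sn.hy (h : Sn M D A) (l : M.κ) : Nt.Hy n (M.G l) := fun x =>
  (h.ok.snc x).elim fun ξ k => ⟨ξ l, k.1 l⟩

theorem Sn.hyD (h : Sn M D A) (j : κ) : Nt.Hy w (D j) := fun y =>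
  (h.snc y).elim fun ξ k => ⟨ξ j, k.1 j⟩

/-- the pull back of a local equation is a monomial -/
theorem Sn.mon (h : Sn M D A) (hζ : LEq w (D j) (M.f x) ζ) {ξ : M.κ → M.X.X → ℂ}
    (hξ : ∀ l, LEq n (M.G l) x (ξ l)) : ∃ c, Hol n c x ∧ c x ≠ 0 ∧
      ∀ᶠ y in 𝓝 x, ζ (M.f y) = c y * ∏ l, ξ l y ^ A l j := by
  obtain ⟨a, c, h1, h2, h3⟩ := Nt.Hp.mon h.ok.snc hξ (h.hol.hol hζ.hol)
    (((h.hol.cont.tendsto x).eventually hζ.1).mono fun y k hy k' => h.pre y hy j (k.1 k'))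
  have h4 : ∀ l, x ∈ M.G l → a l = A l j := fun l hl => Nat.cast_injective (R := ℤ)
    ((ordAt_of_one (k := fun l => a l) hξ h1 (fun k => h2 k.self_of_nhds)
      (h3.mono fun y k _ => by simpa only [zpow_natCast] using k) fun l hl =>
        (mem_closure_iff_frequently.1 (subset_closure hl)).and_eventually (h1.ne_near h2)).unique
      h.ok.snc (h.ord j x ζ hζ) hl)
  classical
  have h5 : ∀ l, x ∉ M.G l → ξ l x ^ A l j ≠ 0 := fun l hl => pow_ne_zero _ (mt (hξ l).mem.1 hl)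
  refine ⟨fun y => c y * ∏ l, if x ∈ M.G l then 1 else ξ l y ^ a l / ξ l y ^ A l j,
    h1.mul (Hol.prod _ fun l _ => ?_), mul_ne_zero h2 (Finset.prod_ne_zero_iff.2 fun l _ => ?_), ?_⟩
  · split_ifs with k
    exacts [hol_const _ _, ((hξ l).hol.pow _).div ((hξ l).hol.pow _) (h5 l k)]
  · split_ifs with k
    exacts [one_ne_zero, div_ne_zero (pow_ne_zero _ (mt (hξ l).mem.1 k)) (h5 l k)]
  · filter_upwards [h3, eventually_all.2 fun l => eventually_imp_distrib_left.2 fun k =>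
      ((hξ l).hol.pow _).ne_near (h5 l k)] with y k1 k2
    rw [k1, mul_assoc, ← Finset.prod_mul_distrib]
    refine congrArg _ (Finset.prod_congr rfl fun l _ => ?_)
    split_ifs with k
    exacts [by rw [h4 l k, one_mul], (div_mul_cancel₀ _ (k2 l k)).symm]

theorem Sn.mem (h : Sn M D A) (ha : 0 < A l j) (hx : x ∈ M.G l) : M.f x ∈ D j := by
  obtain ⟨ζ, hζ⟩ := h.hyD j (M.f x)
  obtain ⟨ξ, hξ, -⟩ := h.ok.snc x
  obtain ⟨c, -, -, k⟩ := h.mon hζ hξ
  rw [← hζ.mem, k.self_of_nhds, Finset.prod_eq_zero (Finset.mem_univ l), mul_zero]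
  rw [(hξ l).mem.2 hx, zero_pow ha.ne']

/-- at a point which lies on one component -/
theorem Sn.one (h : Sn M D A) (hζ : LEq w (D j) (M.f x) ζ) {ξ : M.X.X → ℂ}
    (hξ : LEq n (M.G l) x ξ) (ho : ∀ k, k ≠ l → x ∉ M.G k) :
    ∃ c, Hol n c x ∧ c x ≠ 0 ∧ ∀ᶠ y in 𝓝 x, ζ (M.f y) = c y * ξ y ^ A l j := by
  classical
  obtain ⟨ξ', h1, -⟩ := h.ok.snc x
  have h2 : ∀ k, LEq n (M.G k) x (update ξ' l ξ k) := fun k => by
    rcases eq_or_ne k l with rfl | a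
    exacts [by rwa [update_self], by rw [update_of_ne a]; exact h1 k]
  obtain ⟨c, c1, c2, c3⟩ := h.mon hζ h2
  refine ⟨fun y => c y * ∏ k ∈ Finset.univ.erase l, update ξ' l ξ k y ^ A k j,
    c1.mul (Hol.prod _ fun k _ => (h2 k).hol.pow _), mul_ne_zero c2 (Finset.prod_ne_zero_iff.2
      fun k a => pow_ne_zero _ (mt (h2 k).mem.1 (ho k (Finset.ne_of_mem_erase a)))),
    c3.mono fun y k => ?_⟩
  rw [k, ← Finset.prod_erase_mul _ _ (Finset.mem_univ l), update_self, mul_assoc]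

theorem Sn.pos (h : Sn M D A) (ho : ∀ k, k ≠ l → x ∉ M.G k) (hx : M.f x ∈ D j) : 0 < A l j := by
  obtain ⟨ζ, hζ⟩ := h.hyD j (M.f x)
  obtain ⟨ξ, hξ⟩ := h.hy l x
  obtain ⟨c, -, c2, c3⟩ := h.one hζ hξ ho
  refine Nat.pos_of_ne_zero fun k => c2 ?_
  rw [← hζ.mem.2 hx, c3.self_of_nhds, k, pow_zero, mul_one]

/-- `f` is open at a general point of `G l`, and the preimage of `D j` is `G l` -/
theorem Sn.opn (h : Sn M D A) (ha : 0 < A l j) (hx : x ∈ M.G l) (ho : ∀ k, k ≠ l → x ∉ M.G k)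
    (hn : NeAt M l x) {P : M.X.X → Prop} (hP : ∀ᶠ z in 𝓝 x, P z) :
    ∀ᶠ y in 𝓝 (M.f x), ∃ z, M.f z = y ∧ P z ∧ (y ∈ D j ↔ z ∈ M.G l) := by
  obtain ⟨ζ, hζ⟩ := h.hyD j (M.f x)
  obtain ⟨ξ, φ, h1, h2, h3⟩ := hn
  obtain ⟨c, c1, c2, c3⟩ := h.one hζ h1 ho
  have h4 : ∀ᶠ z in 𝓝 x, P z ∧ (M.f z ∈ D j ↔ z ∈ M.G l) := by
    filter_upwards [hP, c3, c1.ne_near c2, h1.1, (h.hol.cont.tendsto x).eventually hζ.1]
      with z k1 k2 k3 k4 k5
    refine ⟨k1, ?_⟩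
    rw [← k5, ← k4, k2, mul_eq_zero, or_iff_right k3, pow_eq_zero_iff ha.ne']
  filter_upwards [Og.opn_loc (h.hol.at x) h2 h3 (h1.mem.2 hx) hζ c1 c2 ha c3 (image_mem_map h4)]
    with y ⟨z, k1, k2⟩ using ⟨z, k2, k1.1, k2 ▸ k1.2⟩

theorem neAt_iff (hf : HolM n w M.f) (hx : x ∈ M.G l) : NeAt M l x ↔ Nt.NE n w M.f (M.G l) x :=
  ⟨fun ⟨_, _, h1, h2, h3⟩ => Nt.ne_of_ind (hf.at x) h1 h2 (by simp; omega) h3,
    fun h => h.ind (hf.at x) hx⟩

theorem Sn.od_ne (h : Sn M D A) (hl : ∃ x ∈ M.G l, NeAt M l x) :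
    OD (M.G l) fun x => (∀ k, k ≠ l → x ∉ M.G k) ∧ NeAt M l x := by
  have h1 := Nt.an_ne h.hol (h.hy l)
  obtain ⟨x, hx, hn⟩ := hl
  exact (Og.od_only h.ok.snc l).and ((od_compl h1.closed fun y hy k =>
    (Nt.Hp.idh (h.connG l).isPreconnected (h.hy l) h1 hy k hx).2 ((neAt_iff h.hol hx).1 hn)).mono
      fun y hy k => (neAt_iff h.hol hy).2 (by_contra fun a => k ⟨hy, a⟩))

/-- the image of `G l` contains an open piece of `D j` -/
theorem Sn.piece (h : Sn M D A) (hd : Dom M A l j) :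
    ∃ y ∈ D j, ∀ᶠ z in 𝓝 y, z ∈ D j → z ∈ M.f '' M.G l := by
  obtain ⟨x, hx, -⟩ := id hd.2
  obtain ⟨y, k1, k2, k3⟩ := ((h.od_ne hd.2).freq hx).exists
  exact ⟨_, h.mem hd.1 k1, (h.opn hd.1 k1 k2 k3 (.of_forall fun _ => trivial)).mono
    fun _ ⟨z, a, _, b⟩ c => ⟨z, b.1 c, a⟩⟩

theorem Sn.img (hR : REM) (h : Sn M D A) (hd : Dom M A l j) : M.f '' M.G l = D j := by
  obtain ⟨y, k1, k2⟩ := h.piece hd
  exact (image_subset_iff.2 fun x hx => h.mem hd.1 hx).antisymm (Nt.Hp.idh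
    (h.connD j).isPreconnected (h.hyD j) (hR _ _ _ _ _ _ h.hol (an_of_leq (h.hy l))) k1 k2)

end sn

theorem opn : OPN := by
  intro n w M κ _ D A h l j x hx P hP
  filter_upwards [h.opn (h.pos hx.only hx.memD) hx.mem hx.only hx.ne
    (hP.and (Og.near_only h.ok.snc hx.only))] with y ⟨z, k1, k2, k3⟩ k4
  have k5 : z ∈ off M.G := fun k a => (eq_or_ne k l).elim
    (fun b => k4 j (k3.2 (b ▸ a))) fun b => k2.2 k b a
  exact ⟨z, k5, k1, k2.1 k5⟩

theorem dens_of (hR : REM) : DENS := by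
  intro n w M κ _ D A h l j hd P P' hP hP' y hy
  obtain ⟨x, hx, rfl⟩ := (h.img hR hd).symm ▸ hy
  refine frequently_frequently_nhds.1 ((h.hol.cont.tendsto x).frequently
    ((((h.od_ne hd.2).and hP) x hx).mono fun z ⟨k1, k2⟩ => ?_))
  have k3 := (k2.self_of_nhds k1).1
  refine (((hP'.and (Og.od_only h.snc j)).freq (h.mem hd.1 k1)).and_eventually
    (h.opn hd.1 k1 k3.1 k3.2 k2)).mono fun v ⟨a, u, b, c, d⟩ => ?_
  have e := c (d.1 a.1)
  exact ⟨u, b, ⟨d.1 a.1, e.1.1, b ▸ a.1, b ▸ a.2.2, e.1.2⟩, e.2, a.2.1⟩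

theorem geny : GENY := by
  intro n w M κ _ D A h
  refine ⟨fun j => ?_, fun l j j' hd ha => by_contra fun k => ?_, fun l hl =>
    (Og.od_only h.ok.snc l).mono fun x _ k j a => (h.pos k a).ne' (hl j)⟩
  · have h1 : ∀ l, OD (D j) fun y => (∃ x ∈ M.G l, NeAt M l x) ∨ y ∉ M.f '' M.G l := fun l => by
      by_cases k : ∃ x ∈ M.G l, NeAt M l x
      · exact od_of_all fun _ _ => .inl k
      · exact (od_compl ((snc_thin h.ok.snc l).closed.isCompact.image h.hol.cont).isClosed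
          fun y hy => (h.hyD j y).elim fun ζ hζ => (Nt.sml n w M.X M.Y M.f _ h.hol (h.hy l)
            fun x hx a => k ⟨x, hx, (neAt_iff h.hol hx).2 a⟩).1 _ y ζ hζ hy).mono fun _ _ => .inr
    refine ((Og.od_only h.snc j).and (od_all h1)).mono fun y _ k => ⟨k.1, ?_⟩
    rintro l x hx rfl ⟨j', a⟩
    obtain rfl : j' = j := by_contra fun b => k.1 j' b (h.mem a hx)
    exact ⟨a, (k.2 l).resolve_right (not_not.2 ⟨x, hx, rfl⟩)⟩
  · obtain ⟨y, k1, k2⟩ := h.piece hd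
    obtain ⟨z, a, b⟩ := ((Nt.Hp.genp h.snc k1).and_eventually k2).exists
    obtain ⟨x, hx, rfl⟩ := b a.1
    exact a.2 j' k (h.mem ha hx)

end Vale.Agent.P281Z.Pk
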