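import Vale.Agent.P281Z.Pk.Sk
import Vale.Agent.P281Z.Lf.Polar

/-!
# P281Z, the canonical bundle formula: the rows ORDS and ORDQ
-/

open scoped Manifold ContDiff Topology ENNReal Matrix
open Set Filter
open Vale.Agent.P272.K Vale.Agent.P285.H281.FD
open Vale.Agent.P277Z (Hol Mer Nz)
open Vale.Agent.P277Z.Slc (LEq Snc)

noncomputable section

namespace Vale.Agent.P281Z.Pk

namespace Os

variable {n : ℕ} {V : Mf n} {κ : Type} [Fintype κ] {G : κ → Set V.X}

/-- meromorphic functions which are holomorphic off `G` have an order -/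
theorem mer_ord (hG : Snc n G) {u : V.X → ℂ} {x : V.X} (h : Mer n u x)
    (hu : ∀ᶠ y in 𝓝 x, y ∈ off G → Hol n u y) (h0 : ∃ᶠ y in 𝓝 x, y ∈ off G ∧ u y ≠ 0) :
    ∃ k, OrdAt n G k u x := by
  obtain ⟨ζ, hζ⟩ := Hyp.of_snc hG x
  obtain ⟨C, A, h1⟩ := (Lf.mon n V κ G x ζ u hG hζ h hu).1
  refine BdP.ord (c := fun _ => A) hG (bdP_of_one continuousAt_id hζ (C := C) ?_) hu h0
  simpa only [Real.rpow_natCast, id] using h1

/-- the order is constant along connected components -/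
theorem glob (hG : Snc n G) (hc : ∀ l, IsPreconnected (G l)) {I : Type} (U : I → V.X → Prop)
    (s : I → V.X → ℂ) (hU : ∀ a x, U a x → ∀ᶠ y in 𝓝 x, U a y) (cov : ∀ x, ∃ a, U a x)
    (ex : ∀ a x, U a x → ∃ k, OrdAt n G k (s a) x)
    (tr : ∀ k a b x, U a x → U b x → OrdAt n G k (s b) x → OrdAt n G k (s a) x) :
    ∃ k : κ → ℤ, ∀ a x, U a x → OrdAt n G k (s a) x := by
  classical
  have h2 : ∀ x, ∃ k, ∀ a, U a x → OrdAt n G k (s a) x := fun x => by
    obtain ⟨b, hb⟩ := cov x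
    exact (ex b x hb).imp fun k m a ha => tr k a b x ha hb m
  choose o ho using h2
  have h3 : ∀ l, ∀ x ∈ G l, ∀ y ∈ G l, o x l = o y l := fun l x hx y hy =>
    (hc l).constant (f := fun x => o x l) (fun z _ => by
      obtain ⟨a, ha⟩ := cov z
      refine continuousWithinAt_const.congr_of_eventuallyEq (eventually_nhdsWithin_iff.2 ?_) rfl
      filter_upwards [(ho z a ha).near (.of_snc hG), hU a z ha] with w r1 r2 r3
        using (ho w a r2).unique hG r1 r3) hx hy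
  refine ⟨fun l => if m : (G l).Nonempty then o m.choose l else 0, fun a x ha =>
    (ho x a ha).chg fun l hl => ?_⟩
  have m : (G l).Nonempty := ⟨x, hl⟩
  rw [dif_pos m]
  exact h3 l x hl _ m.choose_spec

/-- the order of the pull back of a hypersurface -/
theorem pb_ord {w : ℕ} {W : Mf w} {f : V.X → W.X} (hf : HolM n w f) (hG : Snc n G)
    (hc : ∀ l, IsConnected (G l)) {D : Set W.X} (hD : ∀ y, ∃ ζ, LEq w D y ζ)
    (pre : ∀ x ∈ off G, f x ∉ D) :
    ∃ a : κ → ℕ, ∀ x ζ, LEq w D (f x) ζ → OrdAt n G (fun l => a l) (fun z => ζ (f z)) x := by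
  have hb : ∀ x ζ, LEq w D (f x) ζ → BdP n id G (fun _ => 0) (fun z => ζ (f z)) x :=
    fun x ζ h => bdP_of_cont continuousAt_id (fun _ _ => le_rfl) (hf.hol h.hol).cont
  obtain ⟨k, hk⟩ := glob hG (fun l => (hc l).2) (fun (ζ : W.X → ℂ) x => LEq w D (f x) ζ)
    (fun ζ z => ζ (f z)) (fun ζ x h => hf.cont.continuousAt.eventually h.near) (fun x => hD _)
    (fun ζ x h => (hb x ζ h).ord hG ((hf.hol h.hol).near.mono fun _ m _ => m)
      ((((Hyp.of_snc hG).freq x).and_eventually (hf.cont.continuousAt.eventually h.1)).mono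
        fun y m => ⟨m.1, mt m.2.1 (pre y m.1)⟩))
    fun k ζ ζ' x h h' m => by
      obtain ⟨u, h1, h2, h3⟩ := leq_unit h' h
      exact m.unit (hf.hol h1) h2 ((hf.cont.continuousAt.eventually h3).mono fun _ r _ => r)
  refine ⟨fun l => (k l).toNat, fun x ζ h => (hk ζ x h).chg fun l hl => ?_⟩
  have h1 := ((hk ζ x h).bdP_iff hG).1 (hb x ζ h) l hl
  rw [zero_add] at h1
  exact (Int.toNat_of_nonneg (by exact_mod_cast h1)).symm

end Os

open Os

/-- **ORDQ** -/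
theorem ordq : ORDQ := by
  intro w r a W Z γ l M q κ _ D hγ hl hM hD hc h1 h2
  have hU : ∀ i j y, y ∈ l.U i ∧ γ y ∈ M.U j → ∀ᶠ z in 𝓝 y, z ∈ l.U i ∧ γ z ∈ M.U j :=
    fun i j y h => (lb_near hl h.1).and (hγ.cont.continuousAt.eventually (lb_near hM h.2))
  obtain ⟨b, hb⟩ := glob hD (fun j => (hc j).2)
    (fun (i : l.ι × M.ι) y => y ∈ l.U i.1 ∧ γ y ∈ M.U i.2) (fun i => q i.1 i.2)
    (fun i => hU i.1 i.2)
    (fun y => (hl.cover y).elim fun i hi => (hM.cover (γ y)).elim fun j hj => ⟨(i, j), hi, hj⟩)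
    (fun i y h => mer_ord hD (h1 _ _ y h.1 h.2).1
      ((hU _ _ y h).mono fun z m hz => ((h1 _ _ z m.1 m.2).2 hz).1)
      ((((Hyp.of_snc hD).freq y).and_eventually (hU _ _ y h)).mono
        fun z m => ⟨m.1, ((h1 _ _ z m.2.1 m.2.2).2 m.1).2⟩))
    fun k i i' y h h' m => by
      have h3 := hM.ne_zero _ _ _ h.2 h'.2
      refine m.unit (w := fun z => l.g i.1 i'.1 z ^ a / M.g i.2 i'.2 (γ z))
        (((lb_hol hl h.1 h'.1).pow a).div (hγ.hol (lb_hol hM h.2 h'.2)) h3)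
        (div_ne_zero (pow_ne_zero _ (hl.ne_zero _ _ _ h.1 h'.1)) h3) ?_
      filter_upwards [hU _ _ y h, hU _ _ y h'] with z m1 m2 hz
      rw [div_mul_eq_mul_div, ← h2 _ _ _ _ z m1.1 m2.1 m1.2 m2.2 hz,
        mul_div_cancel_right₀ _ (hM.ne_zero _ _ _ m1.2 m2.2)]
  exact ⟨b, fun i j y hi hj => hb (i, j) y ⟨hi, hj⟩⟩

/-- **ORDS** -/
theorem ords : ORDS := by
  intro w e m M d hM κ _ D hc hD hcD hr pre hQ hE
  have hf := hM.fibn.hol
  have hG := hM.snc
  have hH := Hyp.of_snc hG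
  have hl := hE.base.lb
  choose A hA using fun j => pb_ord hf hG hc (D := D j)
    (fun y => (Hyp.of_snc hD y).elim fun ζ h => ⟨ζ j, h j⟩) fun x hx => pre x hx j
  have hq : ∀ x ∈ off M.G, M.f x ∉ d.Q := fun x hx h => by
    rw [hQ] at h
    exact h (pre x hx)
  have hO : ∀ i x, M.f x ∈ d.l.U i → x ∈ off M.G → x ∈ d.E.O i := fun i x h1 h2 =>
    ⟨⟨h1, hq x h2⟩, h2⟩
  have hU : ∀ i (c : Chart (w + e) M.X.X) x, M.f x ∈ d.l.U i ∧ At c x →
      ∀ᶠ z in 𝓝 x, M.f z ∈ d.l.U i ∧ At c z :=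
    fun i c x h => (hf.cont.continuousAt.eventually (lb_near hl h.1)).and (at_near h.2)
  obtain ⟨o, ho⟩ := glob hG (fun l => (hc l).2)
    (fun (i : d.l.ι × Chart (w + e) M.X.X) x => M.f x ∈ d.l.U i.1 ∧ At i.2 x)
    (fun i => d.t i.1 i.2) (fun i => hU i.1 i.2)
    (fun x => (hl.cover (M.f x)).elim fun i hi => ⟨(i, _), hi, P277Z.at_chart x⟩)
    (fun i x h => by
      obtain ⟨k, a, u, h1, h2⟩ := hE.den i.1 i.2 x h.1 h.2
      have h3 : ∀ᶠ y in 𝓝 x, y ∈ off M.G →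
          (∃ j, a j y ≠ 0) ∧ ∀ j, a j y * d.t i.1 i.2 y = u j y := by
        filter_upwards [h2, hU _ _ x h] with y m1 m2 hy using m1 (hO _ y m2.1 hy)
      obtain ⟨j, hj⟩ : ∃ j, Nz (a j) x := by
        by_contra h4
        simp only [not_exists, Nz, not_not] at h4
        obtain ⟨y, m1, m2, m3⟩ := ((hH.freq x).and_eventually
          (h3.and (eventually_all.2 h4))).exists
        exact (m2 m1).1.elim fun j hj => hj (m3 j)
      refine mer_ord hG ⟨u j, a j, (h1 j).2, (h1 j).1, hj, ?_⟩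
        ((hU _ _ x h).mono fun y m1 hy => hE.thol _ _ y (hO _ y m1.1 hy) m1.2) ?_
      · filter_upwards [P277Z.gen_of_nhds h3, P277Z.gen_of_open (x := x) (.of_forall fun y =>
          (hH.freq y).mono fun z hz => hH.isOpen.mem_nhds hz)] with y m1 m2
        rw [mul_comm]
        exact (m1 m2).2 j
      · exact Frequently.mono (p := fun y => y ∈ d.E.O i.1 ∧ d.t i.1 i.2 y ≠ 0)
          (frequently_frequently_nhds.1 (((hH.freq x).and_eventually (hU _ _ x h)).mono fun y m1 =>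
            (hE.ne _ _ y m1.2.1 (hq y m1.1) m1.2.2).mono fun _ m2 => m2.2)) fun y m1 =>
              ⟨m1.1.2, m1.2⟩)
    fun k i i' x h h' r => by
      have c1 := P277Z.Slc.isLB_can (n := w + e) (W := M.X.X)
      have c2 := P277Z.Slc.isLB_can (n := w) (W := M.Y.X)
      have b1 := hE.base.ch _ _ h.1
      have b2 := hE.base.ch _ _ h'.1
      refine r.unit (w := fun z => d.l.g i'.1 i.1 (M.f z) *
        (jacM (d.ch i'.1) (d.ch i.1) (M.f z)).det ^ m * (jacM i.2 i'.2 z).det ^ m)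
        (((hf.hol (lb_hol hl h'.1 h.1)).mul ((hf.hol (lb_hol c2 b2 b1)).pow m)).mul
          ((lb_hol c1 h.2 h'.2).pow m))
        (mul_ne_zero (mul_ne_zero (hl.ne_zero _ _ _ h'.1 h.1)
          (pow_ne_zero _ (c2.ne_zero _ _ _ b2 b1))) (pow_ne_zero _ (c1.ne_zero _ _ _ h.2 h'.2))) ?_
      filter_upwards [hU _ _ x h, hU _ _ x h'] with z m1 m2 hz
      have h1 := hE.lchg i'.1 i.1 i.2 z (hO _ z m2.1 hz) (hO _ z m1.1 hz) m1.2
      have h2 := hE.tchg i'.1 i.2 i'.2 z (hO _ z m2.1 hz) m1.2 m2.2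
      exact h1.trans ((congrArg _ h2).trans (mul_assoc _ _ _).symm)
  exact ⟨fun l j => A j l, o, ⟨hM, hc, hD, hcD, hr, pre, hA⟩, hQ, hE,
    fun i c x h1 h2 => ho (i, c) x ⟨h1, h2⟩⟩

end Vale.Agent.P281Z.Pk
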