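import Vale.Agent.P281Z.Pk.PlA
import Vale.Agent.P281Z.Pk.Nu
import Vale.Agent.P281Z.Pk.Null
import Vale.Agent.P281Z.Pk.L2x

/-!
# P281Z, the canonical bundle formula: the pull back of the forms (PLU)
-/

open scoped Manifold ContDiff Topology ENNReal
open Set Filter Function MeasureTheory
open Vale.Agent.P272.K Vale.Agent.P285.H281.FD
open Vale.Agent.P277Z (Hol Nz at_chart)
open Vale.Agent.P281Z.Hg (PC IsPC)

noncomputable section

namespace Vale.Agent.P281Z.Pk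

namespace Pl

section gen

variable {w e : ℕ} {X X₁ : Mf (w + e)} {W W₁ : Mf w} {g : X.X → W.X} {g₁ : X₁.X → W₁.X}

/-- a big set minus an analytic set is big -/
theorem big_sd {y : W.X} {O T : Set X.X} (hB : FBig g y O) (hT : An (w + e) T)
    (hd : ∀ x, g x = y → ∃ᶠ z in 𝓝 x, g z = y ∧ z ∉ T) : FBig g y (O \ T) := fun x hx => by
  obtain ⟨h, a1, a2, a3⟩ := hB x hx
  obtain ⟨k, f, b1, b2⟩ := hT x
  obtain ⟨j, hj⟩ : ∃ j, ∃ᶠ z in 𝓝 x, g z = y ∧ h z * f j z ≠ 0 := by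
    refine frequently_exists.1 (frequently_frequently_nhds.1
      ((a2.and_eventually (a1.near.and b2.eventually_nhds)).mono fun x' c => ?_))
    refine ((hd x' c.1.1).and_eventually ((c.2.1.cont.eventually_ne c.1.2).and c.2.2)).mono
      fun z r => ?_
    obtain ⟨j, s⟩ := not_forall.1 (mt r.2.2.2 r.1.2)
    exact ⟨j, r.1.1, mul_ne_zero r.2.1 s⟩
  refine ⟨_, a1.mul (b1 j), hj, ?_⟩
  filter_upwards [a3, b2] with z c1 c2 c3 c4
  exact ⟨c1 c3 (left_ne_zero_of_mul c4), fun r => right_ne_zero_of_mul c4 (c2.1 r j)⟩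

/-- holomorphic functions on the fibres, along a map of fibres -/
theorem fh_pre {σ : X.X → X₁.X} {z : X.X} {φ : X₁.X → ℂ} (hσ : HolA (w + e) (w + e) σ z)
    {q₁ : PC w e X₁.X W₁.X} (hq₁ : IsPC g₁ q₁) (hz₁ : σ z ∈ q₁.2.source)
    (hf : ∀ z', g z' = g z → g₁ (σ z') = g₁ (σ z)) (h : FH g₁ φ (σ z)) :
    FH g (fun z => φ (σ z)) z := fun q hq hz => by
  have k1 : AnV (w + e) (fun z' => (q₁.2 (σ z')).2) z := .pi fun a =>
    hσ.hol ((((Mg.pc_co hq₁).an _ hz₁).cmp analyticAt_snd).hol a)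
  refine ((h q₁ hq₁ hz₁).comp_of_eq (Mg.sl_an hq hz k1) (by rw [q.2.left_inv hz])).congr ?_
  filter_upwards [(Lx.ev_fib hq hz
    (P := fun z' => q₁.2.symm ((q₁.2 (σ z)).1, (q₁.2 (σ z')).2) = σ z')).2
      ((hσ.cont.eventually (Lx.back hq₁ hz₁)).mono fun z' a b => a (hf z' b))] with ζ a
  exact congrArg φ a

end gen

end Pl

open Pl in
/-- **PLU** -/
theorem plu_of (hR : REM) (hJ : PLJ) : PLU := by
  intro w e m M M₁ d u v Q₁ c1 c2 c3 kX kY c4 c5 c6 hU i y hy hQ O hO hs hB φ hφ hL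
  have h : Cx d u v Q₁ := ⟨c1, c2, c3, c4, c5, c6⟩
  have g₁ := h.geo₁ kX kY
  have hvQ := (c6 y hQ).1
  obtain ⟨φ', a1, a2⟩ := l2x_of nu _ _ _ _ _ g₁ i y hy hQ O hO hs hB φ hφ hL
  choose σ hσ using h.wu.surj
  have hT := hR _ _ _ _ u _ h.wu.hol (snc_thin_off c2.snc).an
  set T := u '' (off M₁.G)ᶜ
  have s1 : ∀ z ∉ T, σ z ∈ off M₁.G := fun z k => by_contra fun r => k ⟨_, r, hσ z⟩
  have s2 : ∀ x ∈ off M₁.G, u x ∉ T ∧ σ (u x) = x := fun x k =>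
    ⟨fun ⟨_, a, b⟩ => a (h.wu.one _ _ (h.imm k) b ▸ k), h.wu.one _ _ (h.imm k) (hσ _)⟩
  have s3 : ∀ z, M.f z = v y → M₁.f (σ z) = y := fun z k => (h.fib hQ).1 ((hσ z).symm ▸ k)
  have s4 : ∀ z ∉ T, HolA (w + e) (w + e) σ z := fun z k => by
    obtain ⟨τ, -, b2, -, -, b5⟩ := (h.imm (s1 z k)).inv (h.wu.hol.at _)
    rw [hσ] at b2 b5
    refine b2.cng ?_
    filter_upwards [b5, hT.closed.isOpen_compl.mem_nhds k] with z' a b using
      h.wu.one _ _ (h.imm (s1 z' b)) (a.trans (hσ z').symm)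
  have pc : ∀ x, M₁.f x = y → ∃ q : PC w e M₁.X.X M₁.Y.X, IsPC M₁.f q ∧ x ∈ q.2.source :=
    fun x k => pc_ex h.hf₁ ((c6 y hQ).2.2.sbm h.hf₁ c2.snc k)
  obtain ⟨b1, b2⟩ := bigo _ _ _ _ _ c4 i.1
  obtain ⟨c, hc⟩ := hU i.1 (v y) hy.1 hvQ _ (b1.sdiff hT.closed) (fun _ k => k.1.1)
    (big_sd (b2 _ hy.1 hvQ) hT fun z k => by
      rw [← hσ z]
      refine (h.wu.hol.cont.tendsto _).frequently ((h.freq_off ((s3 z k).symm ▸ hQ)).mono ?_)
      exact fun x r => ⟨(h.fib hQ).2 (r.2.trans (s3 z k)), (s2 x r.1).1⟩)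
    (fun z => φ' (σ z)) (fun z k k' => by
      have r : σ z ∈ (d.pull M₁ u v Q₁).E.O i := Cx.mem_O₁ hy hQ (s3 z k') (s1 z k.2)
      obtain ⟨q, hq, hz⟩ := pc _ (s3 z k')
      exact fh_pre (s4 z k.2) hq hz (fun z' b => (s3 z' (b.trans k')).trans (s3 z k').symm)
        (a1 _ r (s3 z k') ((h.t_ne r (at_chart _) (at_chart _)).2 ((hσ z).symm ▸ k.1.2))))
    fun ε hε => by
      rw [← hJ _ _ _ _ _ _ _ _ _ c1 c2 c3 kX kY c4 c5 c6 i y hy hQ]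
      refine (lintegral_map_le _ _).trans_lt ((lintegral_congr_ae ?_).trans_lt (hL ε hε))
      filter_upwards [measure_eq_zero_iff_ae_notMem.1 (nul_of nu _ _ _ _ _ g₁ i y hy hQ O hO hB),
        measure_eq_zero_iff_ae_notMem.1 (g₁.nu hy hQ).1.1] with x k1 k2
      rw [(s2 x (hs (not_not.1 k1)).2).2, a2 x (not_not.1 k1) (not_not.1 k2)]
      rfl
  refine ⟨c, fun x hx hxy => ?_⟩
  obtain ⟨q, hq, hxq⟩ := pc x hxy
  subst hxy
  refine tendsto_nhds_unique_of_frequently_eq (Lx.fh_cont (hφ x hx rfl) hq hxq) tendsto_const_nhds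
    (frequently_nhdsWithin_iff.2 (((g₁.ne i _ x hy hQ (at_chart x)).and_eventually
      ((hO.eventually_mem hx).and (at_near (at_chart (n := w + e) x)))).mono ?_))
  rintro z ⟨⟨k1, k2, k3⟩, k4, k5⟩
  refine ⟨?_, k1⟩
  rw [← a2 z k4 k1, ← hc (u z) ⟨⟨h.memO k2, (h.t_ne k2 k5 (at_chart _)).1 k3⟩, (s2 z k2.2).1⟩
    ((h.fib hQ).2 k1), (s2 z k2.2).2]

end Vale.Agent.P281Z.Pk
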