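import Vale.Agent.P281Z.Pk.Rl
import Vale.Agent.P281Z.Md.Tr

/-!
# P281Z, the canonical bundle formula: the measures on the fibres of a model (PLJ)
-/

open scoped Manifold ContDiff Topology ENNReal
open Set Filter Function MeasureTheory
open Vale.Agent.P272.K Vale.Agent.P285.H281.FD
open Vale.Agent.P277Z (Hol Nz at_chart hol_const)
open Vale.Agent.P277Z.Slc (Ind LEq Snc isLB_can)
open Vale.Agent.P281Z.Hg (PC IsPC)

set_option linter.unusedSectionVars false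

noncomputable section

namespace Vale.Agent.P281Z.Pk

open Md

namespace Plj

theorem mn_det {n : ℕ} {X : Type} [TopologicalSpace X] (F : X → Cm n) (Θ : Chart n X) (x : X) :
    mn F Θ id x = (fderiv ℂ (fun z => F (Θ.symm z)) (Θ x)).det := by
  rw [ContinuousLinearMap.det, ← LinearMap.det_toMatrix']
  rfl

theorem fbig_diff {w e : ℕ} {X : Mf (w + e)} {W : Mf w} {g : X.X → W.X} {y : W.X} {O T : Set X.X}
    (h : FBig g y O) (hT : An (w + e) T) (k : ∀ x, g x = y → ∃ᶠ x' in 𝓝 x, g x' = y ∧ x' ∉ T) :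
    FBig g y (O \ T) := fun x hx => by
  obtain ⟨a, a1, a2, a3⟩ := h x hx
  obtain ⟨r, b, b1, b2⟩ := hT x
  have h1 : ∃ᶠ x' in 𝓝 x, ∃ j, g x' = y ∧ a x' * b j x' ≠ 0 := frequently_frequently_nhds.1
    ((a2.and_eventually (a1.near.and b2.eventually_nhds)).mono fun z c =>
      ((k z c.1.1).and_eventually ((c.2.1.ne_near c.1.2).and c.2.2)).mono fun z' c' =>
        (not_forall.1 (mt c'.2.2.2 c'.1.2)).imp fun j d => ⟨c'.1.1, mul_ne_zero c'.2.1 d⟩)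
  obtain ⟨j, h2⟩ : ∃ j, ∃ᶠ x' in 𝓝 x, g x' = y ∧ a x' * b j x' ≠ 0 := by
    by_contra c
    exact h1 ((eventually_all.2 fun j => not_frequently.1 (not_exists.1 c j)).mono
      fun _ => not_exists.2)
  exact ⟨_, a1.mul (b1 j), h2, (a3.and b2).mono fun z c d1 d2 =>
    ⟨c.1 d1 (left_ne_zero_of_mul d2), fun d3 => right_ne_zero_of_mul d2 (c.2.1 d3 j)⟩⟩

theorem fbig_univ {w e : ℕ} {X : Mf (w + e)} {W : Mf w} (g : X.X → W.X) (y : W.X) :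
    FBig g y univ := fun x hx =>
  ⟨fun _ => 1, hol_const _ _, (frequently_pure.2 ⟨hx, one_ne_zero⟩).filter_mono (pure_le_nhds x),
    .of_forall fun _ _ _ => trivial⟩

theorem dfM_mn {n : ℕ} {X X₁ : Type} [TopologicalSpace X] [ChartedSpace (Cm n) X]
    [TopologicalSpace X₁] [ChartedSpace (Cm n) X₁] (u : X₁ → X) (c : Chart n X₁) (c' : Chart n X)
    (x : X₁) : (dfM u c c' x).det = mn (fun z => c' (u z)) c id x := rfl

variable {w e m : ℕ} {M M₁ : Fb (w + e) w} {d : Ed M m} {u : M₁.X.X → M.X.X} {v : M₁.Y.X → M.Y.X}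
  {Q₁ : Set M₁.Y.X} (h : M₁.Sq M u v) {i : d.l.ι × Chart w M₁.Y.X} {x : M₁.X.X} {y : M₁.Y.X}

include h

theorem wu : WM (w + e) u := h.mu.elim fun _ k => wm_of k

theorem wv : WM w v := h.mv.elim fun _ k => wm_of k

theorem imm (hx : x ∈ off M₁.G) : Imm (w + e) (w + e) u x := by_contra fun k =>
  let ⟨l, _, a⟩ := h.log.exc x k
  hx l a

theorem not_mem (hx : x ∈ off M₁.G) : u x ∉ u '' (off M₁.G)ᶜ := fun ⟨_, a, b⟩ =>
  a ((wu h).one _ _ (imm h hx) b ▸ hx)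

theorem up (hy : Imm w w v y) (hx : M.f (u x) = v y) : M₁.f x = y :=
  (wv h).one _ _ hy ((h.comm x).symm.trans hx)

/-- the relative forms in product charts -/
theorem rl_pull {q₁ : PC w e M₁.X.X M₁.Y.X} {q : PC w e M.X.X M.Y.X} (h₁ : IsPC M₁.f q₁)
    (hq : IsPC M.f q) (e₁ : q₁.1 = i.2) (e₂ : q.1 = d.ch i.1) (hx : x ∈ q₁.2.source)
    (hx' : u x ∈ q.2.source) (hy : Imm w w v (M₁.f x)) :
    AnalyticAt ℂ (fun z => (q.2 (u (q₁.2.symm ((q₁.2 x).1, z)))).2) (q₁.2 x).2 ∧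
    rl m i.2 M₁.f ((d.pull M₁ u v Q₁).t i) q₁ x =
      (fderiv ℂ (fun z => (q.2 (u (q₁.2.symm ((q₁.2 x).1, z)))).2) (q₁.2 x).2).det ^ m *
        rl m (d.ch i.1) M.f (d.t i.1) q (u x) := by
  have hu := (wu h).hol.at x
  have a₁ := Mg.pc_at h₁ hx
  have a := Mg.pc_at hq hx'
  have a' : At q.1 (v (M₁.f x)) := h.comm x ▸ a
  have c₁ : Ca (qc q₁) x := ⟨qc_co h₁, hx⟩
  have c : Ca (qc q) (u x) := ⟨qc_co hq, hx'⟩
  have b₁ := at_chart (n := w + e) x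
  have b := at_chart (n := w + e) (u x)
  have k0 := anV_comp hu ((Mg.pc_co hq).an _ hx')
  refine ⟨Mg.sl_an (F := fun x => (q.2 (u x)).2) h₁ hx (k0.cmp analyticAt_snd), ?_⟩
  have k1 := Mg.det_blk (Ψ := fun p => q.2 (u (q₁.2.symm p))) (φ := fun z => q.1 (v (q₁.1.symm z)))
    (v := q₁.2 x) (Mg.co_an (Mg.pc_co h₁) hx k0).differentiableAt (by
      rw [(h₁.2.fst x hx).2]
      exact (((wv h).hol.at _).an a₁ a').differentiableAt) (by
      filter_upwards [q₁.2.open_target.mem_nhds (q₁.2.map_source hx),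
        (q₁.2.tendsto_symm hx).eventually (hu.cont.eventually (q.2.open_source.mem_nhds hx'))]
        with p k k'
      obtain ⟨b1, b2⟩ := h₁.2.fst _ (q₁.2.map_target k)
      rw [q₁.2.right_inv k] at b2
      rw [(hq.2.fst _ k').2, b2, q₁.1.left_inv b1, h.comm])
  have k2 : mn (fun z => qc q (u z)) (qc q₁) id x = mn (fun z => q.1 (v z)) q₁.1 id (M₁.f x) *
      (fderiv ℂ (fun z => (q.2 (u (q₁.2.symm ((q₁.2 x).1, z)))).2) (q₁.2 x).2).det := by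
    rw [mn_det, mn_det, ← (h₁.2.fst x hx).2]
    exact k1
  have k3 := (mn_left (f := fun z => z) c₁ (ca_of b₁) (holM_id.at x) (hu.anV b) id).symm.trans
    (mn_left c₁ c hu (anV_chart b) id)
  have k4 : mn (fun z => q.1 (v z)) q₁.1 id (M₁.f x) ≠ 0 := mn_ne_iff.2 (hy _ _ a₁ a')
  rw [rl, rl, ← e₁, ← e₂, Mg.jd_self (co_chart a₁.1) a₁.2, Mg.jd_self (co_chart a.1) a.2,
    Mg.jd_eq c₁.1 (co_chart b₁.1) hx b₁.2, Mg.jd_eq c.1 (co_chart b.1) hx' b.2, ← mn_det, ← mn_det,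
    mul_one, mul_one, mul_left_comm, ← mul_pow]
  simp only [Ed.pull, dfM_mn, ← e₁, ← e₂]
  rw [mul_assoc, ← mul_pow, div_mul_eq_mul_div, k3, k2]
  congr 2
  field_simp

end Plj

open Plj

theorem plj_of (h0 : PLG) (h1 : NU) (h3 : NUL) (h2 : REM) : PLJ := by
  intro w e m M M₁ d u v Q₁ a1 a2 a3 a4 a5 a6 a7 a8 i y hy hQ
  have hf := a1.fibn.hol
  have hf₁ := a2.fibn.hol
  have hI := (a8 y hQ).2.1
  have g₁ := h0 w e m M M₁ d u v Q₁ a1 a2 a3 a4 a5 a6 a7 a8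
  obtain ⟨n₁, -⟩ := h1 _ _ _ _ _ g₁ i y hy hQ
  obtain ⟨n, -⟩ := h1 _ _ _ _ _ a6 i.1 (v y) hy.1 (a8 y hQ).1
  have hu := (wu a3).hol.cont
  have hT := h2 _ _ _ _ u _ (wu a3).hol (snc_thin_off a2.snc).1
  have f₁ : ∀ x, M₁.f x = y → ∃ᶠ x' in 𝓝 x, M₁.f x' = y ∧ x' ∈ off M₁.G := fun x hx =>
    (g₁.ne i _ x (by subst hx; exact hy) (by subst hx; exact hQ) (at_chart x)).mono fun z k => ⟨k.1.trans hx, k.2.1.2⟩
  have z₁ := h3 _ _ _ _ _ g₁ i y hy hQ _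
    (isOpen_univ.sdiff (snc_thin_off a2.snc).closed) (fbig_diff (fbig_univ _ _)
      (snc_thin_off a2.snc).1 fun x hx => (f₁ x hx).mono fun z k => ⟨k.1, not_not.2 k.2⟩)
  have z := h3 _ _ _ _ _ a6 i.1 (v y) hy.1 (a8 y hQ).1 _
    (isOpen_univ.sdiff hT.closed) (fbig_diff (fbig_univ _ _) hT fun x hx => by
      obtain ⟨x, rfl⟩ := (wu a3).surj x
      exact hu.continuousAt.tendsto.frequently ((f₁ x (up a3 hI hx)).mono fun z k =>
        ⟨(a3.comm z).trans (congrArg v k.1), not_mem a3 k.2⟩))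
  choose r hr using (wu a3).surj
  have r1 : ∀ x ∈ off M₁.G, r (u x) = x := fun x k => (wu a3).one _ _ (imm a3 k) (hr _)
  have ho : ∀ U ⊆ off M₁.G, IsOpen U → IsOpen (u '' U) := fun U k1 k2 => isOpen_iff_mem_nhds.2 (by
    rintro _ ⟨x, hx, rfl⟩
    exact (imm_iff_sbm.1 (imm a3 (k1 hx))).ev ((wu a3).hol.at x) (k2.mem_nhds hx))
  refine Mg.uniq (S := M.f ⁻¹' {v y} ∩ (univ \ u '' (off M₁.G)ᶜ))
    (V := fun p : {p : PC w e M₁.X.X M₁.Y.X × PC w e M.X.X M.Y.X // IsPC M₁.f p.1 ∧ IsPC M.f p.2 ∧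
      p.1.1 = i.2 ∧ p.2.1 = d.ch i.1 ∧ p.1.2.source ⊆ off M₁.G} =>
        u '' p.1.1.2.source ∩ p.1.2.2.source)
    (fun p => (ho _ p.2.2.2.2.2 p.1.1.2.open_source).inter p.1.2.2.open_source) ?_ ?_ ?_ ?_
  · rintro x ⟨k1, -, k2⟩
    obtain ⟨x, rfl⟩ := (wu a3).surj x
    have k3 : x ∈ off M₁.G := by_contra fun c => k2 ⟨x, c, rfl⟩
    have k4 := up a3 hI k1
    obtain ⟨q₁, b1, b2, b3, b4⟩ := Mg.ex_pc (hf₁.at x) ((a8 y hQ).2.2.sbm hf₁ a2.snc k4)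
      (χ := i.2) (k4.symm ▸ hy.2) ((snc_open_off a2.snc).mem_nhds k3)
    obtain ⟨q, c1, c2, c3, -⟩ := Mg.ex_pc (hf.at (u x)) ((a6.reg _ (a8 y hQ).1).sbm hf a1.snc k1)
      (χ := d.ch i.1) ((show M.f (u x) = v y from k1).symm ▸ a6.base.ch i.1 _ hy.1) univ_mem
    exact mem_iUnion.2 ⟨⟨(q₁, q), b1, c1, b2, c2, b4⟩, ⟨x, b3, rfl⟩, c3⟩
  · rw [Measure.map_apply hu.measurable (((isClosed_singleton.preimage hf.cont).measurableSet.inter
      (isOpen_univ.sdiff hT.closed).measurableSet).compl)]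
    refine measure_mono_null (fun x hx => ?_) (measure_union_null n₁.1 z₁)
    by_contra c
    simp only [mem_union, mem_compl_iff, not_or, not_not] at c
    exact hx ⟨(a3.comm x).trans (congrArg v c.1), trivial, not_mem a3 (not_not.1 c.2.2)⟩
  · rw [compl_inter]
    exact measure_union_null n.1 z
  rintro ⟨⟨q₁, q⟩, b1, b2, b3, b4, b5⟩ F hF h0
  dsimp only at b1 b2 b3 b4 b5 h0
  have y₁ : y ∈ q₁.1.source := (show q₁.1 = i.2 from b3).symm ▸ hy.2.2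
  have y₂ : v y ∈ q.1.source := (show q.1 = d.ch i.1 from b4).symm ▸ (a6.base.ch i.1 _ hy.1).2
  have p₁ := Mg.par_pc b1 y₁
  rw [lintegral_map hF hu.measurable, n₁.2 q₁ b1 y₁ (fun a => F (u a)) (hF.comp hu.measurable) fun x k =>
    h0 _ fun ⟨⟨x', c1, c2⟩, _⟩ => k ((wu a3).one _ _ (imm a3 (b5 c1)) c2.symm ▸ c1),
    n.2 q b2 y₂ F hF fun x k => h0 x fun c => k c.2]
  refine Eq.trans (setLIntegral_congr_fun p₁.oT.measurableSet fun z k => ?_)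
    (Mg.Par.chg (S := M.f ⁻¹' {v y}) (V := u '' q₁.2.source)
      (σ := fun z => u (q₁.2.symm (q₁.1 y, z))) (τ := fun x => (q₁.2 (r x)).2)
      ⟨ho _ b5 q₁.2.open_source, p₁.oT, hu.comp_continuousOn p₁.cont, fun z k => ?_, ?_⟩
      (Mg.par_pc b2 y₂) (fun _ _ _ => Iff.rfl)
      (F := fun x => F x * fmm m ((d.pull M₁ u v Q₁).E.O i) i.2 M₁.f ((d.pull M₁ u v Q₁).t i) q₁ (r x))
      (F' := fun x => F x * fmm m (d.E.O i.1) (d.ch i.1) M.f (d.t i.1) q x) (fun z k k' => ?_)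
      (fun x _ k => by rw [h0 x fun c => k c.2, zero_mul])
      fun x _ k => by rw [h0 x fun c => k c.1, zero_mul])
  · rw [r1 _ (b5 (p₁.mem z k).2.1)]
    rfl
  · obtain ⟨c1, c2, c3⟩ := p₁.mem z k
    exact ⟨(a3.comm _).trans (congrArg v c1), ⟨_, c2, rfl⟩, by rw [r1 _ (b5 c2), c3]⟩
  · rintro _ k1 ⟨x, k2, rfl⟩
    rw [r1 _ (b5 k2)]
    exact (p₁.inv x (up a3 hI k1) k2).imp_right (congrArg u)
  · obtain ⟨c1, c2, c3⟩ := p₁.mem z k
    have c4 : M₁.f (q₁.2.symm (q₁.1 y, z)) = y := c1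
    have c5 : q₁.2.symm (q₁.1 y, z) ∈ (d.pull M₁ u v Q₁).E.O i :=
      ⟨show M₁.f _ ∈ (d.pull M₁ u v Q₁).l.U i \ Q₁ by rw [c4]; exact ⟨hy, hQ⟩, b5 c2⟩
    obtain ⟨e1, e2⟩ := rl_pull (Q₁ := Q₁) a3 b1 b2 b3 b4 c2 k' (by rwa [c4])
    have c6 : u (q₁.2.symm (q₁.1 y, z)) ∈ d.E.O i.1 := ⟨show M.f _ ∈ d.l.U i.1 \ d.Q by
      rw [a3.comm, c4]
      exact ⟨hy.1, (a8 y hQ).1⟩, a3.log.sub _ (b5 c2)⟩
    rw [q₁.2.right_inv k] at e1 e2
    refine ⟨e1, ?_⟩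
    rw [r1 _ (b5 c2), fmm, fmm, indicator_of_mem c5, indicator_of_mem c6, e2,
      Mg.en_pow a6.pos, mul_left_comm]

end Vale.Agent.P281Z.Pk
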