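import Vale.Agent.P281Z.Pk.PushA
import Vale.Agent.P281Z.Pk.Sk
import Vale.Agent.P281Z.Md.Bir

/-!
# P281Z, the canonical bundle formula: sections of `K + B + M` give sections of `K + Δ`
-/

open scoped Manifold ContDiff Topology
open Set Filter
open Vale.Agent.P272.K Vale.Agent.P285.H281.FD
open Vale.Agent.P277Z (Hol Nz at_chart)
open Vale.Agent.P277Z.Slc (LEq Snc isLB_can)
open Vale.Agent.P277.HD (pull)

noncomputable section

namespace Vale.Agent.P281Z.Pk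

variable {w e p m : ℕ} {F : Fd w e p m} {β : Fin F.k → ℚ}

theorem Fd.Or.notQ (hF : F.Or) {y : F.T.Y.X} : y ∉ F.d.Q ↔ y ∈ off F.D := by
  rw [hF.hQ]
  exact not_not

theorem Fd.Or.memO (hF : F.Or) {i : F.d.l.ι} {x : F.T.X.X} (a : F.T.f x ∈ F.d.l.U i)
    (b : x ∈ off F.T.G) : x ∈ F.d.E.O i := ⟨⟨a, hF.notQ.2 (hF.sn.pre x b)⟩, b⟩

/-- the order along a horizontal component -/
theorem Fd.Or.hor (hY : GENY) (hF : F.Or) (hs : F.d.Sec) {l : F.T.κ} (h : ∀ j, F.A l j = 0)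
    {x : F.T.X.X} (hx : x ∈ F.T.G l) : 0 ≤ m * (F.T.δ l : ℝ) + F.o l := by
  obtain ⟨y, h1, h2⟩ := ((hY _ _ _ _ _ _ hF.sn).2.2 l h x hx).exists
  obtain ⟨i, hi⟩ := hF.ok.base.lb.cover (F.T.f y)
  exact ((hF.ot i _ y hi (at_chart y)).bdP_iff hF.sn.ok.snc).1
    ((hs i).bdP ⟨hi, hF.notQ.2 (h2.self_of_nhds h1)⟩ (at_chart y)) l h1

theorem Fd.Or.cf (hF : F.Or) {l : F.T.κ} {j : Fin F.k} (h : 0 < F.A l j) :
    (F.A l j : ℝ) * ((F.a * m : ℕ) * (F.cf l j : ℝ) - F.b j) = F.a * (m * (F.T.δ l : ℝ) + F.o l) := by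
  have h1 : (m : ℝ) ≠ 0 := Nat.cast_ne_zero.2 hF.ok.pos.ne'
  have h2 : (F.a : ℝ) ≠ 0 := Nat.cast_ne_zero.2 hF.pos.ne'
  have h3 : (F.A l j : ℝ) ≠ 0 := Nat.cast_ne_zero.2 h.ne'
  rw [Fd.cf]
  push_cast
  field_simp
  ring

theorem Fd.Or.sum (hY : GENY) (hF : F.Or) {l : F.T.κ} {j : Fin F.k} (h : Dom F.T.toFb F.A l j)
    (c : Fin F.k → ℝ) : ∑ j', (F.A l j' : ℝ) * c j' = F.A l j * c j :=
  Finset.sum_eq_single j (fun j' _ k => by
    rw [Nat.eq_zero_of_not_pos fun a => k ((hY _ _ _ _ _ _ hF.sn).2.1 l j j' h a), Nat.cast_zero,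
      zero_mul]) fun k => (k (Finset.mem_univ j)).elim

/-- the inequality of the orders along a component which is not contracted -/
theorem Fd.Or.ineq (hY : GENY) (hF : F.Or) (hs : F.d.Sec) (hβ : F.Be β) {l : F.T.κ}
    (h : ∃ x ∈ F.T.G l, NeAt F.T.toFb l x) :
    ∑ j, (F.A l j : ℝ) * ((F.a * m : ℕ) * (β j : ℝ) - F.b j) ≤
      F.a * (m * (F.T.δ l : ℝ) + F.o l) := by
  by_cases k : ∃ j, 0 < F.A l j
  · obtain ⟨j, hj⟩ := k
    rw [hF.sum hY ⟨hj, h⟩, ← hF.cf hj]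
    have := Rat.cast_le (K := ℝ).2 (hβ.le l j ⟨hj, h⟩)
    gcongr
  · have k1 : ∀ j, F.A l j = 0 := fun j => Nat.eq_zero_of_not_pos fun a => k ⟨j, a⟩
    obtain ⟨x, hx, -⟩ := h
    simpa [k1] using mul_nonneg (Nat.cast_nonneg F.a) (hF.hor hY hs k1 hx)

/-- **PUSH** -/
theorem push_of (hE : Md.EXC) (hY : GENY) : PUSH := by
  intro w e p m F hF hsec β hβ M₁ u v h₁ hsq hne L j ⟨k, hk, s, hs, hr⟩
  have hS := hF.sn
  have hG := hF.ok.toGeo
  have hf := hS.ok.fibn.hol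
  have hH := Hyp.of_snc hS.ok.snc
  have hD := Hyp.of_snc hS.snc
  obtain ⟨B, hB⟩ := hsq.mu
  have hu := Md.wm_of hB
  have hl := hf.lb (lb_mul hG.base.lb (hF.hγ.lb hF.lbM))
  have hL := lb_pow (lb_mul (lb_pow (isLB_can (n := w) (W := F.T.Y.X)) (F.a * m))
    (hF.hγ.lb hF.lbM)) k
  choose σ hσ using fun b c => glue hl (fun a x => s b (F.d.ch a.1, a.2) (F.T.f x) *
    F.q a.1 a.2 (F.T.f x) ^ k * F.d.t a.1 c x ^ (F.a * k)) (fun x => x ∈ off F.T.G ∧ At c x)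
    fun a a' x ha ha' hx => by
      have k1 := (hs b).chg (F.d.ch a.1, a.2) (F.d.ch a'.1, a'.2) _ trivial
        ⟨hG.base.ch _ _ ha.1, ha.2⟩ ⟨hG.base.ch _ _ ha'.1, ha'.2⟩ (hS.pre x hx.1)
      have k2 := hF.qchg _ _ _ _ _ ha.1 ha'.1 ha.2 ha'.2 (hS.pre x hx.1)
      have k3 := hG.lchg _ _ c x (hF.memO ha.1 hx.1) (hF.memO ha'.1 hx.1) hx.2
      change _ = ((jacM (F.d.ch a.1) (F.d.ch a'.1) (F.T.f x)).det ^ (F.a * m) *
        F.M.g a.2 a'.2 (F.γ (F.T.f x))) ^ k * _ at k1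
      change F.d.t _ _ _ = F.d.l.g _ _ (F.T.f x) * (jacM (F.d.ch a.1) (F.d.ch a'.1) (F.T.f x)).det ^ m *
        F.d.t _ _ _ at k3
      rw [k1, k3]
      linear_combination ((jacM (F.d.ch a.1) (F.d.ch a'.1) (F.T.f x)).det ^ (F.a * m * k) *
        s b (F.d.ch a'.1, a'.2) (F.T.f x) * F.d.t a.1 c x ^ (F.a * k)) * congrArg (· ^ k) k2
  have hev : ∀ b c a x, x ∈ (pull F.T.f (F.d.l.mul (pull F.γ F.M))).U a → At c x →
      ∀ᶠ y in 𝓝 x, y ∈ off F.T.G → σ b c y = s b (F.d.ch a.1, a.2) (F.T.f y) *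
        F.q a.1 a.2 (F.T.f y) ^ k * F.d.t a.1 c y ^ (F.a * k) := fun b c a x ha hc => by
    filter_upwards [lb_near hl ha, at_near hc] with y k1 k2 k3 using hσ b c a y k1 ⟨k3, k2⟩
  refine ⟨m * (F.a * k), Nat.mul_pos hG.pos (Nat.mul_pos hF.pos hk), Md.sec_push hu
    (hE _ _ _ u hu) h₁.snc hS.ok.snc hsq.log (s := σ) (fun b => ⟨fun c x _ hc hx => ?_,
      fun c c' x _ hc hc' hx => ?_, fun c x hi hc => ?_⟩) ?_⟩
  · obtain ⟨a, ha⟩ := hl.cover x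
    refine (((hf.hol ((hs b).hol (F.d.ch a.1, a.2) _ trivial ⟨hG.base.ch _ _ ha.1, ha.2⟩
      (hS.pre x hx))).mul ((hf.hol (hF.qhol _ _ _ ha.1 ha.2 (hS.pre x hx)).1).pow k)).mul
      ((hG.thol _ c x (hF.memO ha.1 hx) hc).pow (F.a * k))).congr ?_
    filter_upwards [hev b c a x ha hc, hH.isOpen.mem_nhds hx] with y k1 k2 using (k1 k2).symm
  · obtain ⟨a, ha⟩ := hl.cover x
    have k1 := hG.tchg _ c c' x (hF.memO ha.1 hx) hc hc'
    change F.d.t _ _ _ = _ * F.d.t _ _ _ at k1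
    change _ = (jacM c c' x).det ^ (m * (F.a * k)) * _
    rw [hσ b c a x ha ⟨hx, hc⟩, hσ b c' a x ha ⟨hx, hc'⟩, k1]
    ring
  · obtain ⟨a, ha⟩ := hl.cover x
    have k1 := ((hs b).bdP (a := (F.d.ch a.1, a.2)) trivial ⟨hG.base.ch _ _ ha.1, ha.2⟩).mul
      continuousAt_id (((hF.oq _ _ _ ha.1 ha.2).bdP (c := fun j => -F.b j) hD
        fun _ _ => by simp).pow continuousAt_id k)
    refine (((hS.bdP k1).mul continuousAt_id (((hF.ot _ c x ha.1 hc).bdP (c := fun l => -F.o l) hH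
      fun _ _ => by simp).pow continuousAt_id (F.a * k))).congr (hev b c a x ha hc)).mono
      continuousAt_id fun l hx => ?_
    have k2 := mul_le_mul_of_nonneg_left (hF.ineq hY hsec hβ
      ((hne l).resolve_left fun k => k x hx hi)) (Nat.cast_nonneg k)
    rw [Finset.mul_sum] at k2
    refine (add_le_add_left (le_of_eq (Finset.sum_congr rfl fun j _ => ?_)) _).trans
      ((add_le_add_left k2 _).trans (le_of_eq (by push_cast; ring)))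
    ring
  · obtain ⟨y, hy⟩ : ∃ y, y ∈ off F.D ∧ RkAt w _ s y := hr
    obtain ⟨x₀, rfl⟩ := hS.ok.fibn.surj y
    obtain ⟨a, ha⟩ := hl.cover x₀
    have hc := at_chart (n := w + e) x₀
    obtain ⟨x₁, ⟨-, k1, k2⟩, k3, k4, k5⟩ := ((hG.ne a.1 _ x₀ ha.1 (hF.notQ.2 hy.1)
      hc).and_eventually ((at_near hc).and ((lb_near hl ha).and (hf.cont.continuousAt.eventually
        ((open_rk hD continuous_id hL (hs 0)).mem_nhds hy))))).exists
    obtain ⟨x, r1, r2, r3, r4, r5, r6⟩ := ((mem_closure_iff_frequently.1 (hu.dense x₁)).and_eventually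
      (((hG.thol _ _ x₁ k1 k3).ne_near k2).and ((at_near k3).and ((lb_near hl k4).and
        ((hH.isOpen.eventually_mem k1.2).and (hf.cont.continuousAt.eventually
          ((open_rk hD continuous_id hL (hs 0)).mem_nhds k5))))))).exists
    obtain ⟨m1, m2⟩ := r6.2.frame hD continuous_id hL hs r6.1 (a := (F.d.ch a.1, a.2))
      ⟨hG.base.ch _ _ r4.1, r4.2⟩
    have m3 := hF.qhol _ _ _ r4.1 r4.2 r6.1
    refine ⟨x, ⟨r1, r5⟩, rkAt_of (L := pull F.T.f _) (s := fun b a y => s b a (F.T.f y)) m1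
      (((hS.reg _ r6.1).sbm hf hS.ok.snc rfl).ind (hf.at x) m2) r3
      (w := fun y => F.q a.1 a.2 (F.T.f y) ^ k * F.d.t a.1 (chartAt (Cm (w + e)) x₀) y ^ (F.a * k)) ?_⟩
    filter_upwards [eventually_all.2 fun b => hev b _ a x r4 r3, hH.isOpen.mem_nhds r5,
      (hf.hol m3.1).ne_near m3.2, (hG.thol _ _ x (hF.memO r4.1 r5) r3).ne_near r2] with y n1 n2 n3 n4
      using ⟨mul_ne_zero (pow_ne_zero _ n3) (pow_ne_zero _ n4), fun b => by rw [n1 b n2]; ring⟩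

end Vale.Agent.P281Z.Pk
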