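import Vale.Agent.P281Z.Md.Tr
import Vale.Agent.P281Z.Sc.Riem

/-!
# P281Z, the canonical bundle formula: minors of monomial maps
-/

open scoped Manifold ContDiff Topology
open Set Filter Function
open Vale.Agent.P272.K Vale.Agent.P285.H281.FD
open Vale.Agent.P277Z
open Vale.Agent.P277Z.Slc (Ind LEq Snc dd dd_mul dd_congr)
open Vale.Agent.P281Z.Md

set_option linter.unusedSectionVars false

noncomputable section

namespace Vale.Agent.P281Z.Pk.Ta

variable {n w p m : ℕ} {X W : Type} [TopologicalSpace X] [ChartedSpace (Cm n) X]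
  [IsManifold 𝓘(ℂ, Cm n) ω X] [TopologicalSpace W] [ChartedSpace (Cm w) W]
  [IsManifold 𝓘(ℂ, Cm w) ω W] {f : X → W} {Θ : Chart n X} {Ξ : Chart w W} {x : X} {H : W → Cm p}
  {ι : Fin w → Fin n} {S : Set X}

/-- minors of a monomial map -/
theorem mn_diag (h : Ca Θ x) (h' : Ca Ξ (f x)) (hf : HolA n w f x) (hH : AnV w H (f x))
    (hι : Injective ι) {A : Fin w → ℕ} (k : ∀ᶠ y in 𝓝 x, ∀ a, Ξ (f y) a = Θ y (ι a) ^ A a)
    (I : Fin p → Fin w) : mn (fun y => H (f y)) Θ (fun b => ι (I b)) x =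
      (∏ b, (A (I b) : ℂ) * Θ x (ι (I b)) ^ (A (I b) - 1)) * mn H Ξ I (f x) := by
  have h2 : (fun z => Ξ (f (Θ.symm z))) =ᶠ[𝓝 (Θ x)] fun z a => z (ι a) ^ A a := by
    filter_upwards [h.ev k, Θ.eventually_right_inverse (Θ.map_source h.2)] with z k1 k2
    funext a
    rw [k1 a, k2]
  have h3 : HasFDerivAt (fun (z : Cm n) a => z (ι a) ^ A a) (ContinuousLinearMap.pi fun a =>
      ((A a : ℂ) * Θ x (ι a) ^ (A a - 1)) • ContinuousLinearMap.proj (ι a)) (Θ x) :=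
    hasFDerivAt_pi.2 fun a => by
      simpa only [nsmul_eq_mul] using (hasFDerivAt_apply (𝕜 := ℂ) (ι a) (Θ x)).pow (A a)
  have h1 : ∀ a, dv (fun y => Ξ (f y)) Θ x (Pi.single (ι a) 1) =
      ((A a : ℂ) * Θ x (ι a) ^ (A a - 1)) • Pi.single a 1 := fun a => by
    rw [dv, h2.fderiv_eq, h3.fderiv]
    funext a'
    rcases eq_or_ne a' a with rfl | c
    · simp
    · simp [c, hι.ne c]
  refine Eq.trans (congrArg Matrix.det ?_) (Matrix.det_mul_row _ _)
  ext a b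
  refine (congrArg (fun L : Cm n →L[ℂ] Cm p => L (Pi.single (ι (I b)) 1) a)
    (dv_comp h h' hf hH)).trans ?_
  simp only [ContinuousLinearMap.comp_apply, h1, map_smul]
  rfl

theorem core (hm : 0 < m) (h : Ca Θ x) (h' : Ca Ξ (f x)) (hf : HolA n w f x) (hH : AnV w H (f x))
    (hι : Injective ι) {i₀ : Fin w} {A : ℕ} (hA : 0 < A)
    (k : ∀ᶠ y in 𝓝 x, ∀ a, Ξ (f y) a = Θ y (ι a) ^ (if a = i₀ then A else 1)) {t : W → ℝ}
    (ht : ∀ y, 0 ≤ t y) {r s : ℝ} (hr : r + m * (A - 1) ≤ A * s) (hx : Θ x (ι i₀) = 0)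
    (h0 : ∀ᶠ y in 𝓝 x, y ∈ S → Θ y (ι i₀) ≠ 0) (I : Fin p → Fin w)
    (hb : Bnd S (fun y => t (f y) * ‖mn (fun y => H (f y)) Θ (fun b => ι (I b)) y‖ ^ m *
      ‖Θ y (ι i₀)‖ ^ r) x) :
    Bnd S (fun y => t (f y) * ‖mn H Ξ I (f y)‖ ^ m * ‖Ξ (f y) i₀‖ ^ s) x := by
  by_cases hI : Injective I
  swap
  · exact ⟨0, .of_forall fun y _ => by simp [mn_zero H hI, hm.ne']⟩
  refine hb.mono ?_
  filter_upwards [h.near, hf.cont.eventually h'.near, hf.near, hf.cont.eventually (anV_near hH),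
    k.eventually_nhds, h0, (h.anV.hol (ι i₀)).cont.norm.eventually_lt continuousAt_const
      (show ‖Θ x (ι i₀)‖ < 1 by simp [hx])] with y a1 a2 a3 a4 a5 a6 a7 hy
  refine ⟨hy, ?_⟩
  have b1 := norm_pos_iff.2 (a6 hy)
  set q := ‖Θ y (ι i₀)‖
  have b2 : q ^ (A - 1) ≤ ‖∏ b, ((if I b = i₀ then A else 1 : ℕ) : ℂ) *
      Θ y (ι (I b)) ^ ((if I b = i₀ then A else 1) - 1)‖ := by
    have c1 : q ^ (A - 1) ≤ 1 := pow_le_one₀ b1.le a7.le
    have c2 : (Finset.univ.filter fun b => I b = i₀).card ≤ 1 := Finset.card_le_one.2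
      fun b hb b' hb' => hI ((Finset.mem_filter.1 hb).2.trans (Finset.mem_filter.1 hb').2.symm)
    calc _ = (q ^ (A - 1)) ^ 1 := (pow_one _).symm
      _ ≤ ∏ b, if I b = i₀ then q ^ (A - 1) else 1 := by
        rw [Finset.prod_ite, Finset.prod_const, Finset.prod_const_one, mul_one]
        exact pow_le_pow_of_le_one (by positivity) c1 c2
      _ ≤ _ := by
        rw [norm_prod]
        refine Finset.prod_le_prod (fun b _ => by positivity) fun b _ => ?_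
        split_ifs with c
        · rw [norm_mul, norm_pow, c, Complex.norm_natCast]
          exact le_mul_of_one_le_left (by positivity) (Nat.one_le_cast.2 hA)
        · simp
  rw [mn_diag a1 a2 a3 a4 hι a5 I, a5.self_of_nhds, if_pos rfl, norm_pow, norm_mul, mul_pow,
    ← Real.rpow_natCast_mul b1.le, mul_assoc, mul_assoc]
  refine mul_le_mul_of_nonneg_left ?_ (ht _)
  rw [mul_comm (_ ^ m) (_ ^ m), mul_assoc]
  refine mul_le_mul_of_nonneg_left ((Real.rpow_le_rpow_of_exponent_ge b1 a7.le hr).trans ?_)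
    (by positivity)
  rw [Real.rpow_add b1, mul_comm, mul_comm (m : ℝ), ← Nat.cast_pred hA,
    Real.rpow_mul_natCast b1.le, Real.rpow_natCast]
  exact mul_le_mul_of_nonneg_right (pow_le_pow_left₀ (by positivity) b2 m) (by positivity)

theorem root {g : X → ℂ} (hg : Hol n g x) (h0 : g x ≠ 0) {A : ℕ} (hA : 0 < A) :
    ∃ r, Hol n r x ∧ r x ≠ 0 ∧ ∀ y, r y ^ A = g y := by
  obtain ⟨c, hc⟩ := IsAlgClosed.exists_pow_nat_eq (g x) hA
  have h1 : ∀ y, (c * (g y / g x) ^ (A : ℂ)⁻¹) ^ A = g y := fun y => by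
    rw [mul_pow, hc, Complex.cpow_nat_inv_pow _ hA.ne', mul_div_cancel₀ _ h0]
  refine ⟨_, fun e he => analyticAt_const.fun_mul (((hg.div (hol_const _ _) h0) e he).cpow
    analyticAt_const ?_), fun k => h0 ?_, h1⟩
  · simp [he.left_inv, div_self h0]
  · rw [← h1 x, k, zero_pow hA.ne']

/-- the normal form -/
theorem nf (hf : HolA n w f x) {G : Set X} {D : Set W} {ξ g : X → ℂ} {ζ : W → ℂ}
    {φ : Fin (w - 1) → W → ℂ} {A : ℕ} (hA : 0 < A) (hξ : LEq n G x ξ) (hx : x ∈ G)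
    (hi : Ind n (Sum.elim (fun _ : Unit => ξ) fun i z => φ i (f z)) x)
    (hφ : ∀ i, Hol w (φ i) (f x)) (hζ : LEq w D (f x) ζ) (hg : Hol n g x) (g0 : g x ≠ 0)
    (k : ∀ᶠ y in 𝓝 x, ζ (f y) = g y * ξ y ^ A) :
    ∃ (Θ : Chart n X) (Ξ : Chart w W) (ι : Fin w → Fin n) (i₀ : Fin w), Ca Θ x ∧ Ca Ξ (f x) ∧
      Injective ι ∧ LEq n G x (fun y => Θ y (ι i₀)) ∧ (∀ᶠ y in 𝓝 (f x), Ξ y i₀ = ζ y) ∧
      ∀ᶠ y in 𝓝 x, ∀ a, Ξ (f y) a = Θ y (ι a) ^ (if a = i₀ then A else 1) := by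
  obtain ⟨r, r1, r2, r3⟩ := root hg g0 hA
  have h0 := hξ.mem.2 hx
  have he := at_chart (n := n) x
  have h1 : Ind n (Sum.elim (fun _ : Unit => fun y => r y * ξ y) fun i z => φ i (f z)) x := by
    refine ⟨Sum.rec (fun _ => r1.mul hξ.hol) fun i => hi.1 (.inr i), fun e he => ?_⟩
    refine (congrArg (fun v => LinearIndependent ℂ v) (funext fun a => ?_)).mp
      ((hi.2 e he).units_smul (Sum.elim (fun _ => Units.mk0 _ r2) fun _ => 1))
    rcases a with a | a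
    · exact (dd_mul r1 hξ.hol h0 he).symm
    · simp
  have h2 : Ind w (Sum.elim (fun _ : Unit => ζ) φ) (f x) := by
    refine ⟨Sum.rec (fun _ => hζ.hol) hφ, fun e' he' => Fintype.linearIndependent_iff.2 fun c hc => ?_⟩
    have a1 : (dd ζ e' (f x)).comp (df f (chartAt (Cm n) x) e' x) =
        (g x * ξ x ^ (A - 1)) • dd ξ (chartAt (Cm n) x) x := by
      rw [← dd_comp hζ.hol hf he he', ← dd_mul (hg.mul (hξ.hol.pow _)) hξ.hol h0 he]
      exact dd_congr (k.mono fun y b => by rw [b, mul_assoc, pow_sub_one_mul hA.ne']) he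
    have a2 := Fintype.linearIndependent_iff.1 (hi.2 _ he)
      (Sum.elim (fun _ => c (.inl ()) * (g x * ξ x ^ (A - 1))) fun i => c (.inr i)) (by
        have b := congrArg (fun L : Cm w →L[ℂ] ℂ => L.comp (df f (chartAt (Cm n) x) e' x)) hc
        simp only [Fintype.sum_sum_type, Finset.univ_unique, Finset.sum_singleton, Sum.elim_inl,
          Sum.elim_inr, ContinuousLinearMap.add_comp, ContinuousLinearMap.smul_comp, a1,
          ContinuousLinearMap.finsetSum_comp, ContinuousLinearMap.zero_comp, smul_smul,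
          ← dd_comp (hφ _) hf he he'] at b ⊢
        exact b)
    have a3 : ∀ i, c (.inr i) = 0 := fun i => a2 (.inr i)
    have a4 : c (.inl ()) • dd ζ e' (f x) = 0 := ContinuousLinearMap.ext fun v => by
      simpa [Fintype.sum_sum_type, a3] using DFunLike.congr_fun hc v
    refine Sum.rec (fun _ => (smul_eq_zero.1 a4).resolve_right ((hζ.2 e' he').2 ?_)) a3
    rw [k.self_of_nhds, h0, zero_pow hA.ne', mul_zero]
  obtain ⟨Θ, j, t1, t2, t3⟩ := exists_ca h1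
  obtain ⟨Ξ, j', s1, s2, s3⟩ := exists_ca h2
  have s4 : Bijective j' := (Fintype.bijective_iff_injective_and_card _).2 ⟨s2, by
    have := ind_le h2
    simp only [Fintype.card_sum, Fintype.card_unique, Fintype.card_fin] at this ⊢
    omega⟩
  let ε := Equiv.ofBijective j' s4
  have t4 : ∀ᶠ y in 𝓝 x, r y * ξ y = Θ y (j (ε.symm (ε (.inl ())))) :=
    t1.near.mono fun y b => by rw [ε.symm_apply_apply, t3 y b.2]; rfl
  refine ⟨Θ, Ξ, fun a => j (ε.symm a), ε (.inl ()), t1, s1, t2.comp ε.symm.injective,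
    leq_congr (LEq.of_chart ?_ (r1.mul hξ.hol) he fun _ => (h1.2 _ he).ne_zero (Sum.inl ())) t4
      (.of_forall fun _ => .rfl), s1.near.mono fun y b => s3 y b.2 _, ?_⟩
  · filter_upwards [hξ.1, r1.ne_near r2] with y b1 b2
    rw [mul_eq_zero, or_iff_right b2, b1]
  filter_upwards [t1.near, hf.cont.eventually s1.near, k] with y b1 b2 b3 a
  obtain ⟨a, rfl⟩ := ε.surjective a
  rw [ε.symm_apply_apply, t3 y b1.2]
  refine (s3 _ b2.2 a).trans ?_
  rcases a with a | a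
  · rw [if_pos rfl]
    exact b3.trans (by rw [← r3 y, ← mul_pow]; rfl)
  · rw [if_neg fun c => Sum.inr_ne_inl (ε.injective c), pow_one]
    rfl

variable {κ : Type} [Fintype κ] {G : κ → Set X} {ζ : κ → X → ℂ} {c : κ → ℝ} {t : X → ℝ}

theorem bnd_single (hζ : ∀ l, LEq n (G l) x (ζ l)) {l : κ} (hx : ∀ l', l' ≠ l → x ∉ G l')
    (hS : S ⊆ off G) (ht : ∀ y, 0 ≤ t y) : Bnd S (fun y => t y * ∏ l, ‖ζ l y‖ ^ c l) x ↔
      Bnd S (fun y => t y * ‖ζ l y‖ ^ c l) x := by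
  classical
  have h1 := fun l => (hζ l).hol.cont
  have h2 := (ne_off hζ).mono fun _ a b => a (hS b)
  simp only [← wt_single ζ l]
  exact ⟨fun k => k.wt ht h1 h2 fun l' => (eq_or_ne l' l).symm.imp
      (fun a => mt (hζ l').mem.1 (hx l' a)) fun a => by simp [a],
    fun k => k.wt ht h1 h2 fun l' => (eq_or_ne l' l).symm.imp
      (fun a => mt (hζ l').mem.1 (hx l' a)) fun a => by simp [a]⟩

/-- bounds off the divisors and at general points of the divisors -/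
theorem ext2 (hG : Snc n G) (hS : ∀ y, Gn n S y) (hS' : S ⊆ off G) {u : X → ℂ}
    (h1 : ∀ᶠ y in 𝓝 x, y ∈ S → Hol n u y)
    (h2 : ∀ᶠ y in 𝓝 x, y ∈ off G → Bnd S (fun y => ‖u y‖) y)
    (h3 : ∀ᶠ y in 𝓝 x, ∀ l, y ∈ G l → ∃ᶠ z in 𝓝 y, z ∈ G l ∧ ∀ ζ : κ → X → ℂ,
      (∀ l, LEq n (G l) z (ζ l)) → Bnd S (fun y => ‖u y‖ * ∏ l, ‖ζ l y‖ ^ c l) z)
    (hζ : ∀ l, LEq n (G l) x (ζ l)) : Bnd S (fun y => ‖u y‖ * ∏ l, ‖ζ l y‖ ^ c l) x := by
  have k1 : ∀ᶠ y in 𝓝 x, y ∈ off G → Hol n (Md.ext S u) y ∧ (y ∈ S → Md.ext S u y = u y) := by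
    filter_upwards [h1.eventually_nhds, h2] with y a1 a2 a3
    obtain ⟨U, b1, b2⟩ := Md.riem (hS y) a1 (a2 a3)
    have b3 := ext_ev (hS y).freq' b1 b2
    exact ⟨b1.congr b3, fun b => b3.self_of_nhds.symm.trans (b2.self_of_nhds b)⟩
  obtain ⟨C, hC⟩ := (bdP_codim1 hG (c := c) (fun l _ => Int.lt_floor_add_one (c l))
    (k1.mono fun _ a b => (a b).1) (by
      filter_upwards [h3, k1.eventually_nhds.eventually_nhds.eventually_nhds] with y a1 a2 l a3 _
      refine ((a1 l a3).and_eventually a2).mono fun z ⟨⟨b1, b2⟩, b3⟩ => ⟨b1, fun ξ hξ => ?_⟩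
      obtain ⟨C, hC⟩ := b2 ξ hξ
      refine ⟨C, ?_⟩
      filter_upwards [hC.eventually_nhds, b3, eventually_all.2 fun l => (hξ l).near]
        with v d1 d2 d3 d4
      refine mem_Iic.1 <| isClosed_Iic.mem_of_frequently_of_tendsto
        (f := fun y => ‖Md.ext S u y‖ * ∏ l, ‖ξ l y‖ ^ c l)
        (((hS v).freq.and_eventually (d1.and d2)).mono fun y d => ?_)
        ((d2.self_of_nhds d4).1.cont.norm.mul (tendsto_finsetProd _ fun l _ =>
          (d3 l).hol.cont.norm.rpow_const (.inl (norm_ne_zero_iff.2 (mt (d3 l).mem.1 (d4 l))))))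
      rw [(d.2.2 (hS' d.1)).2 d.1]
      exact d.2.1 d.1)).mono continuousAt_id (fun l _ => Int.floor_le (c l)) ζ hζ
  refine ⟨C, ?_⟩
  filter_upwards [hC, k1] with y a1 a2 a3
  rw [← (a2 (hS' a3)).2 a3]
  exact a1 (hS' a3)

end Vale.Agent.P281Z.Pk.Ta
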