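import Vale.Agent.P281Z.Pk.Sk
import Vale.Agent.P281Z.Pk.TauA

/-!
# P281Z, the canonical bundle formula: the saturation of the canonical bundle of the base
-/

open scoped Manifold ContDiff Topology
open Set Filter Function
open Vale.Agent.P272.K Vale.Agent.P285.H281.FD
open Vale.Agent.P277Z
open Vale.Agent.P277Z.Slc (Ind LEq Snc dd)
open Vale.Agent.P281Z.Md

set_option linter.unusedSectionVars false

noncomputable section

namespace Vale.Agent.P281Z.Pk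

namespace Ta

variable {n w p m : ℕ} {M : Fb n w} {κ : Type} [Fintype κ] {D : κ → Set M.Y.X} {A : M.κ → κ → ℕ}
  {H : M.Y.X → Cm p} {T : M.Y.X → ℝ} {R : Set M.Y.X} {c : M.κ → ℝ} {x : M.X.X}
  {e : Chart w M.Y.X}

variable (m H T R c x) in
/-- the bound upstairs -/
def Up : Prop := ∀ e₁ : Chart n M.X.X, At e₁ x → ∀ ξ : M.κ → M.X.X → ℂ,
  (∀ l, LEq n (M.G l) x (ξ l)) → ∀ K, Bnd (M.f ⁻¹' R ∩ off M.G)
    (fun y => T (M.f y) * ‖mn (fun y => H (M.f y)) e₁ K y‖ ^ m * ∏ l, ‖ξ l y‖ ^ c l) x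

theorem Up.ca (h : Up m H T R c x) (hf : HolM n w M.f) (hH : AnV w H (M.f x)) (hT : ∀ y, 0 ≤ T y)
    {Θ : Chart n M.X.X} (hΘ : Ca Θ x) {ξ : M.κ → M.X.X → ℂ} (hξ : ∀ l, LEq n (M.G l) x (ξ l))
    (K : Fin p → Fin n) : Bnd (M.f ⁻¹' R ∩ off M.G)
      (fun y => T (M.f y) * ‖mn (fun y => H (M.f y)) Θ K y‖ ^ m * ∏ l, ‖ξ l y‖ ^ c l) x := by
  have he := at_chart (n := n) x
  simpa only [mul_right_comm] using lb_one.1 (LB.chg
    (t := fun y => T (M.f y) * ∏ l, ‖ξ l y‖ ^ c l) (lb_one.2 fun K => by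
      simpa only [mul_right_comm] using h _ he ξ hξ K) hΘ (ca_of he) (anV_comp (hf.at x) hH)
    fun y => mul_nonneg (hT _) (wt_nonneg _ _ _)) K

/-- over the complement of the divisors -/
theorem offD (hs : Sn M D A) (hx : x ∈ off M.G) (hH : AnV w H (M.f x)) (hT : ∀ y, 0 ≤ T y)
    (hb : Up m H T R c x) (he : At e (M.f x)) (I : Fin p → Fin w) :
    Bnd (R ∩ off D) (fun y => T y * ‖mn H e I y‖ ^ m) (M.f x) := by
  have hf := hs.ok.fibn.hol
  have h1 := (hs.reg _ (hs.pre x hx)).sbm hf hs.ok.snc rfl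
  obtain ⟨Θ, ι, t1, t2, t3⟩ := exists_ca ((sbm_iff_ind (hf.at x) he).1 h1)
  obtain ⟨ξ, hξ, -⟩ := hs.ok.snc x
  obtain ⟨C, hC⟩ := (hb.ca hf hH hT t1 hξ fun b => ι (I b)).wt (c' := fun _ => 0)
    (fun y => mul_nonneg (hT _) (by positivity)) (fun l => (hξ l).hol.cont)
    ((ne_off hξ).mono fun _ a b => a b.2) fun l => .inl (mt (hξ l).mem.1 (hx l))
  have h2 : ∀ᶠ y in 𝓝 x, M.f y ∈ R → T (M.f y) * ‖mn H e I (M.f y)‖ ^ m ≤ C := by
    filter_upwards [hC, t1.near, hf.cont.continuousAt.eventually ((at_near he).and (anV_near hH)),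
      (Hyp.of_snc hs.ok.snc).isOpen.mem_nhds hx] with y a1 a2 a3 a4 a5
    simpa [mn_diag (A := fun _ => 1) a2 (ca_of a3.1) (hf.at y) a3.2 t2
      (a2.near.mono fun z b a => by rw [pow_one, t3 z b.2]) I] using a1 ⟨a5, a4⟩
  exact ⟨C, (h1.ev (hf.at x) h2).mono fun _ ⟨_, b1, b2⟩ b3 => b2 ▸ b1 (b2 ▸ b3.1)⟩

/-- at a general point of a dominant component -/
theorem gd (hO : OPN) (hm : 0 < m) (hs : Sn M D A) {l : M.κ} {j : κ} (hx : Gd M D l j x)
    (hA : 0 < A l j) (hH : AnV w H (M.f x)) (hT : ∀ y, 0 ≤ T y) {s : κ → ℝ}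
    (hc : c l + m * (A l j - 1) ≤ A l j * s j) (hb : Up m H T R c x) (he : At e (M.f x))
    {ζ : κ → M.Y.X → ℂ} (hζ : ∀ j, LEq w (D j) (M.f x) (ζ j)) (I : Fin p → Fin w) :
    Bnd (R ∩ off D) (fun y => T y * ‖mn H e I y‖ ^ m * ∏ j, ‖ζ j y‖ ^ s j) (M.f x) := by
  classical
  have hf := hs.ok.fibn.hol
  obtain ⟨ξ, φ, h1, h2, h3⟩ := hx.ne
  obtain ⟨ξ₀, h4, -⟩ := hs.ok.snc x
  have h5 : ∀ ξ, LEq n (M.G l) x ξ → ∀ l', LEq n (M.G l') x (update ξ₀ l ξ l') := fun ξ k l' => by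
    rcases eq_or_ne l' l with rfl | a
    · rwa [update_self]
    · rw [update_of_ne a]
      exact h4 l'
  obtain ⟨r, g, g1, g2, g3⟩ := unit_pow h1 hx.mem (hf.hol (hζ j).hol) (by
    filter_upwards [h1.1, hf.cont.continuousAt.eventually (hζ j).1, eventually_all.2 fun l' =>
      eventually_imp_distrib_left.2 fun a => (h4 l').not_mem_near (hx.only l' a)] with y a1 a2 a3 a4
    by_contra a5
    exact hs.pre y (fun l' => (eq_or_ne l' l).elim (fun b => b ▸ mt a1.2 a5) (a3 l')) j (a2.1 a4))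
  obtain rfl : r = A l j := by
    have k := (ordAt_of_one (k := fun l' => if l' = l then (r : ℤ) else 0) (h5 ξ h1) g1
      (fun a => g2 a.self_of_nhds) (g3.mono fun y a _ => by
        rw [a, Finset.prod_eq_single l (fun l' _ b => by simp [b]) (by simp)]
        simp) fun l' a => (frequently_pure.2 ⟨a, g2⟩).filter_mono (pure_le_nhds x)).unique
      hs.ok.snc (hs.ord j x _ (hζ j)) hx.mem
    simpa using k
  obtain ⟨Θ, Ξ, ι, i₀, t1, t2, t3, t4, t5, t6⟩ := nf (hf.at x) hA h1 hx.mem h3 h2 (hζ j) g1 g2 g3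
  have h6 : ∀ I, Bnd (R ∩ off D) (fun y => T y * ‖ζ j y‖ ^ s j * ‖mn H Ξ I y‖ ^ m) (M.f x) := by
    intro I
    have k := (bnd_single (h5 _ t4) hx.only inter_subset_right
      fun y => mul_nonneg (hT _) (by positivity)).1 (hb.ca hf hH hT t1 (h5 _ t4) fun b => ι (I b))
    rw [update_self] at k
    obtain ⟨C, hC⟩ := core hm t1 t2 (hf.at x) hH t3 hA t6 hT hc (t4.mem.2 hx.mem)
      (t4.1.mono fun y a b => mt a.1 (b.2 l)) I k
    refine ⟨C, ?_⟩
    filter_upwards [hO n w M κ D A hs l j x hx (fun y => M.f y ∈ R → T (M.f y) *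
      ‖mn H Ξ I (M.f y)‖ ^ m * ‖Ξ (M.f y) i₀‖ ^ s j ≤ C) (hC.mono fun y a b b' => a ⟨b', b⟩), t5]
      with y a1 a2 a3
    obtain ⟨z, -, rfl, b⟩ := a1 a3.2
    rw [mul_right_comm, ← a2]
    exact b a3.1
  refine (bnd_single hζ hx.onlyD inter_subset_right
    fun y => mul_nonneg (hT _) (by positivity)).2 ?_
  simpa only [mul_right_comm] using lb_one.1 ((lb_one.2 h6).chg (ca_of he) t2 hH
    fun y => mul_nonneg (hT _) (by positivity)) I

theorem arith {a m A : ℕ} {o b : ℤ} {δ β : ℚ} (ha : 0 < a) (hm : 0 < m) (hA : 0 < A)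
    (h : (((a * m : ℕ) : ℤ) - b) * (A : ℤ) ≤ a * (o + m))
    (k : β = (o + m * δ) / (m * A) + b / (a * m)) : δ + (A - 1) ≤ A * β := by
  have h1 : ((a * m : ℚ) - b) * A ≤ a * (o + m) := by exact_mod_cast h
  have h2 : (0 : ℚ) < a * m := by positivity
  refine le_of_mul_le_mul_left ?_ h2
  have h3 : (a * m : ℚ) * (A * β) = a * (o + m * δ) + A * b := by
    rw [k]
    field_simp
  rw [h3]
  linarith

end Ta

open Ta in
theorem tau_of (hD : DENS) (hO : OPN) : TAU := by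
  rintro w e p m F hF a h1 hL β hβ k ⟨m', Q, τ, hm, hQ, hτ, hr⟩
  refine ⟨m', Q, τ, hm, hQ, fun b => ⟨(hτ b).hol, (hτ b).mer, (hτ b).chg,
    fun y c c' hc hc' ζ hζ I => ?_⟩, hr⟩
  have hs := hF.sn
  have hh := h1.fibn.hol
  have : ConnectedSpace F.T.Y.X := hF.ok.base.conn
  have h2 : ∀ x, At c' (F.T.h (F.T.f x)) → Up (M := F.T.toFb) m' (fun z => c' (F.T.h z))
      (fun z => ‖τ b c' (F.T.h z)‖) (F.T.h ⁻¹' Q)ᶜ (fun l => m' * F.T.δ l) x :=
    fun x a1 c₁ a2 ξ a3 K => ((hτ b).bd x c₁ c' a2 a1 ξ a3 K).imp fun C a4 =>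
      a4.mono fun _ a5 a6 => a5 a6.1 a6.2
  have h3 : ∀ᶠ z in 𝓝 y, At c z ∧ At c' (F.T.h z) :=
    (at_near hc).and (hh.cont.continuousAt.eventually (at_near hc'))
  obtain ⟨C, hC⟩ := ext2 (S := (F.T.h ⁻¹' Q)ᶜ ∩ off F.D) (c := fun j => m' * β j)
    (u := fun z => τ b c' (F.T.h z) * mn (fun z => c' (F.T.h z)) c I z ^ m') hs.snc
    (fun z => (gn_of_thin (hQ.pre_surj hh h1.fibn.surj) z).inter (gn_off hs.snc z))
    inter_subset_right (h3.mono fun z a1 a2 => (hh.hol ((hτ b).hol c' _ a1.2 a2.1)).mul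
      ((hol_mn (ca_of a1.1) ((hh.at z).anV a1.2) I).pow m')) (h3.mono fun z a1 a2 => by
      have a3 : z ∉ F.d.Q := hF.hQ ▸ not_not.2 a2
      obtain ⟨x, rfl⟩ := hF.ok.onto z a3
      obtain ⟨i, a4⟩ := hF.ok.base.lb.cover (F.T.f x)
      obtain ⟨x', a5, a6, -⟩ := (hF.ok.ne i _ x a4 a3 (at_chart x)).exists
      rw [← a5] at a1 ⊢
      simpa only [norm_mul, norm_pow] using offD hs a6.2 ((hh.at _).anV a1.2)
        (fun _ => norm_nonneg _) (h2 x' a1.2) a1.1 I) (h3.eventually_nhds.mono fun z a1 j a2 => by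
      obtain ⟨l, a3, a4⟩ := hβ.eq j
      have a5 : ∀ {X : Type} [TopologicalSpace X] (S : Set X), OD S fun _ => True := fun S x hx =>
        (frequently_pure.2 ⟨hx, .of_forall fun _ _ => trivial⟩).filter_mono (pure_le_nhds x)
      refine ((hD _ _ _ _ _ _ hs l j a3 _ _ (a5 _) (a5 _) z a2).and_eventually a1).mono ?_
      rintro _ ⟨⟨x, rfl, b1, -⟩, b2, b3⟩
      refine ⟨b1.memD, fun ξ hξ => ?_⟩
      have b4 : (F.T.δ l : ℝ) + (F.A l j - 1) ≤ F.A l j * β j := by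
        exact_mod_cast arith hF.pos h1.pos a3.1 (hL l j a3) a4
      simpa only [norm_mul, norm_pow] using gd hO hm hs b1 a3.1 ((hh.at _).anV b3)
        (fun _ => norm_nonneg _) (s := fun j => m' * β j)
        (by nlinarith [mul_le_mul_of_nonneg_left b4 (Nat.cast_nonneg (α := ℝ) m')])
        (h2 x b3) b2 hξ I) hζ
  simp only [norm_mul, norm_pow] at hC
  exact ⟨C, hC.mono fun z a1 a2 a3 => a1 ⟨a2, a3⟩⟩

end Vale.Agent.P281Z.Pk
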