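import Vale.Agent.P281Z.Pk.UpB

/-!
# P281Z, the canonical bundle formula: integrability of the leading coefficient
-/

open scoped Manifold ContDiff Topology ENNReal
open Set Filter Function Metric MeasureTheory
open Vale.Agent.P272.K Vale.Agent.P285.H281.FD
open Vale.Agent.P277Z (Hol Nz at_chart hol_const)
open Vale.Agent.P277Z.Slc (Ind LEq Snc)
open Vale.Agent.P277Z.Hir (Cpb)

noncomputable section

namespace Vale.Agent.P281Z.Pk

namespace Up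

theorem pull {n w : ℕ} {M : Fb n w} {κ : Type} [Fintype κ] {D : κ → Set M.Y.X} {A : M.κ → κ → ℕ}
    (H : Sn M D A) {x : M.X.X} {ξ : κ → M.Y.X → ℂ} (hξ : ∀ j, LEq w (D j) (M.f x) (ξ j))
    {ζ : M.κ → M.X.X → ℂ} (hζ : ∀ l, LEq n (M.G l) x (ζ l)) : ∃ u : κ → M.X.X → ℂ,
      (∀ j, Hol n (u j) x ∧ u j x ≠ 0) ∧
        ∀ᶠ z in 𝓝 x, ∀ j, ξ j (M.f z) = u j z * ∏ l, ζ l z ^ (A l j : ℤ) := by
  classical
  choose u h1 _ h3 h4 using fun j => H.ord j x (ξ j) (hξ j) ζ hζ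
  refine ⟨u, fun j => ⟨h1 j, unit_of H.ok.snc hζ (h1 j) ?_ (h4 j)⟩, eventually_all.2 fun j =>
    (Hyp.of_snc H.ok.snc).eq (H.ok.fibn.hol.hol (hξ j).hol) ((h1 j).mul (Hol.prod _ fun l _ => by
      simpa only [zpow_natCast] using (hζ l).hol.pow (A l j))) (h3 j)⟩
  filter_upwards [h3 j, H.ok.fibn.hol.cont.continuousAt.eventually (hξ j).1] with z z1 z2 z3 z4
  exact H.pre z z3 j (z2.1 (by rw [z1 z3, z4, zero_mul]))

variable {w e m : ℕ} {M : Fb (w + e) w} {d : Ed M m} {κ : Type} [Fintype κ] {D : κ → Set M.Y.X}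
  {A : M.κ → κ → ℕ} {o : M.κ → ℤ} {S : Set M.Y.X} {i : d.l.ι} {x : M.X.X} {ξ : κ → M.Y.X → ℂ}

/-- the lower bound at a general point of a horizontal stratum -/
theorem key (hNU : NU) (H : d.Or D A o) (hS : Thin w S) (hQ : d.Q ⊆ S) (hx : M.f x ∈ d.l.U i)
    (hξ : ∀ j, LEq w (D j) (M.f x) (ξ j)) {ζ : M.κ → M.X.X → ℂ}
    (hζ : ∀ l, LEq (w + e) (M.G l) x (ζ l)) {c : Chart (w + e) M.X.X} (hc : At c x)
    {b : M.X.X → ℂ} (hb : Hol (w + e) b x)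
    (ht : ∀ᶠ z in 𝓝 x, z ∈ off M.G → d.t i c z = b z * ∏ l, ζ l z ^ o l) {r : M.κ → ℕ}
    (hr : Cpb (𝓝 x) d.ρ fun y => ∏ l, ‖ζ l y‖ ^ r l) {T : Finset M.κ}
    (hT : ∀ l ∈ T, ∀ j, A l j = 0) (hf : ∃ᶠ z in 𝓝 x, (∀ l ∈ T, z ∈ M.G l) ∧ b z ≠ 0) :
    ∃ y ∈ d.l.U i, y ∉ S ∧ ∃ δ ∈ Ioc (0 : ℝ) 1, ∃ K : ℝ≥0∞, K ≠ 0 ∧ ∀ ε ∈ Ioc (0 : ℝ) 1,
      K * ∏ l ∈ T, Dc (o l * (2 / m) + r l * ε) δ ≤ d.E.J i ε y := by
  classical
  have hE := H.ok.toGeo
  have hg := H.sn.ok.fibn.hol.cont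
  obtain ⟨u, u1, u2⟩ := pull H.sn hξ hζ
  obtain ⟨C, hC, hr⟩ := hr
  obtain ⟨O, h1, h2, h3⟩ := _root_.eventually_nhds_iff.1 ((eventually_all.2 fun l =>
    (hζ l).near).and (hb.near.and ((at_near hc).and (ht.eventually_nhds.and (hr.eventually_nhds.and
      (u2.and ((eventually_all.2 fun j => (u1 j).1.ne_near (u1 j).2).and
        (hg.continuousAt.eventually ((lb_near hE.base.lb hx).and
          (eventually_all.2 fun j => (hξ j).1))))))))))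
  have h4 : ∀ z, z ∈ O ∧ b z ≠ 0 → ∀ᶠ z' in 𝓝 z, z' ∈ O ∧ b z' ≠ 0 := fun z hz =>
    (h2.eventually_mem hz.1).and ((h1 z hz.1).2.1.ne_near hz.2)
  obtain ⟨z₀, ⟨a1, a2⟩, a3⟩ := (hf.and_eventually (h2.eventually_mem h3)).exists
  obtain ⟨z₁, b1, b2⟩ := ((strat hE.snc a1).and_eventually (h4 z₀ ⟨a3, a2⟩)).exists
  obtain ⟨b3, -, -, -, -, b4, b5, -, b6⟩ := h1 z₁ b2.1
  have b7 : M.f z₁ ∈ off D := fun j k => mul_ne_zero (b5 j) (Finset.prod_ne_zero_iff.2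
    fun l _ k' => by
      have k1 := (b1 l).1 ((b3 l).mem.1 (eq_zero_of_zpow_eq_zero k'))
      simp [hT l k1 j] at k') ((b4 j).symm.trans ((b6 j).2 k))
  obtain ⟨z, ⟨c1, c2⟩, c3, c4⟩ := ((move hg.continuousAt (H.sn.reg _ b7) b3 (fun l => (b1 l).2)
    hS).and_eventually ((h4 z₁ b2).and (eventually_all.2 fun l : {l // l ∉ T} =>
      (b3 l).not_mem_near (mt (b1 l).1 l.2)))).exists
  obtain ⟨c5, c6, c7, c8, c9, -, -, c10, -⟩ := h1 z c3.1
  exact ⟨_, c10, c2, low (E := d.E) hE c10 (mt (@hQ _) c2)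
    (hNU w e m d.B d.E hE i _ c10 (mt (@hQ _) c2)).1 c5 c7 c6.cont c3.2 c8 ⟨C, hC, c9⟩
    fun l => ⟨fun k => by_contra fun k' => c4 ⟨l, k'⟩ k, c1 l⟩⟩

/-- the local bound -/
theorem loc (hNU : NU) (hMU : MU) (H : d.Or D A o) (hS : Thin w S) (hQ : d.Q ⊆ S) {k : ℝ}
    {h : d.l.ι → M.Y.X → ℝ} (hN : d.E.Nm S k h) (hx : M.f x ∈ d.l.U i)
    (hξ : ∀ j, LEq w (D j) (M.f x) (ξ j)) (hm : ∀ j, Measurable (ξ j)) {c : κ → ℝ}
    (hc : ∀ l, x ∈ M.G l → (∃ j, 0 < A l j) → -1 < (o l : ℝ) / m + ∑ j, A l j * c j) :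
    ∃ V, IsOpen V ∧ x ∈ V ∧ ∃ C : ℝ≥0∞, C ≠ ⊤ ∧ ∀ ε ∈ Ioc (0 : ℝ) 1, ENNReal.ofReal (ε ^ k) *
      ∫⁻ z in V, d.E.wt ε z * ENNReal.ofReal (∏ j, ‖ξ j (M.f z)‖ ^ (2 * c j)) ∂d.E.μ i ≤ C := by
  classical
  have hE := H.ok.toGeo
  have hs : (0 : ℝ) < 2 / m := by have := hE.pos; positivity
  obtain ⟨ζ, hζ, hI⟩ := H.sn.ok.snc x
  let T₀ : Finset M.κ := Finset.univ.filter fun l => x ∈ M.G l
  have hT₀ : ∀ l, x ∈ M.G l ↔ l ∈ T₀ := fun l => by simp [T₀]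
  obtain ⟨Θ, ι, t1, t2, -, t4, t5⟩ := Nt.Hp.exists_crd (h := fun a : T₀ => ζ a)
    (hI.comp (fun a : T₀ => ⟨a, (hT₀ a).2 a.2⟩) fun _ _ k => Subtype.ext (congrArg (·.1) k))
    (fun a => (hζ a).mem.2 ((hT₀ a).2 a.2)) univ_mem
  have t6 : ∀ z ∈ Θ.target, ∀ a, z (ι a) = ζ a (Θ.symm z) := fun z hz a => by
    rw [← t5 _ (Θ.map_target hz), Θ.right_inv hz]
  have t7 := Θ.open_target.eventually_mem (Θ.map_source t2)
  have he := at_chart (n := w + e) x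
  set χ := chartAt (Cm (w + e)) x
  obtain ⟨b, b1, -, b2, b3⟩ := H.ot i χ x hx he ζ hζ
  obtain ⟨r, hr⟩ := hE.cpb x ζ hζ
  obtain ⟨u, u1, u2⟩ := pull H.sn hξ hζ
  let γ : M.κ → ℝ := fun l => o l * (2 / m) + ∑ j, (A l j : ℤ) * (2 * c j)
  have g1 : ∀ a : T₀, -2 < γ a ∨ (∀ j, A a j = 0) ∧ γ a = o a * (2 / m) := fun a => by
    refine or_iff_not_imp_right.2 fun k => ?_
    have k1 := hc a ((hT₀ a).2 a.2) (by
      by_contra! k'
      exact k ⟨fun j => Nat.le_zero.1 (k' j), by simp [γ, Nat.le_zero.1 (k' _)]⟩)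
    have k2 : γ a = 2 * ((o a : ℝ) / m + ∑ j, A a j * c j) := by
      simp only [γ, mul_add, Finset.mul_sum, Int.cast_natCast, mul_left_comm]
      ring
    linarith
  have g2 : ∀ a : T₀, -2 < γ a ∨ γ a = -2 ∧ 0 < r a := fun a => (g1 a).elim .inl fun k => by
    obtain ⟨y, y1, y2, δ, y3, K, y4, y5⟩ := key hNU H hS hQ hx hξ hζ he b1 b2 hr (T := {a.1})
      (by simpa using k.1) (by simpa using b3 a ((hT₀ a).2 a.2))
    rw [k.2]
    exact cor1 y4 y3.1 y3.2 fun ε hε => lt_of_le_of_lt (by simpa using y5 ε hε)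
      (H.ok.fi i y y1 (mt (@hQ _) y2) ε hε.1)
  obtain ⟨U, hU, C, hC, h1⟩ := upper ι (t4 ▸ Nt.Hp.co_an t1 t2 b1) (k := k) hs g2 fun T k1 k2 => by
    have k3 : ∀ a ∈ T, (∀ j, A a j = 0) ∧ γ a = o a * (2 / m) := fun a ha =>
      (g1 a).resolve_left (by simp [k1 a ha])
    by_contra k4
    rw [← t4] at k4
    obtain ⟨y, y1, y2, δ, y3, K, y4, y5⟩ := key hNU H hS hQ hx hξ hζ he b1 b2 hr
      (T := T.map (Embedding.subtype _)) (Finset.forall_mem_map.2 fun a ha => (k3 a ha).1)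
      ((Θ.tendsto_symm t2).frequently (((not_eventually.1 k4).and_eventually (t7.and
        ((Θ.tendsto_symm t2).eventually (eventually_all.2 fun l => (hζ l).1)))).mono
          fun z ⟨z1, z2, z3⟩ => ⟨Finset.forall_mem_map.2 fun a ha => (z3 a).1
            ((t6 z z2 a).symm.trans ((Classical.not_imp.1 z1).1 a ha)),
              (Classical.not_imp.1 z1).2⟩))
    refine k2.not_ge (cor2 T y4 y3.1 y3.2 (r := fun a => r a)
      (fun a ha => ((g2 a).resolve_left (by simp [k1 a ha])).2) (fun ε hε => ⟨?_,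
        H.ok.fi i y y1 (mt (@hQ _) y2) ε hε.1⟩) (hN i y y1 y2).2)
    refine le_trans (le_of_eq (congrArg _ ?_)) (y5 ε hε)
    rw [Finset.prod_map]
    exact Finset.prod_congr rfl fun a ha => by rw [← k1 a ha, (k3 a ha).2]; rfl
  obtain ⟨C₁, c1, h2⟩ := rho_cmp hζ hT₀ hr
  obtain ⟨C₂, c2, h3⟩ := bdd_near (ContinuousAt.mul (f := fun z => ∏ j, ‖u j z‖ ^ (2 * c j))
    (tendsto_finsetProd _ fun j _ => (u1 j).1.cont.norm.rpow_const
      (.inl (norm_ne_zero_iff.2 (u1 j).2))) (unit_T hζ hT₀ γ).1)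
  obtain ⟨O, o1, o2, o3⟩ := _root_.eventually_nhds_iff.1 ((show ∀ᶠ z in 𝓝 (Θ x), z ∈ U from
    t4 ▸ hU).and (t7.and ((Θ.tendsto_symm t2).eventually
      (h2.and (h3.and (b2.and (u2.and (off_iff hζ))))))))
  obtain ⟨U', hU', K, hK, h4⟩ := chg t1 (co_chart he.1) t2 he.2 (o2.mem_nhds o3)
  have hV := χ.isOpen_inter_preimage (isOpen_interior (s := U'))
  refine ⟨_, hV, ⟨he.2, mem_interior_iff_mem_nhds.2 hU'⟩, K * (ENNReal.ofReal (C₁ * C₂) * C),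
    ENNReal.mul_ne_top hK (ENNReal.mul_ne_top ENNReal.ofReal_ne_top hC), fun ε hε => ?_⟩
  refine le_trans ?_ (mul_le_mul_right (mul_le_mul_right (h1 ε hε) _) _)
  rw [mul_left_comm (ENNReal.ofReal (C₁ * C₂)), mul_left_comm K,
    ← lintegral_const_mul' _ _ ENNReal.ofReal_ne_top (μ := volume.restrict U)]
  refine mul_le_mul_right ?_ _
  set F : M.X.X → ℝ≥0∞ := fun z => d.E.wt ε z * ENNReal.ofReal (∏ j, ‖ξ j (M.f z)‖ ^ (2 * c j))
    with hF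
  have h5 : Measurable F := (wt_meas hE ε).mul (Finset.measurable_prod _ fun j _ =>
    ((hm j).comp hE.hol.cont.measurable).norm.pow_const _).ennreal_ofReal
  rw [← lintegral_indicator hV.measurableSet, hMU w e m d.B d.E hE i χ he.1 _
    (h5.indicator hV.measurableSet) fun z hz => indicator_of_notMem (fun k => hz k.1) _]
  refine le_trans ?_ ((h4 fun z => F z * tm m (d.E.O i ∩ d.E.g ⁻¹' d.E.Qᶜ) (d.E.t i) χ z).trans
    (mul_le_mul_right ((setLIntegral_mono' o2.measurableSet fun z hz => ?_).trans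
      (lintegral_mono_set fun z hz => (o1 z hz).1)) _))
  · refine le_trans ?_ (lintegral_mono_set interior_subset)
    rw [← lintegral_indicator isOpen_interior.measurableSet]
    refine (setLIntegral_mono' χ.open_target.measurableSet fun z hz => ?_).trans
      (setLIntegral_le_lintegral _ _)
    by_cases z1 : χ.symm z ∈ χ.source ∩ χ ⁻¹' interior U'
    · rw [indicator_of_mem z1, indicator_of_mem (by simpa [χ.right_inv hz] using z1.2)]
    · simp [indicator_of_notMem z1]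
  obtain ⟨-, z1, ⟨z2, z3⟩, z4, z5, z6, z7⟩ := o1 z hz
  simp only [t6 z z1]
  generalize Θ.symm z = y at *
  by_cases y1 : y ∈ off M.G
  swap
  · rw [tm, indicator_of_notMem fun k => y1 k.1.2]
    simp
  have y2 := z7.1 y1
  refine (mul_le_mul_right (indicator_le_self _ _ y) _).trans ?_
  have y3 : ∏ j, ‖ξ j (M.f y)‖ ^ (2 * c j) = (∏ j, ‖u j y‖ ^ (2 * c j)) *
      ∏ l, ‖ζ l y‖ ^ ∑ j, ((A l j : ℤ) : ℝ) * (2 * c j) := by
    simp only [z6, mono_norm, Finset.prod_mul_distrib,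
      Real.rpow_sum_of_pos (norm_pos_iff.2 (y2 _))]
    rw [Finset.prod_comm]
  simp only [hF]
  rw [z5 y1, ← ofReal_norm, ENNReal.ofReal_rpow_of_nonneg (norm_nonneg _) hs.le, Et.wt,
    ← ENNReal.ofReal_mul (Real.rpow_nonneg z2 _), ← ENNReal.ofReal_mul (mul_nonneg
      (Real.rpow_nonneg z2 _) (by positivity)), ← ENNReal.ofReal_mul (by positivity), mono_norm, y3,
    wt_add (ζ := fun a : T₀ => ζ a) fun a => y2 a, Finset.prod_coe_sort T₀ fun l => ‖ζ l y‖ ^ γ l,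
    Finset.prod_coe_sort T₀ fun l => ‖ζ l y‖ ^ (r l * ε)]
  refine ENNReal.ofReal_le_ofReal ?_
  have y4 := wt_add y2 (fun l => o l * (2 / m)) fun l => ∑ j, ((A l j : ℤ) : ℝ) * (2 * c j)
  rw [← Finset.prod_mul_prod_compl T₀] at y4
  calc _ = d.ρ y ^ ε * ((∏ j, ‖u j y‖ ^ (2 * c j)) * ∏ l ∈ T₀ᶜ, ‖ζ l y‖ ^ γ l) *
        (‖b y‖ ^ (2 / m : ℝ) * ∏ l ∈ T₀, ‖ζ l y‖ ^ γ l) := by
          linear_combination (d.ρ y ^ ε * (∏ j, ‖u j y‖ ^ (2 * c j)) * ‖b y‖ ^ (2 / m : ℝ)) * -y4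
    _ ≤ _ := (mul_le_mul_of_nonneg_right (mul_le_mul (z3 ε hε).1 z4 (mul_nonneg (by positivity)
        (by positivity)) (by positivity)) (by positivity)).trans_eq (by ring)

end Up

open Up in
theorem up_of (hNU : NU) (hMU : MU) (hFU : FUB) : UP := by
  intro w e m M d _ κ _ D A o H S k h hS hQ hN i y hy ζ hζ c hc
  classical
  have hE := H.ok.toGeo
  have hg : Continuous M.f := hE.hol.cont
  have hχ : At (d.ch i) y := hE.base.ch i y hy
  obtain ⟨W₀, w1, w2, w3⟩ := _root_.eventually_nhds_iff.1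
    (eventually_all.2 fun j => (hζ j).hol.near)
  let ξ : κ → M.Y.X → ℂ := fun j => W₀.piecewise (ζ j) 0
  have x1 : ∀ j, Measurable (ξ j) := fun j => ContinuousOn.measurable_piecewise
    (fun z hz => (w1 z hz j).cont.continuousWithinAt) continuousOn_const w2.measurableSet
  have x2 : ∀ z ∈ W₀, ∀ j, ζ j z = ξ j z := fun z hz j => (piecewise_eq_of_mem _ _ _ hz).symm
  let F : ℝ → M.X.X → ℝ≥0∞ := fun ε z =>
    d.E.wt ε z * ENNReal.ofReal (∏ j, ‖ξ j (M.f z)‖ ^ (2 * c j))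
  have hF : ∀ ε, Measurable (F ε) := fun ε => (wt_meas hE ε).mul (Finset.measurable_prod _
    fun j _ => ((x1 j).comp hg.measurable).norm.pow_const _).ennreal_ofReal
  obtain ⟨V, v1, v2, C, hC, v3⟩ := (isClosed_singleton.preimage hg).isCompact.induction_on
    (p := fun s => ∃ V, IsOpen V ∧ s ⊆ V ∧ ∃ C : ℝ≥0∞, C ≠ ⊤ ∧ ∀ ε ∈ Ioc (0 : ℝ) 1,
      ENNReal.ofReal (ε ^ k) * ∫⁻ z in V, F ε z ∂d.E.μ i ≤ C)
    ⟨∅, isOpen_empty, Subset.rfl, 0, ENNReal.zero_ne_top, by simp⟩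
    (fun _ _ k ⟨V, a1, a2, a3⟩ => ⟨V, a1, k.trans a2, a3⟩)
    (fun _ _ ⟨V, a1, a2, C, a3, a4⟩ ⟨V', b1, b2, C', b3, b4⟩ => ⟨_, a1.union b1,
      union_subset_union a2 b2, C + C', ENNReal.add_ne_top.2 ⟨a3, b3⟩, fun ε hε =>
        (mul_le_mul_right (lintegral_union_le _ _ _) _).trans
          ((mul_add _ _ _).trans_le (add_le_add (a4 ε hε) (b4 ε hε)))⟩)
    fun x (hx : M.f x = y) => by
      subst hx
      obtain ⟨V, a1, a2, a3⟩ := loc hNU hMU H hS hQ hN hy (fun j => leq_congr (hζ j)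
        ((w2.eventually_mem w3).mono fun z hz => x2 z hz j) (.of_forall fun _ => Iff.rfl)) x1
        fun l hl => hc l x hl rfl
      exact ⟨V, mem_nhdsWithin_of_mem_nhds (a1.mem_nhds a2), V, a1, Subset.rfl, a3⟩
  obtain ⟨W, u1, u2, u3⟩ := _root_.eventually_nhds_iff.1 ((hg.isClosedMap.eventually_nhds_fiber y
    fun x hx => v1.eventually_mem (v2 hx)).and ((w2.eventually_mem w3).and (lb_near hE.base.lb hy)))
  have hW := (u2.preimage hg).measurableSet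
  have hO := (d.ch i).isOpen_inter_preimage_symm u2
  have hB := (hO.inter ((d.ch i).isOpen_inter_preimage_symm hS.closed.isOpen_compl)).measurableSet
  rw [inter_comm (d.ch i).target (_ ⁻¹' Sᶜ), ← inter_assoc,
    inter_eq_left.2 fun z hz => hz.1.1] at hB
  refine ⟨_, hO.mem_nhds ⟨hχ.mem_target, by simpa [hχ.left_inv] using u3⟩,
    lt_of_le_of_lt ?_ hC.lt_top⟩
  let ε : ℕ → ℝ := fun n => 1 / ((n : ℝ) + 1)
  have e1 : ∀ n, ε n ∈ Ioc (0 : ℝ) 1 := fun n =>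
    ⟨Nat.one_div_pos_of_nat, (div_le_one (Nat.cast_add_one_pos n)).2 (by simp)⟩
  have e2 : Tendsto ε atTop (𝓝[>] 0) := tendsto_nhdsWithin_iff.2
    ⟨tendsto_one_div_add_atTop_nhds_zero_nat, .of_forall fun n => (e1 n).1⟩
  have f1 := fun n => hFU w e m d.B d.E hE i _ ((hF (ε n)).indicator hW)
  refine le_trans (setLIntegral_mono' hB fun z hz => ?_) ((lintegral_liminf_le' (u := atTop)
    (f := fun n z => ENNReal.ofReal (ε n ^ k) * (d.l.U i \ d.Q).indicator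
      (fun y => ∫⁻ x, (M.f ⁻¹' W).indicator (F (ε n)) x ∂d.E.ν i y) ((d.ch i).symm z))
    fun n => ((f1 n).1.comp_aemeasurable (((d.ch i).continuousOn_symm.mono
      fun z hz => hz.1.1).aemeasurable hB)).const_mul _).trans
        (liminf_le_of_frequently_le' (.of_forall fun n => ?_)))
  · obtain ⟨⟨-, z1⟩, z2⟩ := hz
    rw [mem_preimage] at z1 z2
    generalize (d.ch i).symm z = y' at *
    have z3 := (u1 y' z1).2.2
    have z4 : y' ∉ d.Q := mt (@hQ _) z2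
    refine (ENNReal.tendsto_ofReal (((hN i y' z3 z2).2.comp e2).mul_const _)).liminf_eq.ge.trans
      (liminf_le_liminf (.of_forall fun n => ?_))
    have z5 : ∫⁻ x, (M.f ⁻¹' W).indicator (F (ε n)) x ∂d.E.ν i y' =
        d.E.J i (ε n) y' * ENNReal.ofReal (∏ j, ‖ζ j y'‖ ^ (2 * c j)) := by
      rw [Et.J, ← lintegral_mul_const _ (wt_meas hE _)]
      refine lintegral_congr_ae ?_
      filter_upwards [(hNU w e m d.B d.E hE i y' z3 z4).1.1] with x (hx : M.f x = y')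
      subst hx
      simp only [indicator_of_mem (show x ∈ M.f ⁻¹' W from z1), F, x2 _ (u1 _ z1).2.1]
    rw [indicator_of_mem (show y' ∈ d.l.U i \ d.Q from ⟨z3, z4⟩), z5, comp_apply, mul_assoc,
      ENNReal.ofReal_mul (Real.rpow_nonneg (e1 n).1.le _), ENNReal.ofReal_mul ENNReal.toReal_nonneg]
    exact mul_le_mul_right (mul_le_mul_left ENNReal.ofReal_toReal_le _) _
  · rw [lintegral_const_mul' _ _ ENNReal.ofReal_ne_top]
    refine le_trans (mul_le_mul_right ?_ _) (v3 _ (e1 n))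
    refine (lintegral_mono fun z => indicator_le_self _ _ _).trans (le_trans (le_trans
      (lintegral_mono_set fun z hz => ?_) (f1 n).2.ge) ?_)
    · exact ⟨hz.1.1, (u1 _ hz.1.2).2.2, mt (@hQ _) hz.2⟩
    rw [lintegral_indicator hW]
    exact lintegral_mono_set fun x hx => (u1 _ hx).1 x rfl

end Vale.Agent.P281Z.Pk
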