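import Vale.Agent.P281Z.Pk.Sk
import Vale.Agent.P281Z.Sc.L2

/-!
# P281Z, the canonical bundle formula: the threshold is attained
-/

open scoped Manifold ContDiff Topology ENNReal
open Set Filter MeasureTheory
open Vale.Agent.P272.K Vale.Agent.P285.H281.FD
open Vale.Agent.P277Z (Hol Nz hol_const)
open Vale.Agent.P277Z.Slc (LEq Snc)

noncomputable section

namespace Vale.Agent.P281Z.Pk

namespace Lu

section li

variable {n : ℕ} {V : Mf n} {χ : Chart n V.X} {S : Set V.X} {F φ : V.X → ℝ≥0∞} {y : V.X}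

theorem li_of (h : LI χ S F y) (hχ : At χ y) : Li n (S.indicator F) y := by
  obtain ⟨O, hO, h⟩ := h
  obtain ⟨O', h1, h2, h3⟩ := mem_nhds_iff.1 hO
  refine ⟨χ, hχ, O', h2.mem_nhds h3, lt_of_le_of_lt ?_ h⟩
  refine (lintegral_indicator_le (fun z => F (χ.symm z)) (χ.symm ⁻¹' S)).trans ?_
  rw [Measure.restrict_restrict' h2.measurableSet]
  exact lintegral_mono_set fun z hz => ⟨h1 hz.2, hz.1⟩

theorem of_li (h : Li n φ y) (hχ : At χ y) (hS : IsOpen S) {C : ℝ≥0∞} (hC : C ≠ ⊤)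
    (hle : ∀ᶠ z in 𝓝 y, z ∈ S → F z ≤ C * φ z) : LI χ S F y := by
  obtain ⟨U, hU, h⟩ := (h.mono (ψ := S.indicator F) hC (hle.mono fun z k => by
    by_cases m : z ∈ S
    · rw [indicator_of_mem m]; exact k m
    · rw [indicator_of_notMem m]; exact zero_le)).at hχ
  obtain ⟨O, h1, h2, h3⟩ := mem_nhds_iff.1 hU
  refine ⟨O ∩ χ.target, inter_mem (h2.mem_nhds h3) (χ.open_target.mem_nhds (χ.map_source hχ.2)),
    lt_of_le_of_lt ?_ h⟩
  rw [inter_assoc]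
  refine le_trans (setLIntegral_mono' (h2.inter (χ.isOpen_inter_preimage_symm hS)).measurableSet
    fun z hz => (indicator_of_mem (a := χ.symm z) hz.2.2 F).ge) (lintegral_mono_set fun z hz => h1 hz.1)

end li

variable {n : ℕ} {X : Type} [TopologicalSpace X] [ChartedSpace (Cm n) X]
  [IsManifold 𝓘(ℂ, Cm n) ω X] {κ : Type} [Fintype κ] {G : κ → Set X} {γ : κ → ℝ} {k : κ → ℤ}
  {u : X → ℂ} {x : X} {ζ : κ → X → ℂ} {φ : X → ℝ≥0∞} {r : ℝ}

omit [TopologicalSpace X] in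
theorem wt_rpow (ζ : κ → X → ℂ) (c : κ → ℝ) (t : ℝ) (y : X) :
    (∏ l, ‖ζ l y‖ ^ c l) ^ t = ∏ l, ‖ζ l y‖ ^ (c l * t) := by
  rw [← Real.finsetProd_rpow _ _ fun _ _ => by positivity]
  exact Finset.prod_congr rfl fun l _ => (Real.rpow_mul (norm_nonneg _) _ _).symm

theorem ord_li (hG : Snc n G) (ho : OrdAt n G k u x) (h : Li n φ x)
    (hζ : ∀ l, LEq n (G l) x (ζ l)) (hr : 0 < r) {ψ : X → ℝ} {C : ℝ} (hC : 0 ≤ C)
    (hu : ∀ᶠ y in 𝓝 x, y ∈ off G → ∏ l, ‖ζ l y‖ ^ γ l ≤ C * ψ y ∧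
      ‖u y‖ₑ ^ r * ENNReal.ofReal (ψ y) ≤ φ y) {l : κ} (hl : x ∈ G l) :
    0 < r * k l + γ l + 2 := by
  refine ho.of_li hG (h.mono (ψ := fun y => ENNReal.ofReal C * φ y) ENNReal.ofReal_ne_top
    (.of_forall fun _ => le_rfl)) hζ hr ?_ hl
  filter_upwards [hu, off_iff hζ] with y m1 m2 m3
  have m4 := enorm_wt (m2.1 m3) zero_le_one 1 γ
  rw [enorm_one, norm_one, ENNReal.rpow_one, Real.rpow_one, one_mul, one_mul] at m4
  refine le_trans ?_ (mul_le_mul_right (m1 m3).2 _)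
  rw [m4, mul_left_comm, ← ENNReal.ofReal_mul hC]
  exact mul_le_mul_right (ENNReal.ofReal_le_ofReal (m1 m3).1) _

omit [IsManifold 𝓘(ℂ, Cm n) ω X] in
theorem ord_one : OrdAt n G 0 (fun _ => 1) x := fun _ _ =>
  ⟨fun _ => 1, hol_const 1 x, P277Z.nz_of_ne one_ne_zero, by simp,
    fun _ hl => Frequently.filter_mono (by simpa using hl) (pure_le_nhds x)⟩

end Lu

open Lu in
/-- **UPP** -/
theorem upp_of (hU : UP) (hG : GENY) : UPP := by
  classical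
  intro w e p m F hF k h hN hb j
  by_contra! hc
  have hm : (0 : ℝ) < m := Nat.cast_pos.2 hF.ok.pos
  have ha : (0 : ℝ) < F.a := Nat.cast_pos.2 hF.pos
  obtain ⟨y₀, hy₀⟩ := (hF.sn.connD j).nonempty
  obtain ⟨y, hy, h1⟩ := ((hG _ _ _ _ _ _ hF.sn).1 j y₀ hy₀).exists
  obtain ⟨-, h2⟩ := h1.self_of_nhds hy
  obtain ⟨i, hi⟩ := hF.ok.base.lb.cover y
  obtain ⟨i', hi'⟩ := hF.lbM.cover (F.γ y)
  obtain ⟨ζ, hζ⟩ := Hyp.of_snc hF.sn.snc y
  have h3 := li_of (hU _ _ _ _ _ hF.sn.ok _ _ _ _ hF.toOr _ k h hF.ok.thin subset_rfl hN i y hi ζ hζ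
    (fun j' => if j' = j then F.b j / (m * F.a) - 1 else 0) fun l x hx e hl => by
      have h4 : ((F.a * m - F.b j) * F.A l j : ℝ) < F.a * (F.o l + m) := by
        exact_mod_cast hc l (h2 l x hx e hl)
      simp only [mul_ite, mul_zero, Finset.sum_ite_eq', Finset.mem_univ, if_true]
      rw [← sub_pos]
      refine lt_of_lt_of_eq (div_pos (sub_pos.2 h4) (mul_pos hm ha)) ?_
      field_simp
      ring) (hF.ok.base.ch i y hi)
  obtain ⟨c, -, hc0, -, -, h4, -⟩ := hb i i' y hi hi'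
  obtain ⟨β, h5, -, h6, -⟩ := hF.oq i i' y hi hi' ζ hζ
  obtain ⟨C, h7, h8⟩ := bdd_near h5.cont.norm
  have hM : (0 : ℝ) < (m * F.a : ℕ) := by push_cast; positivity
  have h9 := ord_li hF.sn.snc ord_one h3 hζ one_pos
    (γ := fun l => -2 * F.b l * ((m * F.a : ℕ) : ℝ)⁻¹ +
      2 * if l = j then (F.b j : ℝ) / (m * F.a) - 1 else 0)
    (C := (C ^ 2 / c) ^ ((m * F.a : ℕ) : ℝ)⁻¹) (by positivity) (by
      filter_upwards [h4, h6, h8, off_iff hζ, lb_near hF.ok.base.lb hi] with z m1 m2 m3 m4 m5 m6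
      have m7 : z ∉ F.d.Q := fun e => (hF.hQ ▸ e : z ∈ (off F.D)ᶜ) m6
      refine ⟨?_, by
        rw [indicator_of_mem (mem_compl m7), enorm_one, ENNReal.one_rpow, one_mul]⟩
      rw [wt_add (m4.1 m6), ← mul_assoc]
      refine mul_le_mul_of_nonneg_right ?_ (wt_nonneg _ _ _)
      have m8 := (hN i z m5 m7).1
      have m9 := wt_pos (m4.1 m6) fun l => (F.b l : ℝ)
      have m10 : c ≤ C ^ 2 * (∏ l, ‖ζ l z‖ ^ (F.b l : ℝ)) ^ 2 * h i z ^ (m * F.a) := by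
        refine (m1 m6).trans ?_
        rw [m2 m6, norm_mul, ← wt_int, mul_pow]
        gcongr
      rw [← wt_rpow ζ, ← Real.pow_rpow_inv_natCast m8.le (n := m * F.a) (Nat.cast_pos.1 hM).ne',
        ← Real.mul_rpow (by positivity) (by positivity)]
      refine Real.rpow_le_rpow (wt_nonneg _ _ _) ?_ (by positivity)
      have m11 : ∏ l, ‖ζ l z‖ ^ (-2 * F.b l : ℝ) = ((∏ l, ‖ζ l z‖ ^ (F.b l : ℝ)) ^ 2)⁻¹ := by
        rw [← Real.rpow_two, ← Real.rpow_neg m9.le, wt_rpow]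
        simp only [mul_comm]
      rw [m11, div_mul_eq_mul_div, le_div_iff₀ hc0, inv_mul_le_iff₀ (by positivity)]
      linarith) hy
  simp only [if_true, Pi.zero_apply, Int.cast_zero, Nat.cast_mul] at h9
  refine h9.ne' ?_
  field_simp
  ring

end Vale.Agent.P281Z.Pk
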