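import Vale.Agent.P281Z.Pk.Main
import Vale.Agent.P281Z.Pk.Big
import Vale.Agent.P281Z.Pk.Eig
import Vale.Agent.P281Z.Pk.Eta
import Vale.Agent.P281Z.Pk.Hlw
import Vale.Agent.P281Z.Pk.L2x
import Vale.Agent.P281Z.Pk.Low
import Vale.Agent.P281Z.Pk.Nu
import Vale.Agent.P281Z.Pk.Null
import Vale.Agent.P281Z.Pk.Onem
import Vale.Agent.P281Z.Pk.Ord
import Vale.Agent.P281Z.Pk.OrdS
import Vale.Agent.P281Z.Pk.PlB
import Vale.Agent.P281Z.Pk.Plj
import Vale.Agent.P281Z.Pk.Push
import Vale.Agent.P281Z.Pk.Rho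
import Vale.Agent.P281Z.Pk.Tau
import Vale.Agent.P281Z.Pk.Upp
import Vale.Agent.P281Z.Pk.Up
import Vale.Agent.P281Z.Cv.All
import Vale.Agent.P281Z.Nt.Neat
import Vale.Agent.P281Z.Md.All
import Vale.Agent.P281Z.St.All
import Vale.Agent.P281Z.Gr.Rel
import Vale.Agent.P281Z.Lf.All

/-!
# P281Z, the canonical bundle formula: all rows
-/

namespace Vale.Agent.P281Z.Pk

theorem gr : GR := Gr.gr_of genS

theorem start : START := St.start_of genS

theorem model : MODEL := Md.model rem genS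

theorem plj : PLJ := plj_of plg nu (nul_of nu) rem

theorem dens : DENS := dens_of rem

theorem hlw : HLW :=
  hlw_of (Lf.hl_all res start) Rs.res Rs.idl rem Hm.All.cov Hm.All.modG Hm.All.l1L

theorem up : UP := up_of nu mu fub

theorem all_of {kl : Prop}
    (lv : ForC fun _ _ _ C => (kl → C.Kl) → Lv C) (reg : ForC fun _ _ _ C => (kl → C.Kl) → Reg C) :
    All kl :=
  ⟨rho, eta_of gr Gr.rel, fin_of nu, eig_of nu, plg, plj, plu_of rem plj, pls,
    onem_of Md.bir rem genS, Cv.cov_all Rs.res genS, lv, reg, hlw, ords, ordq, up, upp_of up geny,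
    low_of dens fub mu, push_of Md.exc geny, tau_of dens opn, big_of gr genS dens opn, Nt.neatf, bc,
    genS, model⟩

theorem pk_rest (lv : LV) (reg : REG) : PK :=
  pk_of (all_of (fun w d B C h _ => lv w d B C h) fun w d B C h _ => reg w d B C h)

end Vale.Agent.P281Z.Pk
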