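import Vale.Agent.P281Z.Pk.UpA
import Vale.Agent.P281Z.Pk.Sk
import Vale.Agent.P281Z.Nt.Hyp

/-!
# P281Z, the canonical bundle formula: adapted product charts, lower bounds for fibre integrals
-/

open scoped Manifold ContDiff Topology ENNReal
open Set Filter Function Metric MeasureTheory
open Vale.Agent.P272.K Vale.Agent.P285.H281.FD
open Vale.Agent.P277Z (Hol Nz at_chart hol_const)
open Vale.Agent.P277Z.Slc (Ind LEq Snc)
open Vale.Agent.P277Z.Hir (Cpb)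
open Vale.Agent.P281Z.Hg (PC IsPC)
open Vale.Agent.P281.H152.K (IsProd)

set_option linter.unusedSectionVars false

noncomputable section

namespace Vale.Agent.P281Z.Pk.Up

section one

variable {n : ℕ} {X : Type} [TopologicalSpace X] [ChartedSpace (Cm n) X]
  [IsManifold 𝓘(ℂ, Cm n) ω X] {c c' c'' : Chart n X} {x : X}

theorem tr_an (h : Co n c) (h' : Co n c') (hx : x ∈ c.source) (hx' : x ∈ c'.source) :
    AnalyticAt ℂ (fun z => c' (c.symm z)) (c x) := AnalyticAt.pi fun i =>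
  h.an_hol (c.map_source hx) (by rw [c.left_inv hx]; exact (h'.an x hx').hol i)

theorem jac_comp (h : Co n c) (h' : Co n c') (h'' : Co n c'') (hx : x ∈ c.source)
    (hx' : x ∈ c'.source) (hx'' : x ∈ c''.source) : jacM c c'' x = jacM c' c'' x * jacM c c' x := by
  have h1 := jmat_comp (τ := fun z => c' (c.symm z)) (σ := fun z => c'' (c'.symm z)) (z := c x)
    (by rw [c.left_inv hx]; exact (tr_an h' h'' hx' hx'').differentiableAt)
    (tr_an h h' hx hx').differentiableAt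
  rw [c.left_inv hx] at h1
  refine Eq.trans (jmat_congr ?_) h1
  filter_upwards [(c.tendsto_symm hx).eventually (c'.eventually_left_inverse hx')] with z hz
  rw [hz]

theorem jac_self (hx : x ∈ c.source) : jacM c c x = 1 :=
  (jmat_congr (c.eventually_right_inverse' hx)).trans (jmat_id _)

theorem jac_ne (h : Co n c) (h' : Co n c') (hx : x ∈ c.source) (hx' : x ∈ c'.source) :
    (jacM c c' x).det ≠ 0 := fun k => by
  simpa [jac_self hx, k] using congrArg Matrix.det (jac_comp h h' h hx hx' hx)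

theorem jac_cont (h : Co n c) (h' : Co n c') (hx : x ∈ c.source) (hx' : x ∈ c'.source) :
    ContinuousAt (fun y => (jacM c c' y).det) x :=
  (continuous_id.matrix_det.continuousAt).comp (continuousAt_pi.2 fun p => continuousAt_pi.2
    fun i => (jmat_holo (tr_an h h' hx hx').contDiffAt p i).continuousAt.comp (c.continuousAt hx))

theorem co_trans {E E' : Type} [NormedAddCommGroup E] [NormedSpace ℂ E] [NormedAddCommGroup E']
    [NormedSpace ℂ E'] {Θ : OpenPartialHomeomorph X E} (h : Co n Θ) (T : E ≃ₜ E')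
    (h1 : ∀ v, AnalyticAt ℂ T v) (h2 : ∀ v, AnalyticAt ℂ T.symm v) : Co n (Θ.transHomeomorph T) :=
  ⟨fun y hy => (h.an y hy).cmp (h1 _), fun v hv e he => (h.inv _ hv e he).fun_comp (h2 v)⟩

/-- the change of coordinates, uniformly in the integrand -/
theorem chg (h : Co n c) (h' : Co n c') (hx : x ∈ c.source) (hx' : x ∈ c'.source)
    {U : Set (Cm n)} (hU : U ∈ 𝓝 (c x)) : ∃ U' ∈ 𝓝 (c' x), ∃ K : ℝ≥0∞, K ≠ ⊤ ∧
      ∀ φ : X → ℝ≥0∞, ∫⁻ z in U', φ (c'.symm z) ≤ K * ∫⁻ z in U, φ (c.symm z) := by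
  have hΨ : AnalyticAt ℂ (c.symm.trans c') (c x) := tr_an (c := c) (c' := c') h h' hx hx'
  have h0 : c x ∈ (c.symm.trans c').source := by simp [c.map_source hx, c.left_inv hx, hx']
  set Φ := c.symm.trans c' with hΦ
  have hdet : ContinuousAt (fun w => |(fderiv ℝ Φ w).det|) (c x) :=
    (ContinuousLinearMap.continuous_det.continuousAt.comp
      (((hΨ.contDiffAt (n := 1)).restrict_scalars ℝ).continuousAt_fderiv one_ne_zero)).abs
  obtain ⟨ρ, hρ, hb⟩ := Metric.eventually_nhds_iff_ball.1 ((hdet.eventually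
    (gt_mem_nhds (lt_add_one _))).and (hΨ.eventually_analyticAt.and
      ((Φ.open_source.eventually_mem h0).and (show ∀ᶠ w in 𝓝 (c x), w ∈ U from hU))))
  refine ⟨Φ '' ball (c x) ρ, ?_, ENNReal.ofReal (|(fderiv ℝ Φ (c x)).det| + 1),
    ENNReal.ofReal_ne_top, fun φ => ?_⟩
  · simpa [hΦ, c.left_inv hx] using Φ.image_mem_nhds h0 (ball_mem_nhds _ hρ)
  rw [lintegral_image_eq_lintegral_abs_det_fderiv_mul volume measurableSet_ball
    (f' := fderiv ℝ Φ) (fun w hw =>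
      ((hb w hw).2.1.differentiableAt.restrictScalars ℝ).hasFDerivAt.hasFDerivWithinAt)
    (Φ.injOn.mono fun w hw => (hb w hw).2.2.1)]
  refine le_trans ?_ (mul_le_mul_right (lintegral_mono_set fun w hw => (hb w hw).2.2.2) _)
  rw [← lintegral_const_mul' _ _ ENNReal.ofReal_ne_top]
  refine setLIntegral_mono' measurableSet_ball fun w hw => ?_
  rw [show c'.symm (Φ w) = c.symm w from c'.left_inv (hb w hw).2.2.1.2]
  exact mul_le_mul_left (ENNReal.ofReal_le_ofReal (hb w hw).1.le) _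

variable {κ : Type} [Fintype κ] [DecidableEq κ] {G : κ → Set X} {ζ : κ → X → ℂ} {T : Finset κ}

theorem strat (hG : Snc n G) (hT : ∀ l ∈ T, x ∈ G l) : ∃ᶠ y in 𝓝 x, ∀ l, y ∈ G l ↔ l ∈ T := by
  obtain ⟨ζ, h1, h2⟩ := hG x
  have := Fintype.ofFinite {k // x ∈ G k}
  have ht : Tendsto (fun (s : ℝ) (b : {k // x ∈ G k}) => if b.1 ∈ T then 0 else (s : ℂ)) (𝓝[>] 0)
      (𝓝 0) := by
    refine tendsto_pi_nhds.2 fun b => tendsto_nhdsWithin_of_tendsto_nhds ?_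
    split_ifs
    · exact tendsto_const_nhds
    · simpa using Complex.continuous_ofReal.tendsto 0
  obtain ⟨z, hz1, hz2⟩ := Rs.Cmp.curve h2 (fun k => (h1 k).mem.2 k.2) ht
  have h3 : ∀ᶠ y in 𝓝 x, ∀ k : {k // x ∉ G k}, y ∉ G k :=
    eventually_all.2 fun k => (h1 k).not_mem_near k.2
  refine hz1.frequently (Eventually.frequently ?_)
  filter_upwards [hz2, hz1.eventually h3, hz1.eventually (eventually_all.2 fun k => (h1 k).1),
    self_mem_nhdsWithin] with s a1 a2 a3 a4 l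
  by_cases hl : x ∈ G l
  · rw [← a3, a1 ⟨l, hl⟩]
    simp [(ne_of_gt a4 : s ≠ 0)]
  · exact iff_of_false (a2 ⟨l, hl⟩) fun k => hl (hT l k)

theorem unit_of [T2Space X] [SecondCountableTopology X] (hG : Snc n G)
    (hζ : ∀ l, LEq n (G l) x (ζ l)) {b : X → ℂ} (hb : Hol n b x)
    (h : ∀ᶠ y in 𝓝 x, y ∈ off G → b y ≠ 0) (h' : ∀ l, x ∈ G l → ∃ᶠ y in 𝓝 x, y ∈ G l ∧ b y ≠ 0) :
    b x ≠ 0 := by
  obtain ⟨a, u, -, h2, h3⟩ := Nt.Hp.mon hG hζ hb h
  rw [h3.self_of_nhds]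
  refine mul_ne_zero h2 (Finset.prod_ne_zero_iff.2 fun l _ k => ?_)
  obtain ⟨k1, k2⟩ := pow_eq_zero_iff'.1 k
  obtain ⟨y, ⟨y1, y2⟩, y3, y4⟩ := ((h' l ((hζ l).mem.1 k1)).and_eventually (h3.and (hζ l).1)).exists
  exact y2 (y3.trans (mul_eq_zero_of_right _
    (Finset.prod_eq_zero (Finset.mem_univ l) (by rw [y4.2 y1, zero_pow k2]))))

theorem mono_norm (u : ℂ) (ζ : κ → X → ℂ) (o : κ → ℤ) (s : ℝ) (y : X) :
    ‖u * ∏ l, ζ l y ^ o l‖ ^ s = ‖u‖ ^ s * ∏ l, ‖ζ l y‖ ^ (o l * s) := by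
  rw [norm_mul, Real.mul_rpow (norm_nonneg _) (norm_nonneg _), ← wt_int,
    ← Real.finsetProd_rpow _ _ fun _ _ => by positivity]
  simp only [← Real.rpow_mul (norm_nonneg _)]

theorem unit_T (hζ : ∀ l, LEq n (G l) x (ζ l)) (hT : ∀ l, x ∈ G l ↔ l ∈ T) (γ : κ → ℝ) :
    ContinuousAt (fun y => ∏ l ∈ Tᶜ, ‖ζ l y‖ ^ γ l) x ∧ 0 < ∏ l ∈ Tᶜ, ‖ζ l x‖ ^ γ l :=
  have h : ∀ l ∈ Tᶜ, 0 < ‖ζ l x‖ := fun l hl =>
    norm_pos_iff.2 fun k => Finset.mem_compl.1 hl ((hT l).1 ((hζ l).mem.1 k))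
  ⟨tendsto_finsetProd _ fun l hl => (hζ l).hol.cont.norm.rpow_const (.inl (h l hl).ne'),
    Finset.prod_pos fun l hl => Real.rpow_pos_of_pos (h l hl) _⟩

theorem unit_bd {w : X → ℝ} (h : ContinuousAt w x) (h0 : 0 < w x) :
    ∃ C : ℝ, 0 < C ∧ ∀ᶠ y in 𝓝 x, w y ≤ C ∧ 1 ≤ C * w y := by
  obtain ⟨C, h1, h2⟩ := bdd_near h
  obtain ⟨C', h3, h4⟩ := bdd_near (h.inv₀ h0.ne')
  refine ⟨C + C', by positivity, ?_⟩
  filter_upwards [h2, h4, h.eventually (lt_mem_nhds h0)] with y k1 k2 k3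
  exact ⟨by linarith, by nlinarith [(inv_le_iff_one_le_mul₀ k3).1 k2]⟩

theorem rpow_le {a b C ε : ℝ} (ha : 0 ≤ a) (hb : 0 ≤ b) (hC : 0 < C) (h : a ≤ C * b)
    (hε : ε ∈ Ioc (0 : ℝ) 1) : a ^ ε ≤ (C + 1) * b ^ ε := by
  refine (Real.rpow_le_rpow ha (h.trans (mul_le_mul_of_nonneg_right (lt_add_one C).le hb))
    hε.1.le).trans ?_
  rw [Real.mul_rpow (by positivity) hb]
  exact mul_le_mul_of_nonneg_right (Real.rpow_le_self_of_one_le (by linarith) hε.2) (by positivity)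

theorem rho_cmp (hζ : ∀ l, LEq n (G l) x (ζ l)) (hT : ∀ l, x ∈ G l ↔ l ∈ T) {ρ : X → ℝ}
    {r : κ → ℕ} (hr : Cpb (𝓝 x) ρ fun y => ∏ l, ‖ζ l y‖ ^ r l) :
    ∃ C : ℝ, 0 < C ∧ ∀ᶠ y in 𝓝 x, 0 ≤ ρ y ∧ ∀ ε ∈ Ioc (0 : ℝ) 1,
      ρ y ^ ε ≤ C * ∏ l ∈ T, ‖ζ l y‖ ^ (r l * ε) ∧ ∏ l ∈ T, ‖ζ l y‖ ^ (r l * ε) ≤ C * ρ y ^ ε := by
  obtain ⟨C, hC, h1⟩ := hr
  obtain ⟨k1, k2⟩ := unit_T hζ hT fun l => r l
  obtain ⟨C', hC', h2⟩ := unit_bd k1 k2
  refine ⟨C * C' + 1, by positivity, ?_⟩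
  filter_upwards [h1, h2] with y ⟨y1, y2⟩ ⟨y3, y4⟩
  simp only [← Real.rpow_natCast, ← Finset.prod_mul_prod_compl T] at y1 y2
  have y5 : 0 ≤ ∏ l ∈ T, ‖ζ l y‖ ^ (r l : ℝ) := by positivity
  have y6 : 0 ≤ ∏ l ∈ Tᶜ, ‖ζ l y‖ ^ (r l : ℝ) := by positivity
  have y7 : 0 ≤ ρ y := nonneg_of_mul_nonneg_right ((mul_nonneg y5 y6).trans y2) hC
  refine ⟨y7, fun ε hε => ?_⟩
  simp only [Real.rpow_mul (norm_nonneg _)]
  rw [Real.finsetProd_rpow _ _ fun _ _ => by positivity]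
  exact ⟨rpow_le y7 y5 (by positivity) (by nlinarith [mul_le_mul_of_nonneg_left y3 y5]) hε,
    rpow_le y5 y7 (by positivity) (by nlinarith [mul_le_mul_of_nonneg_left y4 y5]) hε⟩

end one

section two

variable {w e : ℕ} {X Y : Type} [TopologicalSpace X] [ChartedSpace (Cm (w + e)) X]
  [TopologicalSpace Y] [ChartedSpace (Cm w) Y] [IsManifold 𝓘(ℂ, Cm (w + e)) ω X]
  [IsManifold 𝓘(ℂ, Cm w) ω Y] {f : X → Y} {χ : Chart w Y} {x : X}
  {c : OpenPartialHomeomorph X (Cm w × Cm e)}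

theorem isProd_of (h : Co (w + e) c) (h1 : ∀ x ∈ c.source, f x ∈ χ.source ∧ (c x).1 = χ (f x)) :
    IsProd f χ c := by
  refine ⟨h1, fun y hy => ContMDiffAt.contMDiffWithinAt ?_,
    fun v hv => ContMDiffAt.contMDiffWithinAt ?_⟩
  · have he := at_chart (n := w + e) y
    refine (ContMDiffAt.comp y (g := fun z => c ((chartAt (Cm (w + e)) y).symm z))
      (h.an y hy _ he).contDiffAt.contMDiffAt (chart_contMDiffAt he)).congr_of_eventuallyEq ?_
    filter_upwards [at_near he] with z hz using congrArg c hz.left_inv.symm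
  · have he := at_chart (n := w + e) (c.symm v)
    refine (ContMDiffAt.comp v (f := fun z => chartAt (Cm (w + e)) (c.symm v) (c.symm z))
      (chart_symm_contMDiffAt he.1 he.mem_target)
      (h.inv v hv _ he).contDiffAt.contMDiffAt).congr_of_eventuallyEq ?_
    filter_upwards [(c.continuousAt_symm hv).eventually (at_near he)] with z hz
      using hz.left_inv.symm

theorem co_qc (h : Co (w + e) c) : Co (w + e) (c.transHomeomorph (Fin.appendHomeomorph w e)) := by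
  refine co_trans h _ (fun v => AnalyticAt.pi fun i => ?_) fun v => AnalyticAt.prod
    (AnalyticAt.pi fun i => P277Z.Val.an_coord _ v) (AnalyticAt.pi fun i => P277Z.Val.an_coord _ v)
  refine Fin.addCases (fun a => ?_) (fun a => ?_) i
  · simpa using (P277Z.Val.an_coord a v.1).fun_comp (f := Prod.fst) analyticAt_fst
  · simpa using (P277Z.Val.an_coord a v.2).fun_comp (f := Prod.snd) analyticAt_snd

/-- adapted product charts -/
theorem exists_pc (hf : ContinuousAt f x) (hχ : At χ (f x)) {α : Type} [Fintype α]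
    {h : α → X → ℂ} (hi : Ind (w + e) (Sum.elim h fun (a : Fin w) z => χ (f z) a) x)
    (h0 : ∀ a, h a x = 0) : ∃ (c : OpenPartialHomeomorph X (Cm w × Cm e)) (j : α ↪ Fin e),
      Co (w + e) c ∧ IsProd f χ c ∧ x ∈ c.source ∧ c x = (χ (f x), 0) ∧
      ∀ y ∈ c.source, ∀ a, (c y).2 (j a) = h a y := by
  have hd : Fintype.card α + (e - Fintype.card α) = e :=
    Nat.add_sub_cancel' (by have := ind_le hi; simp at this; omega)
  obtain ⟨Θ, h1, h2, h3, h4⟩ := exists_co hi (d := e - Fintype.card α) (by simp; omega)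
    (hf.eventually (at_near hχ))
  let σ : α ⊕ Fin (e - Fintype.card α) ≃ Fin e := Fintype.equivFinOfCardEq (by simpa using hd)
  let L : ((α ⊕ Fin w → ℂ) × Cm (e - Fintype.card α)) ≃L[ℂ] Cm w × Cm e :=
    ((((LinearEquiv.sumArrowLequivProdArrow _ _ ℂ ℂ).trans (LinearEquiv.prodComm ℂ _ _)).prodCongr
      (.refl ℂ _)).trans ((LinearEquiv.prodAssoc ℂ _ _ _).trans ((LinearEquiv.refl ℂ _).prodCongr
        ((LinearEquiv.sumArrowLequivProdArrow _ _ ℂ ℂ).symm.trans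
          (LinearEquiv.funCongrLeft ℂ ℂ σ.symm))))).toContinuousLinearEquiv
  have L1 : ∀ v, (L v).1 = fun a => v.1 (.inr a) := fun v => rfl
  have L2 : ∀ v a, (L v).2 (σ (.inl a)) = v.1 (.inl a) := fun v a => by
    change Sum.elim (fun a => v.1 (.inl a)) v.2 (σ.symm (σ (.inl a))) = _
    rw [σ.symm_apply_apply, Sum.elim_inl]
  have k := co_trans h1 (L.toHomeomorph.trans (Homeomorph.subRight (0, (L (Θ x)).2)))
    (fun v => (L.toContinuousLinearMap.analyticAt v).sub analyticAt_const) fun v =>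
      (L.symm.toContinuousLinearMap.analyticAt _).fun_comp (analyticAt_id.add analyticAt_const)
  have k1 : ∀ y ∈ Θ.source, (L (Θ y)).1 - 0 = χ (f y) := fun y hy => by
    rw [sub_zero, L1, h4 y hy]
    rfl
  refine ⟨_, ⟨fun a => σ (.inl a), fun a a' k => Sum.inl_injective (σ.injective k)⟩, k,
    isProd_of k fun y hy => ⟨(h3 hy).2, k1 y hy⟩, h2, Prod.ext (k1 x h2) (sub_self _),
    fun y hy a => ?_⟩
  change (L (Θ y)).2 (σ (.inl a)) - (L (Θ x)).2 (σ (.inl a)) = _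
  rw [L2, L2, h4 y hy, h4 x h2]
  simp [h0]

variable {κ : Type} [Fintype κ] [DecidableEq κ] {G : κ → Set X} {ζ : κ → X → ℂ} {T : Finset κ}

theorem reg_pc (hf : ContinuousAt f x) (hχ : At χ (f x)) (h : RegAt (w + e) w f G (f x))
    (hζ : ∀ l, LEq (w + e) (G l) x (ζ l)) (hT : ∀ l ∈ T, x ∈ G l) :
    ∃ (c : OpenPartialHomeomorph X (Cm w × Cm e)) (j : T ↪ Fin e),
      Co (w + e) c ∧ IsProd f χ c ∧ x ∈ c.source ∧ c x = (χ (f x), 0) ∧
      ∀ y ∈ c.source, ∀ a, (c y).2 (j a) = ζ a y :=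
  exists_pc hf hχ (ind_congr ((h x rfl χ hχ ζ hζ).comp (Sum.map (fun a : T => ⟨a, hT a a.2⟩) id)
    (Sum.map_injective.2 ⟨fun _ _ k => Subtype.ext (congrArg (·.1) k), injective_id⟩))
      (Sum.rec (fun _ => .of_forall fun _ => rfl) fun _ => .of_forall fun _ => rfl))
    fun a => (hζ a).mem.2 (hT a a.2)

theorem move (hf : ContinuousAt f x) (h : RegAt (w + e) w f G (f x))
    (hζ : ∀ l, LEq (w + e) (G l) x (ζ l)) (hT : ∀ l ∈ T, x ∈ G l) {S : Set Y} (hS : Thin w S) :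
    ∃ᶠ y in 𝓝 x, (∀ l ∈ T, y ∈ G l) ∧ f y ∉ S := by
  have hχ := at_chart (n := w) (f x)
  obtain ⟨c, j, -, h2, h3, h4, h5⟩ := reg_pc hf hχ h hζ hT
  have k1 : Tendsto (fun y => (chartAt (Cm w) (f x) y, (0 : Cm e))) (𝓝 (f x)) (𝓝 (c x)) :=
    h4 ▸ ((chartAt (Cm w) (f x)).continuousAt hχ.2).tendsto.prodMk_nhds tendsto_const_nhds
  have k2 := (c.tendsto_symm h3).comp k1
  refine k2.frequently (((hS.freq (f x)).and_eventually ((k1.eventually (c.open_target.mem_nhds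
    (c.map_source h3))).and ((at_near hχ).and
      (k2.eventually (eventually_all.2 fun l => (hζ l).1))))).mono fun y ⟨y1, y2, y3, y4⟩ => ?_)
  have y5 := h2.fst _ (c.map_target y2)
  rw [c.right_inv y2] at y5
  refine ⟨fun l hl => (y4 l).1 ((h5 _ (c.map_target y2) ⟨l, hl⟩).symm.trans ?_), ?_⟩
  · rw [c.right_inv y2]
    rfl
  · rwa [(chartAt (Cm w) (f x)).injOn y3.2 y5.1 y5.2] at y1

end two

variable {w e m : ℕ} {B : Bs w} {E : Et B e m} [DecidableEq E.κ]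

theorem wt_meas (hE : E.Geo) (ε : ℝ) : Measurable (E.wt ε) :=
  (hE.cont.measurable.pow_const ε).ennreal_ofReal

theorem ev_O (hE : E.Geo) {i : B.l.ι} {x : E.X.X} (hx : E.g x ∈ B.l.U i) (hQ : E.g x ∉ E.Q) :
    ∀ᶠ z in 𝓝 x, z ∈ off E.G → z ∈ E.O i := by
  filter_upwards [hE.hol.cont.continuousAt.eventually ((lb_near hE.base.lb hx).and
    (hE.thin₀.closed.isOpen_compl.eventually_mem fun k => hQ (hE.sub k)))] with z h1 h2
    using ⟨h1, h2⟩

/-- the lower bound for the fibre integrals -/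
theorem low (hE : E.Geo) {i : B.l.ι} {x : E.X.X} (hx : E.g x ∈ B.l.U i) (hQ : E.g x ∉ E.Q)
    (hν : IsFm E.g (E.g x) (fmm m (E.O i) (B.ch i) E.g (E.t i)) (E.ν i (E.g x)))
    {ζ : E.κ → E.X.X → ℂ} (hζ : ∀ l, LEq (w + e) (E.G l) x (ζ l)) {c : Chart (w + e) E.X.X}
    (hc : At c x) {b : E.X.X → ℂ} (hb : ContinuousAt b x) (hb0 : b x ≠ 0) {o : E.κ → ℤ}
    (ht : ∀ᶠ z in 𝓝 x, z ∈ off E.G → E.t i c z = b z * ∏ l, ζ l z ^ o l) {r : E.κ → ℕ}
    (hr : Cpb (𝓝 x) E.ρ fun y => ∏ l, ‖ζ l y‖ ^ r l) {T : Finset E.κ}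
    (hT : ∀ l, x ∈ E.G l ↔ l ∈ T) : ∃ δ ∈ Ioc (0 : ℝ) 1, ∃ K : ℝ≥0∞, K ≠ 0 ∧ ∀ ε ∈ Ioc (0 : ℝ) 1,
      K * ∏ l ∈ T, Dc (o l * (2 / m) + r l * ε) δ ≤ E.J i ε (E.g x) := by
  have hχ := hE.base.ch i _ hx
  have hg := hE.hol.cont.continuousAt (x := x)
  obtain ⟨p, j, p1, p2, p3, p4, p5⟩ := reg_pc hg hχ (hE.reg _ hQ) hζ fun l => (hT l).2
  let q : PC w e E.X.X B.W.X := (B.ch i, p)
  have q1 : Co (w + e) (qc q) := co_qc p1
  obtain ⟨C, hC, h1⟩ := rho_cmp hζ hT hr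
  obtain ⟨k1, k2⟩ := unit_T hζ hT fun l => o l * (2 / m)
  obtain ⟨C', hC', h2⟩ := unit_bd ((((hb.mul ((jac_cont q1 (co_chart hc.1) p3 hc.2).pow
    m)).norm.rpow_const (p := 2 / m) (.inr (by positivity))).mul k1)) (mul_pos
      (Real.rpow_pos_of_pos (norm_pos_iff.2 (mul_ne_zero hb0
        (pow_ne_zero _ (jac_ne q1 (co_chart hc.1) p3 hc.2)))) _) k2)
  have h3 : Tendsto (fun z => (B.ch i (E.g x), z)) (𝓝 0) (𝓝 (p x)) :=
    p4 ▸ tendsto_const_nhds.prodMk_nhds tendsto_id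
  have h4 : ∀ᶠ z in 𝓝 x, (∀ a : T, ζ a z ≠ 0) → z ∈ off E.G := by
    filter_upwards [off_iff hζ, eventually_all.2 fun l : {l // l ∉ T} =>
      (hζ l).hol.ne_near (mt (hζ l).mem.1 (mt (hT l).1 l.2))] with z z1 z2 z3
      using z1.2 fun l => (em (l ∈ T)).elim (fun k => z3 ⟨l, k⟩) fun k => z2 ⟨l, k⟩
  obtain ⟨δ, hδ, h5⟩ := Metric.eventually_nhds_iff_ball.1 ((h3.eventually (p.open_target.mem_nhds
    (p.map_source p3))).and (((p.tendsto_symm p3).comp h3).eventually (h1.and (h2.and (h4.and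
      (ht.and ((ev_O hE hx hQ).and ((at_near hc).and (hg.eventually (at_near hχ))))))))))
  obtain ⟨K, K1, -, K2⟩ := poly j (lt_min hδ one_pos)
  refine ⟨_, ⟨lt_min hδ one_pos, min_le_right _ _⟩, ENNReal.ofReal (C * C')⁻¹ * K, mul_ne_zero
    (ENNReal.ofReal_pos.2 (by positivity)).ne' K1, fun ε hε => ?_⟩
  refine le_trans ?_ (lintegral_mono (indicator_le_self p.source (E.wt ε)))
  rw [hν.2 q ⟨hχ.1, p2⟩ hχ.2 _ ((wt_meas hE ε).indicator p.open_source.measurableSet)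
    fun z hz => indicator_of_notMem hz _, mul_assoc, ← Finset.prod_coe_sort,
    ← K2 fun a => o a * (2 / m) + r a * ε, ← lintegral_const_mul' _ _ ENNReal.ofReal_ne_top]
  refine le_trans (lintegral_mono_ae ?_) (lintegral_mono_set fun z hz =>
    (h5 z (ball_subset_ball (min_le_left _ _) hz)).1)
  filter_upwards [ae_restrict_mem measurableSet_ball, ae_restrict_of_ae
    (ae_all_iff.2 fun a => Measure.ae_eval_ne (fun _ => volume) (j a) 0)] with z z1 z2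
  obtain ⟨z3, ⟨z4, z5⟩, ⟨-, z6⟩, z7, z8, z9, z10, z11⟩ :=
    h5 z (ball_subset_ball (min_le_left _ _) z1)
  have z12 := p.map_target z3
  have z13 : ∀ a : T, z (j a) = ζ a (p.symm (B.ch i (E.g x), z)) := fun a => by
    rw [← p5 _ z12, p.right_inv z3]
  simp only [comp_apply] at z4 z5 z6 z7 z8 z9 z10 z11
  simp only [z13] at z2 ⊢
  change _ ≤ indicator _ _ (p.symm (B.ch i (E.g x), z)) *
    indicator _ _ (p.symm (B.ch i (E.g x), z))
  generalize p.symm (B.ch i (E.g x), z) = y at *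
  have y1 := z9 (z7 z2)
  have y2 : rl m (B.ch i) E.g (E.t i) q y = b y * (jacM (qc q) c y).det ^ m * ∏ l, ζ l y ^ o l := by
    rw [rl, hE.tchg i _ c y y1 (at_chart y) z10, jacM_self z11, z8 y1.2, jac_comp q1
      (co_chart (at_chart y).1) (co_chart hc.1) z12 (at_chart y).2 z10.2, Matrix.det_mul,
      Matrix.det_one]
    ring
  rw [indicator_of_mem z12, indicator_of_mem y1, y2, ← ofReal_norm, ENNReal.ofReal_rpow_of_nonneg
    (norm_nonneg _) (by positivity), Et.wt, ← ENNReal.ofReal_mul (by positivity),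
    ← ENNReal.ofReal_mul (Real.rpow_nonneg z4 _), mono_norm, ← Finset.prod_mul_prod_compl T,
    wt_add z2, Finset.prod_coe_sort T fun l => ‖ζ l y‖ ^ (o l * (2 / m : ℝ)),
    Finset.prod_coe_sort T fun l => ‖ζ l y‖ ^ (r l * ε)]
  refine ENNReal.ofReal_le_ofReal ((inv_mul_le_iff₀ (by positivity)).2 ?_)
  have y3 : 0 ≤ ∏ l ∈ T, ‖ζ l y‖ ^ (o l * (2 / m : ℝ)) := by positivity
  refine (mul_le_mul (le_mul_of_one_le_right y3 z6) (z5 ε hε).2 (by positivity)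
    (by positivity)).trans_eq ?_
  simp only [Pi.mul_apply, Pi.pow_apply]
  ring

end Vale.Agent.P281Z.Pk.Up
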