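import Vale.Agent.P281Z.Pk.Sk
import Vale.Agent.P281Z.Sc.L2

/-!
# P281Z, the canonical bundle formula: transfer to an embedded fibre
-/

open scoped Manifold ContDiff Topology ENNReal Matrix
open Set Filter MeasureTheory
open Vale.Agent.P272.K Vale.Agent.P285.H281.FD
open Vale.Agent.P277Z (Hol Nz at_chart)
open Vale.Agent.P277Z.Slc (Ind LEq Snc)
open Vale.Agent.P281Z.Hg (PC IsPC)

set_option linter.unusedSectionVars false

noncomputable section

namespace Vale.Agent.P281Z.Pk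

section jac

variable {n : ℕ} {X : Type} [TopologicalSpace X] [ChartedSpace (Cm n) X]
  [IsManifold 𝓘(ℂ, Cm n) ω X] {θ c c' : Chart n X} {x : X}

theorem co_an (hθ : Co n θ) (hx : x ∈ θ.source) (hc : At c x) :
    AnalyticAt ℂ (fun z => c (θ.symm z)) (θ x) :=
  hθ.inv _ (θ.map_source hx) c (by rwa [θ.left_inv hx])

theorem co_jac_comp (hθ : Co n θ) (hx : x ∈ θ.source) (hc : At c x) (hc' : At c' x) :
    jacM θ c' x = jacM c c' x * jacM θ c x := by
  have h1 : (fun z => c' (θ.symm z)) =ᶠ[𝓝 (θ x)] fun z => c' (c.symm (c (θ.symm z))) := by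
    filter_upwards [(θ.tendsto_symm hx).eventually (at_near hc)] with z hz
    rw [hz.left_inv]
  have h2 : c (θ.symm (θ x)) = c x := by rw [θ.left_inv hx]
  rw [jacM_eq, jacM_eq, jacM_eq, jmat_congr h1, ← h2]
  exact jmat_comp (τ := fun z => c (θ.symm z)) (σ := fun z => c' (c.symm z))
    (by rw [h2]; exact transition_differentiableAt hc hc') (co_an hθ hx hc).differentiableAt

theorem co_jac_ne (hθ : Co n θ) (hx : x ∈ θ.source) (hc : At c x) : (jacM θ c x).det ≠ 0 := by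
  have h1 : (fun z => θ (c.symm (c (θ.symm z)))) =ᶠ[𝓝 (θ x)] fun z => z := by
    filter_upwards [(θ.tendsto_symm hx).eventually (at_near hc), θ.eventually_right_inverse' hx]
      with z hz hz'
    rw [hz.left_inv, hz']
  have h2 : c (θ.symm (θ x)) = c x := by rw [θ.left_inv hx]
  have h3 := jmat_comp (τ := fun z => c (θ.symm z)) (σ := fun z => θ (c.symm z))
    (by rw [h2]; exact (hθ.an x hx c hc).differentiableAt) (co_an hθ hx hc).differentiableAt
  rw [jmat_congr h1, jmat_id] at h3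
  exact fun h0 => by simpa [jacM_eq θ c x ▸ h0] using congrArg Matrix.det h3

theorem co_jac_cont (hθ : Co n θ) (hx : x ∈ θ.source) (hc : At c x) :
    ContinuousAt (fun y => (jacM θ c y).det) x := by
  refine (continuous_id.matrix_det.continuousAt (x := jacM θ c x)).comp (continuousAt_pi.2 fun p =>
    continuousAt_pi.2 fun i => ?_)
  have h := co_an hθ hx hc
  refine ContinuousAt.congr (((continuous_apply p).continuousAt.comp
    (((ContinuousLinearMap.apply ℂ (Cm n) (Pi.single i 1 : Cm n)).continuous.continuousAt.comp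
      h.fderiv.continuousAt).comp (θ.continuousAt hx)))) ?_
  filter_upwards [(θ.continuousAt hx).eventually h.eventually_analyticAt] with y hy
  exact (jmat_apply hy.differentiableAt p i).symm

end jac

variable {w e : ℕ} {X : Mf (w + e)} {W : Mf w} {F : Mf e} {g : X.X → W.X} {y : W.X}
  {j : F.X → X.X} {q : PC w e X.X W.X} {a : F.X} {x : X.X}

theorem pc_co (hq : IsPC g q) : Co (w + e) q.2 :=
  ⟨fun z hz c hc => (contMDiffAt_iff_contDiffAt.1 (ContMDiffAt.comp (c z) (g := q.2)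
      (by rw [hc.left_inv]; exact hq.2.hol.contMDiffAt (q.2.open_source.mem_nhds hz))
      (chart_symm_contMDiffAt hc.1 hc.mem_target))).analyticAt,
    fun v hv c hc => (contMDiffAt_iff_contDiffAt.1 (ContMDiffAt.comp v (g := c)
      (chart_contMDiffAt hc) (hq.2.symm_hol.contMDiffAt (q.2.open_target.mem_nhds hv)))).analyticAt⟩

theorem qc_co' (hq : IsPC g q) : Co (w + e) (qc q) := by
  let T : (Cm w × Cm e) ≃L[ℂ] Cm (w + e) := LinearEquiv.toContinuousLinearEquiv
    { Fin.appendEquiv w e with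
      map_add' := fun u v => funext (Fin.addCases (by simp) (by simp))
      map_smul' := fun u v => funext (Fin.addCases (by simp) (by simp)) }
  exact (pc_co hq).trans T

theorem exists_pc (hg : HolM (w + e) w g) (hs : Sbm (w + e) w g x) :
    ∃ q : PC w e X.X W.X, IsPC g q ∧ x ∈ q.2.source := by
  have he' := at_chart (n := w) (g x)
  obtain ⟨Θ, h1, h2, h3, h4⟩ := exists_co ((sbm_iff_ind (hg.at x) he').1 hs) (d := e) (by simp)
    (hg.cont.continuousAt.eventually (at_near he'))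
  refine ⟨(_, Θ), ⟨he'.1, fun z hz => ⟨(h3 hz).2, h4 z hz⟩, fun z hz => ?_, fun v hv => ?_⟩, h2⟩
  · have hc := at_chart (n := w + e) z
    refine (ContMDiffAt.congr_of_eventuallyEq (ContMDiffAt.comp z
      (g := fun v => Θ ((chartAt (Cm (w + e)) z).symm v))
      (contMDiffAt_iff_contDiffAt.2 (h1.an z hz _ hc).contDiffAt) (chart_contMDiffAt hc))
      ((at_near hc).mono fun u hu => ?_)).contMDiffWithinAt
    exact congrArg Θ hu.left_inv.symm
  · have hc := at_chart (n := w + e) (Θ.symm v)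
    refine (ContMDiffAt.congr_of_eventuallyEq (ContMDiffAt.comp v
      (g := (chartAt (Cm (w + e)) (Θ.symm v)).symm) (chart_symm_contMDiffAt hc.1 hc.mem_target)
      (contMDiffAt_iff_contDiffAt.2 (h1.inv v hv _ hc).contDiffAt))
      (((Θ.continuousAt_symm hv).eventually (at_near hc)).mono fun u hu => ?_)).contMDiffWithinAt
    exact hu.left_inv.symm

/-- the fibre coordinates of a product chart -/
theorem fib_co (hj : Emb e (w + e) j (g ⁻¹' {y})) (hq : IsPC g q) (ha : j a ∈ q.2.source) :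
    ∃ c : Chart e F.X, Co e c ∧ c.source = j ⁻¹' q.2.source ∧
      c.target = {z | (q.1 y, z) ∈ q.2.target} ∧ (∀ b, c b = (q.2 (j b)).2) ∧
      (∀ b ∈ c.source, q.2 (j b) = (q.1 y, c b)) ∧
      ∀ z ∈ c.target, j (c.symm z) = q.2.symm (q.1 y, z) := by
  have : Nonempty F.X := ⟨a⟩
  have h1 : ∀ b, j b ∈ q.2.source → q.2 (j b) = (q.1 y, (q.2 (j b)).2) := fun b hb =>
    Prod.ext ((hq.2.fst _ hb).2.trans (congrArg q.1 (hj.fib b))) rfl
  have h2 : ∀ z, (q.1 y, z) ∈ q.2.target →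
      j (Function.invFun j (q.2.symm (q.1 y, z))) = q.2.symm (q.1 y, z) := fun z hz =>
    Function.invFun_eq (hj.ex (q.1.injOn (hq.2.fst _ (q.2.map_target hz)).1
      (hj.fib a ▸ (hq.2.fst _ ha).1) ((hq.2.fst _ (q.2.map_target hz)).2.symm.trans
        (congrArg Prod.fst (q.2.right_inv hz)))))
  have h3 : IsOpen {z | (q.1 y, z) ∈ q.2.target} :=
    q.2.open_target.preimage (Continuous.prodMk_right _)
  have h4 : ∀ z, (q.1 y, z) ∈ q.2.target →
      HolA e e (fun z => Function.invFun j (q.2.symm (q.1 y, z))) z := fun z hz =>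
    hj.lift_at (((pc_co hq).holA (F := fun z : Cm e => (q.1 y, z))
      ((anV_const _ _).prod (anV_chart (at_chart z))) hz).cng
        ((h3.eventually_mem hz).mono fun u hu => (h2 u hu).symm))
  have h5 : ∀ b, j b ∈ q.2.source → AnV e (fun b => (q.2 (j b)).2) b := fun b hb =>
    AnV.pi fun i => hj.hol.hol (a := fun x => (q.2 x).2 i)
      ((((pc_co hq).an _ hb).cmp analyticAt_snd).hol i)
  exact ⟨{
    toFun b := (q.2 (j b)).2
    invFun z := Function.invFun j (q.2.symm (q.1 y, z))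
    source := j ⁻¹' q.2.source
    target := {z | (q.1 y, z) ∈ q.2.target}
    map_source' b hb := show _ ∈ q.2.target from h1 b hb ▸ q.2.map_source hb
    map_target' z hz := show _ ∈ q.2.source from (h2 z hz).symm ▸ q.2.map_target hz
    left_inv' b hb := by
      rw [← h1 b hb, q.2.left_inv hb]
      exact Function.leftInverse_invFun hj.inj b
    right_inv' z hz := by rw [h2 z hz, q.2.right_inv hz]
    open_source := q.2.open_source.preimage hj.hol.cont
    open_target := h3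
    continuousOn_toFun b hb := (h5 b hb).cont.continuousWithinAt
    continuousOn_invFun z hz := (h4 z hz).cont.continuousWithinAt },
    ⟨h5, fun z hz c hc => (h4 z hz).an (at_chart z) hc⟩, rfl, rfl, fun _ => rfl, h1, h2⟩

/-- holomorphic along the fibre means holomorphic on the fibre -/
theorem fh_iff (hj : Emb e (w + e) j (g ⁻¹' {y})) (hg : HolM (w + e) w g)
    (hs : Sbm (w + e) w g (j a)) {φ : X.X → ℂ} : FH g φ (j a) ↔ Hol e (fun b => φ (j b)) a := by
  refine ⟨fun h => ?_, fun h q hq ha => ?_⟩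
  · obtain ⟨q, hq, ha⟩ := exists_pc hg hs
    obtain ⟨c, h1, h2, -, -, h5, -⟩ := fib_co hj hq ha
    have ha' : a ∈ c.source := h2 ▸ ha
    have k := h q hq ha
    rw [h5 a ha'] at k
    refine Hol.congr (a := fun b => φ (q.2.symm (q.1 y, c b))) ((h1.an a ha').cmp k)
      ((c.open_source.eventually_mem ha').mono fun b hb => ?_)
    rw [← h5 b hb, q.2.left_inv (show b ∈ j ⁻¹' q.2.source from h2 ▸ hb)]
  · obtain ⟨c, h1, h2, -, -, h5, h6⟩ := fib_co hj hq ha
    have ha' : a ∈ c.source := h2 ▸ ha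
    rw [h5 a ha']
    refine (h1.an_hol (c.map_source ha') (by rwa [c.left_inv ha'])).congr
      ((c.open_target.eventually_mem (c.map_source ha')).mono fun z hz => ?_)
    exact congrArg φ (h6 z hz)

theorem FBig.fib {O : Set X.X} (h : FBig g y O) (hj : Emb e (w + e) j (g ⁻¹' {y})) (a : F.X) :
    ∃ h, Hol e h a ∧ Nz h a ∧ ∀ᶠ b in 𝓝 a, h b ≠ 0 → j b ∈ O := by
  obtain ⟨h, h1, h2, h3⟩ := h _ (hj.fib a)
  refine ⟨fun b => h (j b), hj.hol.hol h1, fun k => ?_,
    (hj.hol.cont.continuousAt.eventually h3).mono fun b hb => hb (hj.fib b)⟩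
  obtain ⟨z, ⟨m1, m2⟩, m3⟩ := (h2.and_eventually (hj.ev.1 k)).exists
  obtain ⟨b, rfl⟩ := hj.ex m1
  exact m2 (m3 b rfl)

theorem FBig.dense {O : Set X.X} (h : FBig g y O) (hj : Emb e (w + e) j (g ⁻¹' {y})) :
    Dense (j ⁻¹' O) := fun a =>
  let ⟨_, _, h2, h3⟩ := h.fib hj a
  mem_closure_iff_frequently.2 (((not_eventually.1 h2).and_eventually h3).mono fun _ k => k.2 k.1)

variable {D : PC w e X.X W.X → X.X → ℝ≥0∞} {μ : Measure X.X}

/-- locally integrable functions are integrable -/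
theorem IsFm.fin (h : IsFm g y D μ) (hj : Emb e (w + e) j (g ⁻¹' {y})) {f : X.X → ℝ≥0∞}
    (hf : Measurable f) (hl : ∀ a, ∃ q, IsPC g q ∧ j a ∈ q.2.source ∧
      Li e (fun b => f (j b) * D q (j b)) a) : ∫⁻ x, f x ∂μ < ⊤ := by
  have hK : IsCompact (g ⁻¹' {y}) := hj.closed.isCompact
  rw [← Measure.restrict_eq_self_of_ae_mem (μ := μ) h.1]
  refine hK.induction_on (p := fun s => ∫⁻ x in s, f x ∂μ < ⊤) (by simp)
    (fun s t hs ht => (lintegral_mono_set hs).trans_lt ht)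
    (fun s t hs ht => (lintegral_union_le _ _ _).trans_lt (ENNReal.add_lt_top.2 ⟨hs, ht⟩))
    fun x hx => ?_
  obtain ⟨a, rfl⟩ := hj.ex hx
  obtain ⟨q, hq, ha, hl⟩ := hl a
  obtain ⟨c, h1, h2, h3, h4, -, h6⟩ := fib_co hj hq ha
  obtain ⟨V, hV, hl⟩ := hl.co h1 (h2 ▸ ha)
  have hU : IsOpen (q.2.source ∩ q.2 ⁻¹' (Prod.snd ⁻¹' interior V)) :=
    q.2.isOpen_inter_preimage (isOpen_interior.preimage continuous_snd)
  refine ⟨_, mem_nhdsWithin_of_mem_nhds (hU.mem_nhds
    ⟨ha, mem_interior_iff_mem_nhds.2 (h4 a ▸ hV)⟩), ?_⟩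
  rw [← lintegral_indicator hU.measurableSet, h.2 q hq (hj.fib a ▸ (hq.2.fst _ ha).1) _
    (hf.indicator hU.measurableSet) fun x hx => indicator_of_notMem (fun k => hx k.1) _, ← h3]
  refine lt_of_le_of_lt ?_ ((lintegral_mono_set interior_subset).trans_lt hl)
  rw [← lintegral_indicator c.open_target.measurableSet,
    ← lintegral_indicator isOpen_interior.measurableSet]
  refine lintegral_mono fun z => indicator_apply_le' (fun hz => ?_) fun _ => zero_le
  by_cases hv : z ∈ interior V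
  · rw [indicator_of_mem hv, h6 z hz]
    exact mul_le_mul_left (indicator_le_self _ _ _) _
  · rw [indicator_of_notMem fun k => hv ?_, zero_mul]
    · exact zero_le
    · simpa only [mem_preimage, q.2.right_inv (show z ∈ {z | (q.1 y, z) ∈ _} from h3 ▸ hz)]
        using k.2

/-- integrable functions are locally integrable -/
theorem IsFm.li (h : IsFm g y D μ) (hj : Emb e (w + e) j (g ⁻¹' {y})) (hq : IsPC g q)
    (ha : j a ∈ q.2.source) {f : X.X → ℝ≥0∞} {f' : F.X → ℝ≥0∞} (hf : Measurable f')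
    (hle : ∀ b, f' b ≤ f (j b)) (hl : ∫⁻ x, f x ∂μ < ⊤) : Li e (fun b => f' b * D q (j b)) a := by
  obtain ⟨c, h1, h2, h3, -, -, h6⟩ := fib_co hj hq ha
  have hm := (hj.cemb.measurableEmbedding.measurable_extend hf measurable_const (g' := 0)).indicator
    q.2.open_source.measurableSet
  have ha' : a ∈ c.source := h2 ▸ ha
  refine li_of_co h1 ha' ⟨_, c.open_target.mem_nhds (c.map_source ha'), lt_of_le_of_lt ?_
    ((lintegral_mono fun x => (indicator_le_self q.2.source (Function.extend j f' 0) x).trans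
      ?_).trans_lt hl)⟩
  · rw [h.2 q hq (hj.fib a ▸ (hq.2.fst _ ha).1) _ hm fun x hx => indicator_of_notMem hx _, ← h3]
    refine (setLIntegral_congr_fun c.open_target.measurableSet fun z hz => ?_).le
    rw [← h6 z hz, indicator_of_mem (mem_preimage.1 (h2 ▸ c.map_target hz :)),
      hj.inj.extend_apply]
  · by_cases hx : ∃ b, j b = x
    · obtain ⟨b, rfl⟩ := hx
      exact (hj.inj.extend_apply _ _ _).trans_le (hle b)
    · exact (Function.extend_apply' _ _ _ hx).trans_le zero_le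

namespace Et.Geo

variable {m : ℕ} {B : Bs w} {E : Et B e m} {i : B.l.ι} {y : B.W.X} {j : F.X → E.X.X}
  {c : Chart (w + e) E.X.X} {μ : Measure E.X.X}

theorem rl (hE : E.Geo) {q : PC w e E.X.X B.W.X} (hq : IsPC E.g q) {x : E.X.X}
    (hx : x ∈ q.2.source) (hc : At c x) (hi : E.g x ∈ B.l.U i) :
    ∃ u : E.X.X → ℂ, ContinuousAt u x ∧ u x ≠ 0 ∧
      ∀ᶠ z in 𝓝 x, z ∈ E.O i → rl m (B.ch i) E.g (E.t i) q z = u z * E.t i c z := by
  have h1 := hE.base.ch i _ hi
  have h2 : At q.1 (E.g x) := ⟨hq.1, (hq.2.fst x hx).1⟩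
  refine ⟨fun z => ((jacM (qc q) c z).det * (jacM (B.ch i) q.1 (E.g z)).det) ^ m,
    ((co_jac_cont (qc_co' hq) hx hc).mul ((co_jac_cont (co_chart h1.1) h1.2 h2).comp
      hE.hol.cont.continuousAt)).pow m, pow_ne_zero _ (mul_ne_zero (co_jac_ne (qc_co' hq) hx hc)
        (jacM_det_ne_zero h1 h2)), ?_⟩
  filter_upwards [at_near hc, q.2.open_source.mem_nhds hx] with z k1 k2 k3
  rw [Pk.rl, hE.tchg i _ c z k3 (at_chart z) k1, co_jac_comp (qc_co' hq) k2 (at_chart z) k1,
    Matrix.det_mul]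
  ring

theorem sbm (hE : E.Geo) (hQ : y ∉ E.Q) (hj : Emb e (w + e) j (E.g ⁻¹' {y})) (a : F.X) :
    Sbm (w + e) w E.g (j a) := (hE.reg y hQ).sbm hE.hol hE.snc (hj.fib a)

theorem fsnc (hE : E.Geo) (hQ : y ∉ E.Q) (hj : Emb e (w + e) j (E.g ⁻¹' {y})) :
    Snc e fun l => j ⁻¹' E.G l := (hE.reg y hQ).snc hE.hol hE.snc hj

theorem mem (hE : E.Geo) (hy : y ∈ B.l.U i) (hQ : y ∉ E.Q) (hj : Emb e (w + e) j (E.g ⁻¹' {y}))
    {b : F.X} (hb : j b ∈ off E.G) : j b ∈ E.O i :=
  ⟨show E.g (j b) ∈ B.l.U i \ E.Q₀ from (hj.fib b).symm ▸ ⟨hy, fun k => hQ (hE.sub k)⟩, hb⟩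

/-- locally integrable functions are integrable -/
theorem fin (hE : E.Geo) (hy : y ∈ B.l.U i) (hQ : y ∉ E.Q) (hj : Emb e (w + e) j (E.g ⁻¹' {y}))
    (h : IsFm E.g y (fmm m (E.O i) (B.ch i) E.g (E.t i)) μ) {f : E.X.X → ℝ≥0∞}
    (hf : Measurable f) (hl : ∀ a, ∃ c, At c (j a) ∧
      Li e (fun b => f (j b) * ‖E.t i c (j b)‖ₑ ^ (2 / m : ℝ)) a) : ∫⁻ x, f x ∂μ < ⊤ := by
  refine h.fin hj hf fun a => ?_
  obtain ⟨c, hc, hl⟩ := hl a
  obtain ⟨q, hq, ha⟩ := exists_pc hE.hol (hE.sbm hQ hj a)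
  obtain ⟨u, h1, -, h3⟩ := hE.rl hq ha hc ((hj.fib a).symm ▸ hy)
  obtain ⟨C, -, h5⟩ := bdd_near h1.norm
  have hm : (0 : ℝ) ≤ 2 / m := by positivity
  refine ⟨q, hq, ha, hl.mono (C := ENNReal.ofReal C ^ (2 / m : ℝ))
    (ENNReal.rpow_ne_top_of_nonneg hm ENNReal.ofReal_ne_top) ?_⟩
  filter_upwards [hj.hol.cont.continuousAt.eventually (h3.and h5)] with b hb
  rw [mul_left_comm]
  refine mul_le_mul_right (indicator_apply_le' (fun k => ?_) fun _ => zero_le) _
  rw [hb.1 k, enorm_mul, ENNReal.mul_rpow_of_nonneg _ _ hm, ← ofReal_norm (u _)]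
  exact mul_le_mul_left (ENNReal.rpow_le_rpow (ENNReal.ofReal_le_ofReal hb.2) hm) _

/-- integrable functions are locally integrable -/
theorem li (hE : E.Geo) (hy : y ∈ B.l.U i) (hQ : y ∉ E.Q) (hj : Emb e (w + e) j (E.g ⁻¹' {y}))
    (h : IsFm E.g y (fmm m (E.O i) (B.ch i) E.g (E.t i)) μ) {f : E.X.X → ℝ≥0∞}
    {f' : F.X → ℝ≥0∞} (hf : Measurable f') (hle : ∀ b, f' b ≤ f (j b)) (hl : ∫⁻ x, f x ∂μ < ⊤)
    (hc : At c (j a)) : Li e (fun b => f' b * ‖E.t i c (j b)‖ₑ ^ (2 / m : ℝ)) a := by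
  obtain ⟨q, hq, ha⟩ := exists_pc hE.hol (hE.sbm hQ hj a)
  obtain ⟨u, h1, h2, h3⟩ := hE.rl hq ha hc ((hj.fib a).symm ▸ hy)
  obtain ⟨C, -, h5⟩ := bdd_near (h1.inv₀ h2).norm
  have hm : (0 : ℝ) ≤ 2 / m := by positivity
  refine (h.li hj hq ha hf hle hl).mono_off (hE.fsnc hQ hj) (C := ENNReal.ofReal C ^ (2 / m : ℝ))
    (ENNReal.rpow_ne_top_of_nonneg hm ENNReal.ofReal_ne_top) ?_
  filter_upwards [hj.hol.cont.continuousAt.eventually (h3.and (h5.and (h1.eventually_ne h2)))]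
    with b hb k
  have k' := hE.mem hy hQ hj k
  rw [mul_left_comm, fmm, indicator_of_mem k', hb.1 k', ← ENNReal.mul_rpow_of_nonneg _ _ hm]
  refine mul_le_mul_right (ENNReal.rpow_le_rpow ?_ hm) _
  rw [← inv_mul_cancel_left₀ hb.2.2 (E.t i c _), enorm_mul, inv_mul_cancel_left₀ hb.2.2,
    ← ofReal_norm (_⁻¹)]
  exact mul_le_mul_left (ENNReal.ofReal_le_ofReal hb.2.1) _

/-- square integrable functions are locally square integrable -/
theorem l2 (hE : E.Geo) (hNU : NU) (hy : y ∈ B.l.U i) (hQ : y ∉ E.Q)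
    (hj : Emb e (w + e) j (E.g ⁻¹' {y})) {O : Set E.X.X} (hO : IsOpen O) {φ : E.X.X → ℂ}
    (hφ : ∀ x ∈ O, E.g x = y → FH E.g φ x) (hl : E.L2 i y φ) {ε : ℝ} (hε : 0 < ε)
    (hc : At c (j a)) : Li e (fun b => (j ⁻¹' O).indicator
      (fun b => ‖φ (j b)‖ₑ ^ 2 * E.wt ε (j b)) b * ‖E.t i c (j b)‖ₑ ^ (2 / m : ℝ)) a := by
  classical
  have hO' := (hO.preimage hj.hol.cont).measurableSet
  refine hE.li hy hQ hj (hNU _ _ _ _ _ hE i y hy hQ).1 ?_ (fun b => indicator_le_self _ _ b)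
    (hl ε hε) hc
  rw [← piecewise_eq_indicator]
  refine ContinuousOn.measurable_piecewise (fun b hb => ContinuousAt.continuousWithinAt ?_)
    continuousOn_const hO'
  exact ENNReal.Tendsto.mul ((ENNReal.continuous_pow 2).continuousAt.comp
    ((fh_iff hj hE.hol (hE.sbm hQ hj b)).1 (hφ _ hb (hj.fib b))).cont.enorm)
    (.inr ENNReal.ofReal_ne_top) (ENNReal.continuous_ofReal.continuousAt.comp
      ((hE.cont.comp hj.hol.cont).continuousAt.rpow_const (.inr hε.le)))
    (.inr (ENNReal.pow_ne_top enorm_ne_top))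

end Et.Geo

end Vale.Agent.P281Z.Pk
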