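import Vale.Agent.P281Z.Pk.Defs

/-!
# P281Z, the canonical bundle formula: unit monomials, the pull back of a bound
-/

open scoped Manifold ContDiff Topology
open Set Filter
open Vale.Agent.P272.K Vale.Agent.P285.H281.FD
open Vale.Agent.P277Z (Hol Nz)
open Vale.Agent.P277Z.Slc (LEq Snc)

noncomputable section

namespace Vale.Agent.P281Z

/-- a function without zeros off `G` is a unit times a monomial -/
theorem OrdAt.mon {n : ℕ} {X : Type} [TopologicalSpace X] [ChartedSpace (Cm n) X]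
    [IsManifold 𝓘(ℂ, Cm n) ω X] {κ : Type} [Fintype κ] {G : κ → Set X} {k : κ → ℤ} {u : X → ℂ}
    {x : X} {ζ : κ → X → ℂ} (hG : Snc n G) (h : OrdAt n G k u x)
    (h0 : ∀ᶠ y in 𝓝 x, y ∈ off G → u y ≠ 0) (hζ : ∀ l, LEq n (G l) x (ζ l)) :
    ∃ b, Hol n b x ∧ b x ≠ 0 ∧ ∀ᶠ y in 𝓝 x, y ∈ off G → u y = b y * ∏ l, ζ l y ^ k l := by
  obtain ⟨b, h1, -, h3, h4⟩ := h ζ hζ
  refine ⟨b, h1, fun e => ?_, h3⟩
  have hH := Hyp.of_snc hG
  have h5 : ∀ᶠ y in 𝓝 x, y ∈ off G → b y ≠ 0 := by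
    filter_upwards [h0, h3] with y m1 m2 m3 m4 using m1 m3 (by rw [m2 m3, m4, zero_mul])
  have h6 : ∀ l, ∀ᶠ y in 𝓝 x, y ∈ G l → ∃ᶠ z in 𝓝 y, z ∈ G l ∧ b z ≠ 0 := fun l => by
    by_cases hl : x ∈ G l
    · exact Md.ndv (hζ l) hl h1 (not_dvd_of (hζ l) (h4 l hl))
    · exact ((hζ l).not_mem_near hl).mono fun _ k k' => (k k').elim
  obtain ⟨C, hC⟩ := (bdP_codim1 hG (c := fun _ => 0) (k := fun _ => 0) (u := fun y => (b y)⁻¹)
    (fun _ _ => by simp) ((h1.near.and h5).mono fun y m m' => m.1.inv (m.2 m')) (by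
      filter_upwards [eventually_all.2 h6, h1.near.eventually_nhds] with y m1 m2 l m3 _
        using ((m1 l m3).and_eventually m2).mono fun z r => ⟨r.1.1, bdP_of_cont continuousAt_id
          (fun _ _ => le_rfl) (r.2.inv r.1.2).cont⟩)).bdd hH continuousAt_id fun _ _ => by simp
  have h7 : Tendsto (fun y => C * ‖b y‖) (𝓝 x) (𝓝 0) := by
    simpa [e] using (h1.cont.norm.const_mul C).tendsto
  obtain ⟨y, m1, m2, m3, m4⟩ := ((hH.freq x).and_eventually (hC.and (h5.and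
    (h7.eventually (gt_mem_nhds one_pos))))).exists
  have m5 := mul_le_mul_of_nonneg_right (m2 m1) (norm_nonneg (b y))
  rw [← norm_mul, inv_mul_cancel₀ (m3 m1), norm_one] at m5
  exact m4.not_ge m5

namespace Pk

variable {n w : ℕ} {M : Fb n w} {κ : Type} [Fintype κ] {D : κ → Set M.Y.X} {A : M.κ → κ → ℕ}
  {x : M.X.X}

/-- the pull back of an equation of `D j` -/
theorem Sn.umon (h : Sn M D A) {ξ : κ → M.Y.X → ℂ} (hξ : ∀ j, LEq w (D j) (M.f x) (ξ j))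
    {ζ : M.κ → M.X.X → ℂ} (hζ : ∀ l, LEq n (M.G l) x (ζ l)) (j : κ) :
    ∃ b, Hol n b x ∧ b x ≠ 0 ∧
      ∀ᶠ y in 𝓝 x, y ∈ off M.G → ξ j (M.f y) = b y * ∏ l, ζ l y ^ A l j := by
  simpa only [zpow_natCast] using (h.ord j x _ (hξ j)).mon h.ok.snc
    ((h.ok.fibn.hol.cont.continuousAt.eventually (off_iff hξ)).mono fun y k m =>
      k.1 (h.pre y m) j) hζ

/-- the pull back of the weights -/
theorem Sn.wt (h : Sn M D A) {ξ : κ → M.Y.X → ℂ} (hξ : ∀ j, LEq w (D j) (M.f x) (ξ j))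
    {ζ : M.κ → M.X.X → ℂ} (hζ : ∀ l, LEq n (M.G l) x (ζ l)) (c : κ → ℝ) :
    ∃ φ : M.X.X → ℝ, ContinuousAt φ x ∧ 0 < φ x ∧ ∀ᶠ y in 𝓝 x, y ∈ off M.G →
      ∏ j, ‖ξ j (M.f y)‖ ^ c j = φ y * ∏ l, ‖ζ l y‖ ^ ∑ j, A l j * c j := by
  choose b h1 h2 h3 using h.umon hξ hζ
  refine ⟨fun y => ∏ j, ‖b j y‖ ^ c j, tendsto_finsetProd _ fun j _ =>
    (h1 j).cont.norm.rpow_const (.inl (norm_ne_zero_iff.2 (h2 j))), wt_pos h2 c, ?_⟩
  filter_upwards [eventually_all.2 h3, off_iff hζ] with y k1 k2 k3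
  have k4 : ∀ l, 0 < ‖ζ l y‖ := fun l => norm_pos_iff.2 (k2.1 k3 l)
  simp only [Real.rpow_sum_of_pos (k4 _)]
  rw [Finset.prod_comm, ← Finset.prod_mul_distrib]
  refine Finset.prod_congr rfl fun j _ => ?_
  rw [k1 j k3, norm_mul, Real.mul_rpow (norm_nonneg _) (norm_nonneg _), norm_prod,
    ← Real.finsetProd_rpow _ _ fun _ _ => norm_nonneg _]
  refine congrArg _ (Finset.prod_congr rfl fun l _ => ?_)
  rw [norm_pow, Real.rpow_mul (k4 l).le, Real.rpow_natCast]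

/-- the pull back of a bound -/
theorem Sn.bdP (h : Sn M D A) {c : κ → ℝ} {u : M.Y.X → ℂ} (hu : BdP w id D c u (M.f x)) :
    BdP n id M.G (fun l => ∑ j, A l j * c j) (fun y => u (M.f y)) x := fun ζ hζ => by
  obtain ⟨ξ, hξ, -⟩ := h.snc (M.f x)
  obtain ⟨C, hC⟩ := hu ξ hξ
  obtain ⟨φ, h1, h2, h3⟩ := h.wt hξ hζ c
  refine ⟨|C| / (φ x / 2), ?_⟩
  filter_upwards [h.ok.fibn.hol.cont.continuousAt.eventually hC, h3,
    h1.eventually (lt_mem_nhds (half_lt_self h2))] with y k1 k2 k3 k4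
  have k5 := k1 (h.pre y k4)
  rw [id, k2 k4, mul_left_comm] at k5
  rw [le_div_iff₀' (half_pos h2)]
  exact (mul_le_mul_of_nonneg_right k3.le (mul_nonneg (norm_nonneg _) (wt_nonneg _ _ _))).trans
    (k5.trans (le_abs_self C))

end Pk

end Vale.Agent.P281Z
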