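import Vale.Agent.P281Z.Pk.Sk
import Vale.Agent.P281Z.Lf.Out

/-!
# P281Z, the canonical bundle formula: the assembly
-/

open scoped Manifold ContDiff Topology ENNReal
open Set Filter MeasureTheory
open Vale.Agent.P272.K Vale.Agent.P285.H281.FD
open Vale.Agent.P277Z (Hol Mer Nz nz_of_gen)
open Vale.Agent.P277Z.Slc (lin Ind LEq Snc)
open Vale.Agent.P281Z.Lf.Outp (gen_pull mer_pull)

noncomputable section

namespace Vale.Agent.P281Z.Pk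

theorem LI.mono {n : ℕ} {V : Mf n} {χ : Chart n V.X} {S : Set V.X} {F G : V.X → ℝ≥0∞} {y : V.X}
    (h : LI χ S G y) (hy : At χ y) (hS : IsOpen S) {C : ℝ≥0∞} (hC : C ≠ ⊤)
    (k : ∀ᶠ z in 𝓝 y, z ∈ S → F z ≤ C * G z) : LI χ S F y := by
  obtain ⟨O, h1, h2⟩ := h
  obtain ⟨O', k1, k2, k3⟩ := mem_nhds_iff.1 (inter_mem h1 (inter_mem (at_ev hy k)
    (χ.open_target.mem_nhds (χ.map_source hy.2))))
  have hm : MeasurableSet (O' ∩ χ.symm ⁻¹' S) := by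
    rw [show O' ∩ χ.symm ⁻¹' S = O' ∩ (χ.symm.source ∩ χ.symm ⁻¹' S) from
      ext fun z => ⟨fun a => ⟨a.1, (k1 a.1).2.2, a.2⟩, fun a => ⟨a.1, a.2.2⟩⟩]
    exact (k2.inter (χ.symm.isOpen_inter_preimage hS)).measurableSet
  refine ⟨O', k2.mem_nhds k3, (setLIntegral_mono' hm fun z hz => (k1 hz.1).2.1 hz.2).trans_lt ?_⟩
  rw [lintegral_const_mul' _ _ hC]
  exact ENNReal.mul_lt_top hC.lt_top
    ((lintegral_mono_set (inter_subset_inter_left _ fun z hz => (k1 hz).1)).trans_lt h2)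

section lim

variable {J C : ℝ → ℝ≥0∞} {m s : ℕ} {c h : ℝ} (e : ∀ ε, 0 ≤ ε → C ε = m * J ε ^ s)

include e

theorem root (hm : 0 < m) (hs : 0 < s)
    (k : Tendsto (fun ε : ℝ => ε ^ c * (C ε).toReal) (𝓝[>] 0) (𝓝 h)) :
    Tendsto (fun ε : ℝ => ε ^ (c / s) * (J ε).toReal) (𝓝[>] 0)
      (𝓝 (h ^ (s⁻¹ : ℝ) / m ^ (s⁻¹ : ℝ))) := by
  refine ((((Real.continuous_rpow_const (by positivity)).tendsto h).comp k).div_const _).congr' ?_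
  filter_upwards [self_mem_nhdsWithin] with ε (hε : 0 < ε)
  simp only [Function.comp, e ε hε.le, ENNReal.toReal_mul, ENNReal.toReal_pow,
    ENNReal.toReal_natCast]
  rw [Real.mul_rpow (by positivity) (by positivity), Real.mul_rpow (by positivity) (by positivity),
    ← Real.rpow_mul hε.le, Real.pow_rpow_inv_natCast ENNReal.toReal_nonneg hs.ne', div_eq_mul_inv c]
  have : (0 : ℝ) < m ^ (s⁻¹ : ℝ) := by positivity
  field_simp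

theorem powr (k : Tendsto (fun ε : ℝ => ε ^ c * (J ε).toReal) (𝓝[>] 0) (𝓝 h)) :
    Tendsto (fun ε : ℝ => ε ^ (c * s) * (C ε).toReal) (𝓝[>] 0) (𝓝 (m * h ^ s)) := by
  refine ((k.pow s).const_mul _).congr' ?_
  filter_upwards [self_mem_nhdsWithin] with ε (hε : 0 < ε)
  rw [e ε hε.le, ENNReal.toReal_mul, ENNReal.toReal_pow, ENNReal.toReal_natCast,
    Real.rpow_mul hε.le, Real.rpow_natCast]
  ring

end lim

/-- the statements which are used -/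
structure All (kl : Prop) : Prop where
  rho : RHO
  eta : ETA
  fin : FIN
  eig : EIG
  plg : PLG
  plj : PLJ
  plu : PLU
  pls : PLS
  onem : ONEM
  cov : COV
  lv : ForC fun _ _ _ C => (kl → C.Kl) → Lv C
  reg : ForC fun _ _ _ C => (kl → C.Kl) → Reg C
  hlw : HLW
  ords : ORDS
  ordq : ORDQ
  up : UP
  upp : UPP
  low : LOW
  push : PUSH
  tau : TAU
  big : BIG
  neatf : Nt.NEATF
  bc : BC
  gen : GEN
  model : MODEL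

variable {kl : Prop} {w e p m a : ℕ}

theorem fb_ok {n : ℕ} {T : Tw n w p} (h : T.One e a m) : T.fb.Ok :=
  have := h.ok.conn
  have k := h.fibn.comp h.ok.fibn
  ⟨h.ok.conn, k, h.ok.snc, h.ok.bdry⟩

theorem le_trans' {n : ℕ} {M₂ M₁ M : Fb n p} (h : M₂.Le M₁) (h' : M₁.Le M) : M₂.Le M :=
  ⟨fun j k => h'.kap j (h.kap j k), fun j k => h.tau j (h'.tau j k),
    fun d a => (h'.fib d a).trans (h.fib d a)⟩

/-- a tower with its forms -/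
structure St (kl : Prop) (a : ℕ) (T : Tw (w + e) w p) (d : Ed T.toFb m) : Prop where
  one : T.One e a m
  ok : d.E.Ok
  sec : d.Sec
  kl : kl → d.E.Kl

/-- the fibre integrals of the pull back -/
def Ed.Jp {M M₁ : Fb (w + e) w} (d : Ed M m) (u : M₁.X.X → M.X.X) (v : M₁.Y.X → M.Y.X)
    (Q₁ : Set M₁.Y.X) : Prop :=
  ∀ i, ∀ y ∈ (d.pull M₁ u v Q₁).l.U i, y ∉ Q₁ → v y ∉ d.Q ∧
    ∀ ε, (d.pull M₁ u v Q₁).E.J i ε y = d.E.J i.1 ε (v y)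

/-- the data on `Z` -/
structure Zk {r : ℕ} (Z : Mf r) (M A : Bd Z.X) : Prop where
  lbM : IsLB r M
  lbA : IsLB r A
  posA : Pos r A
  nef : ∀ q, 0 < q → ∃ k, 0 < k ∧ Bpf r ((M.pow (q * k)).mul (A.pow k))
  theta : ∃ (N₀ c₀ : ℕ) (θ : (lin ![Bd.can r Z.X, M, A] ![N₀, c₀, -1]).ι → Z.X → ℂ),
    0 < N₀ ∧ IsSec r _ θ ∧ ∃ z, NZ _ θ z

/-- the comparison of the forms with the moduli part -/
structure Mo {M : Fb (w + e) w} (d : Ed M m) {r : ℕ} {Z : Mf r} (γ : M.Y.X → Z.X) (L : Bd Z.X)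
    (b : ℕ) (q : d.l.ι → L.ι → M.Y.X → ℂ) (k : ℝ) (h : d.l.ι → M.Y.X → ℝ) : Prop where
  hol : HolM w r γ
  surj : Function.Surjective γ
  pos : 0 < b
  nm : d.E.Nm d.Q k h
  qhol : ∀ i j, ∀ y ∈ d.l.U i, γ y ∈ L.U j → y ∉ d.Q → Hol w (q i j) y ∧ q i j y ≠ 0
  qmer : ∀ i j, ∀ y ∈ d.l.U i, γ y ∈ L.U j → Mer w (q i j) y
  qchg : ∀ i i' j j', ∀ y ∈ d.l.U i, y ∈ d.l.U i' → γ y ∈ L.U j → γ y ∈ L.U j' → y ∉ d.Q →
    q i j y * L.g j j' (γ y) = d.l.g i i' y ^ b * q i' j' y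
  nrm : ∀ i j, ∀ y ∈ d.l.U i, γ y ∈ L.U j → ∃ (c : ℝ) (g : M.Y.X → ℂ), 0 < c ∧ Hol w g y ∧
    Nz g y ∧ (∀ᶠ x in 𝓝 y, x ∉ d.Q → c ≤ ‖q i j x‖ ^ 2 * h i x ^ (m * b)) ∧
    ∀ ε : ℝ, 0 < ε → ∃ C : ℝ, ∀ᶠ x in 𝓝 y, x ∉ d.Q → ‖q i j x‖ ^ 2 * h i x ^ (m * b) * ‖g x‖ ^ ε ≤ C

theorem Ed.Jp.nm {M M₁ : Fb (w + e) w} {d : Ed M m} {u : M₁.X.X → M.X.X} {v : M₁.Y.X → M.Y.X}
    {Q₁ : Set M₁.Y.X} (hJ : d.Jp u v Q₁) {S k h} (hS : ∀ y ∉ Q₁, v y ∉ S) (nm : d.E.Nm S k h) :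
    (d.pull M₁ u v Q₁).E.Nm Q₁ k fun i y => h i.1 (v y) := fun i y hy hQ => by
  simp only [(hJ i y hy hQ).2]
  exact nm i.1 _ hy.1 (hS y hQ)

theorem Mo.pull {M M₁ : Fb (w + e) w} {d : Ed M m} {r : ℕ} {Z : Mf r} {γ : M.Y.X → Z.X}
    {L : Bd Z.X} {b q k h} (hm : Mo d γ L b q k h) {u : M₁.X.X → M.X.X} {v : M₁.Y.X → M.Y.X}
    {Q₁ : Set M₁.Y.X} {B} (hv : Modif w v B) (hQ : ∀ y ∉ Q₁, v y ∉ d.Q) (hJ : d.Jp u v Q₁) :
    Mo (d.pull M₁ u v Q₁) (fun y => γ (v y)) L b (fun i j y => q i.1 j (v y)) k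
      fun i y => h i.1 (v y) where
  hol := hm.hol.comp hv.hol
  surj := hm.surj.comp hv.surj
  pos := hm.pos
  nm := hJ.nm hQ hm.nm
  qhol i j y hy hj k := (hm.qhol i.1 j _ hy.1 hj (hQ y k)).imp_left hv.hol.hol
  qmer i j _ hy hj := mer_pull hv (hm.qmer i.1 j _ hy.1 hj)
  qchg i i' j j' y hy hy' hj hj' k := hm.qchg i.1 i'.1 j j' _ hy.1 hy'.1 hj hj' (hQ y k)
  nrm i j y hy hj := by
    obtain ⟨c, g, h1, h2, h3, h4, h5⟩ := hm.nrm i.1 j _ hy.1 hj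
    have hc := hv.hol.cont.continuousAt (x := y)
    exact ⟨c, _, h1, hv.hol.hol h2, nz_of_gen (gen_pull hv (Nz.gen h3 h2)),
      (hc.eventually h4).mono fun x k k' => k (hQ x k'), fun ε hε =>
        (h5 ε hε).imp fun _ k => (hc.eventually k).mono fun x k k' => k (hQ x k')⟩

namespace St

variable {T : Tw (w + e) w p} {d : Ed T.toFb m} (h : St kl a T d) (H : All kl)

include h H

theorem pull {M₁ : Fb (w + e) w} {u v Q₁} (h1 : M₁.Ok) (h2 : M₁.Sq T.toFb u v) (h3 : M₁.X.Kah)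
    (h4 : M₁.Y.Kah) (h5 : ∀ l, M₁.δ l = 1 ∨ M₁.δ l = 0 ∨ ∃ l', M₁.δ l = T.δ l') (h6 : Thin w Q₁)
    (h7 : ∀ y ∉ Q₁, v y ∉ d.Q ∧ Imm w w v y ∧ RegAt (w + e) w M₁.f M₁.G y) :
    St kl a (tw T M₁ v) (d.pull M₁ u v Q₁) ∧ (tw T M₁ v).fb.Le T.fb ∧ d.Jp u v Q₁ := by
  have k {P} (k : ForP P) := k w e m _ M₁ d u v Q₁ h.one.ok h1 h2 h3 h4 h.ok.toGeo h6 h7
  have h8 := H.onem _ w p e a m T M₁ u v h.one h1 h2 h3 h4 h5
  have hJ : d.Jp u v Q₁ := fun i y hy hQ => ⟨(h7 y hQ).1, fun ε => by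
    obtain ⟨_, hu⟩ := h2.mu
    refine .trans ?_ (congrArg (∫⁻ x, d.E.wt ε x ∂·) (k H.plj i y hy hQ))
    exact (lintegral_map (h.ok.cont.measurable.pow_const ε).ennreal_ofReal
      hu.hol.cont.measurable).symm⟩
  exact ⟨⟨h8, ⟨k H.plg, fun i y hy hQ ε hε => ((hJ i y hy hQ).2 ε).trans_lt
    (h.ok.fi i.1 _ hy.1 (h7 y hQ).1 ε hε), k H.plu h.ok.un⟩, k H.pls h.sec,
    fun c i y hy hQ => ((hJ i y hy hQ).2 0).trans_lt (h.kl c i.1 _ hy.1 (h7 y hQ).1)⟩,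
    H.model _ p _ _ u (fun y => y) (fb_ok h.one) (fb_ok h8)
      ⟨h2.mu, ⟨_, modif_id⟩, fun x => congrArg T.h (h2.comm x), h2.log⟩, hJ⟩

theorem neat : ∃ (M₁ : Fb (w + e) w) (u : _) (v : _) (r : ℕ) (D : Fin r → Set M₁.Y.X) (A : _)
    (o : _), St kl a (tw T M₁ v) (d.pull M₁ u v (off D)ᶜ) ∧ (tw T M₁ v).fb.Le T.fb ∧
      d.Jp u v (off D)ᶜ ∧ (d.pull M₁ u v (off D)ᶜ).Or D A o ∧ M₁.Sq T.toFb u v ∧
      (∀ y ∉ (off D)ᶜ, v y ∉ d.Q) ∧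
      ∀ l, (∀ x ∈ M₁.G l, ¬ Imm (w + e) (w + e) u x) ∨ ∃ x ∈ M₁.G l, NeAt M₁ l x := by
  obtain ⟨M₁, u, v, r, D, h1, h2, h3, h4, -, -, h5, h6, h7, h8, h9, k1, k2, -⟩ :=
    H.neatf _ w T.toFb d.Q h.one.ok h.ok.thin
  obtain ⟨k3, k4, k5⟩ := h.pull H h1 h2 (h3 h.one.kahX) (h4 h.one.kahW) h6 (snc_thin_off h7)
    fun y hy => let ⟨b1, b2, b3, _⟩ := h9 y (not_not.1 hy); ⟨b1, b2, b3⟩
  obtain ⟨A, o, k6⟩ := H.ords w e m M₁ _ h1 _ D h5 h7 h8 (fun y hy => (h9 y hy).2.2.1) k1 rfl k3.ok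
  exact ⟨M₁, u, v, r, D, A, o, k3, k4, k5, k6, h2, fun y hy => (h9 y (not_not.1 hy)).1,
    fun l => (k2 l).imp_left And.left⟩

theorem cov (N : ℕ) (hN : 0 < N) : ∃ C : Et (d.B.pow N) (m * N * e) 1, Lg C ∧ Lv C ∧ Reg C ∧
    C.Q₀ = d.Q ∧ d.Q ⊆ C.Q ∧ ∀ i, ∀ y ∈ d.l.U i, y ∉ C.Q → ∀ ε : ℝ, 0 ≤ ε →
      C.J i ε y = m * d.E.J i ε y ^ (m * N) := by
  obtain ⟨C, h1, h2, h3⟩ := H.cov w e m _ d.E h.ok N hN
  have h4 : d.Q ⊆ C.Q := h2.symm.subset.trans h1.sub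
  have h5 : kl → C.Kl := fun c i y hy hQ => (h3 i y hy hQ 0 le_rfl).trans_lt
    (ENNReal.mul_lt_top (ENNReal.natCast_lt_top m)
      (ENNReal.pow_lt_top (h.kl c i y hy fun k => hQ (h4 k))))
  exact ⟨C, h1, H.lv _ _ _ C h1 h5, H.reg _ _ _ C h1 h5, h2, h4, h3⟩

theorem rg {k f} (nm : d.E.Nm d.Q k f) (N : ℕ) (hN : 0 < N) :
    ∃ Q', Thin w Q' ∧ d.Q ⊆ Q' ∧ d.E.RG (m * N) Q' f := by
  obtain ⟨C, h1, -, h2, h3, h4, h5⟩ := h.cov H N hN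
  have h6 := h2 (k * (m * N : ℕ)) (fun i y => m * f i y ^ (m * N)) fun i y hy hQ =>
    have k := nm i y hy fun k => hQ (h4 k)
    ⟨mul_pos (Nat.cast_pos.2 h.one.pos) (pow_pos k.1 _), powr (h5 i y hy hQ) k.2⟩
  refine ⟨C.Q, h1.thin, h4, fun i y hy S ζ j k1 k2 k3 k4 ε hε => ?_⟩
  have k5 := h.ok.base.ch i y hy
  have k6 := h1.thin.closed.isOpen_compl
  refine (h6 i y hy S ζ j k1 k2 (h3.symm ▸ k3) (k4.mono k5 k6 (C := .ofReal m) ENNReal.ofReal_ne_top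
    (.of_forall fun z _ => ?_)) ε hε).mono k5 k6 ENNReal.one_ne_top ?_
  · rw [← ENNReal.ofReal_mul (Nat.cast_nonneg m), pow_one, mul_assoc]
  · filter_upwards [lb_near h.ok.base.lb hy] with z hz hQ
    rw [one_mul, pow_one, h5 i z hz hQ ε hε.le]
    exact mul_le_mul_left (le_mul_of_one_le_left' (by exact_mod_cast h.one.pos)) _

theorem mo {κ : Type} [Fintype κ] {D : κ → Set T.Y.X} {A o} (ho : d.Or D A o) :
    ∃ (T₁ : Tw (w + e) w p) (d₁ : Ed T₁.toFb m) (r : ℕ) (Z : Mf r) (γ : T₁.Y.X → Z.X)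
      (L L' : Bd Z.X) (b : ℕ) (q : _) (k : _) (f : _), St kl a T₁ d₁ ∧ T₁.fb.Le T.fb ∧ Zk Z L L' ∧
      Mo d₁ γ L b q k f := by
  obtain ⟨C, h1, ⟨n, k, V, ψ, c, h2, h3⟩, -, -, h4, h5⟩ := h.cov H 1 one_pos
  have hm := h.one.pos
  have hm' : (0 : ℝ) < m ^ (m⁻¹ : ℝ) := by positivity
  have nm : d.E.Nm C.Q (c / m) fun i y => hN V ψ i y ^ (m⁻¹ : ℝ) / m ^ (m⁻¹ : ℝ) :=
    fun i y hy hQ => ⟨div_pos (Real.rpow_pos_of_pos (h3 i y hy hQ).1 _) hm', root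
      (fun ε hε => (h5 i y hy hQ ε hε).trans (by rw [mul_one])) hm hm (h3 i y hy hQ).2⟩
  obtain ⟨R⟩ := H.hlw w n k _ C.Q V ψ h1.base h1.thin h2 fun i y hy => by
    obtain ⟨ζ, hζ, -⟩ := ho.sn.snc y
    refine ⟨fun z => ∏ j, ζ j z ^ ∑ l, (o l).natAbs, m⁻¹, P277Z.Hol.prod _ fun j _ =>
      (hζ j).hol.pow _, fun k => (((Hyp.of_snc ho.sn.snc).freq y).and_eventually
        ((off_iff hζ).and k)).exists.elim fun z hz =>
          Finset.prod_ne_zero_iff.2 (fun j _ => pow_ne_zero _ (hz.2.1.1 hz.1 j)) hz.2.2,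
      by positivity, (H.up w e m _ d h.one.ok κ D A o ho C.Q _ _ h1.thin h4 nm i y hy ζ hζ
        (fun _ => (∑ l, (o l).natAbs : ℕ)) fun l _ _ _ ⟨j, hj⟩ => ?_).mono (h.ok.base.ch i y hy)
        h1.thin.closed.isOpen_compl (C := .ofReal (m ^ (m⁻¹ : ℝ))) ENNReal.ofReal_ne_top
        (.of_forall fun z _ => ?_)⟩
    · have b1 : |(o l : ℝ)| ≤ (∑ l, (o l).natAbs : ℕ) := by
        rw [← Int.cast_abs, ← Int.natCast_natAbs, Int.cast_natCast, Nat.cast_le]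
        exact Finset.single_le_sum (f := fun l => (o l).natAbs) (fun _ _ => Nat.zero_le _)
          (Finset.mem_univ l)
      have b2 := Finset.single_le_sum (f := fun j => (A l j : ℝ) * (∑ l, (o l).natAbs : ℕ))
        (fun _ _ => by positivity) (Finset.mem_univ j)
      have b3 : |(o l : ℝ) / m| ≤ |(o l : ℝ)| := by
        rw [abs_div, Nat.abs_cast]
        exact div_le_self (abs_nonneg _) (by exact_mod_cast hm)
      have b4 : (1 : ℝ) ≤ A l j := by exact_mod_cast hj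
      nlinarith [neg_abs_le ((o l : ℝ) / m), abs_nonneg (o l : ℝ)]
    · rw [← ENNReal.ofReal_mul hm'.le, ← mul_assoc, mul_div_cancel₀ _ hm'.ne', norm_prod,
        ← Finset.prod_pow]
      refine le_of_eq (congrArg _ (congrArg _ (Finset.prod_congr rfl fun j _ => ?_)))
      rw [norm_pow, ← pow_mul, ← Real.rpow_natCast, Nat.cast_mul, mul_comm, Nat.cast_ofNat]
  obtain ⟨X₁, f₁, κ₁, _, G₁, δ₁, u, k1, k2, -, k3, k4⟩ :=
    H.bc _ w T.toFb R.W' R.μ R.B h.one.ok R.modif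
  obtain ⟨Q₂, k5, k6⟩ := H.gen _ w X₁ R.W' f₁ κ₁ G₁ k1.fibn.hol k1.snc
  have k7 : ∀ y ∉ R.Q ∪ (R.μ ⁻¹' R.B ∪ Q₂), y ∉ R.Q := fun y hy k => hy (.inl k)
  obtain ⟨b1, b2, b3⟩ := h.pull H k1 k2 (k4 h.one.kahX R.kah) R.kah k3
    (R.thin.union (R.modif.thin_pre.union k5)) fun y hy => ⟨fun k => R.sub y (k7 y hy) (h4 k),
      R.modif.imm fun k => hy (.inr (.inl k)), k6 y fun k => hy (.inr (.inr k))⟩
  refine ⟨tw T ⟨X₁, R.W', f₁, κ₁, G₁, δ₁⟩ R.μ, d.pull _ u R.μ (R.Q ∪ (R.μ ⁻¹' R.B ∪ Q₂)), _, R.Z,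
    R.γ, R.M, R.A, R.a, fun i => R.q i.1, _, _, b1, b2,
    ⟨R.lbM, R.lbA, R.posA, R.nef, R.theta⟩, R.hol, R.surj, R.pos,
    b3.nm (fun y hy => R.sub y (k7 y hy)) nm, fun i j y hy hj k => R.qhol _ j y hy.1 hj (k7 y k),
    fun i j y hy => R.qmer _ j y hy.1, fun i i' j j' y hy hy' hj hj' k =>
      (R.qchg _ _ j j' y hy.1 hy'.1 hj hj' (k7 y k)).trans
        (congrArg (· ^ R.a * _) (pow_one _)), fun i j y hy hj => ?_⟩
  obtain ⟨c', g, c1, c2, c3, c4, c5⟩ := R.nrm i.1 j y hy.1 hj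
  have c6 : (0 : ℝ) < m ^ R.a := by positivity
  have c7 : ∀ᶠ x in 𝓝 y, x ∉ R.Q → (hN V ψ i.1 (R.μ x) ^ (m⁻¹ : ℝ) / m ^ (m⁻¹ : ℝ)) ^ (m * R.a) =
      hN V ψ i.1 (R.μ x) ^ R.a / m ^ R.a := by
    filter_upwards [R.modif.hol.cont.continuousAt.eventually (lb_near h.ok.base.lb hy.1)]
      with x hx hQ
    rw [pow_mul, div_pow, Real.rpow_inv_natCast_pow (h3 _ _ hx (R.sub x hQ)).1.le hm.ne',
      Real.rpow_inv_natCast_pow (Nat.cast_nonneg m) hm.ne', div_pow]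
  refine ⟨c' / m ^ R.a, g, div_pos c1 c6, c2, c3, ?_, fun ε hε => (c5 ε hε).elim fun K hK =>
    ⟨K / m ^ R.a, ?_⟩⟩
  · filter_upwards [c4, c7] with x e1 e2 hx
    rw [e2 (k7 x hx), ← mul_div_assoc]
    exact div_le_div_of_nonneg_right (e1 (k7 x hx)) c6.le
  · filter_upwards [hK, c7] with x e1 e2 hx
    rw [e2 (k7 x hx), ← mul_div_assoc, div_mul_eq_mul_div]
    exact div_le_div_of_nonneg_right (e1 (k7 x hx)) c6.le

end St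

theorem Fd.cf_eq (F : Fd w e p m) (hm : 0 < m) (ha : 0 < F.a) {l j} (hA : 0 < F.A l j) :
    F.cf l j = 1 - (1 - F.T.δ l) / F.A l j + ((F.a * (F.o l + m) : ℤ) -
      (((F.a * m : ℕ) - F.b j) * (F.A l j : ℤ) : ℤ)) / (F.a * m * F.A l j) := by
  unfold Fd.cf
  push_cast
  field_simp
  ring

theorem Fd.be (F : Fd w e p m) (hm : 0 < m) (hF : F.Or) (h1 : F.Low) (h2 : F.Upp) :
    ∃ β, F.Be β ∧ ∀ j, 0 ≤ β j ∧ β j ≤ 1 := by
  choose l h3 h4 using fun j => exists_min_image {l | Dom F.T.toFb F.A l j} (F.cf · j) (toFinite _)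
    ((h2 j).imp fun _ k => k.1)
  have ha := hF.pos
  refine ⟨fun j => F.cf (l j) j, ⟨fun l j k => h4 j l k, fun j => ⟨_, h3 j, rfl⟩⟩, fun j => ⟨?_, ?_⟩⟩
  · have hA := (h3 j).1
    simp only [F.cf_eq hm ha hA]
    refine add_nonneg (sub_nonneg.2 (div_le_one_of_le₀ ?_ (Nat.cast_nonneg _)))
      (div_nonneg (sub_nonneg.2 (Int.cast_le.2 (h1 _ j (h3 j)))) (by positivity))
    linarith [(hF.sn.ok.bdry (l j)).1, show (1 : ℚ) ≤ F.A (l j) j by exact_mod_cast hA]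
  · obtain ⟨l', k1, k2⟩ := h2 j
    refine (h4 j l' k1).trans ?_
    have := div_nonneg (sub_nonneg.2 (hF.sn.ok.bdry l').2) (Nat.cast_nonneg (α := ℚ) (F.A l' j))
    have := div_nonpos_of_nonpos_of_nonneg (sub_nonpos.2 ((Int.cast_le (R := ℚ)).2 k2))
      (show (0 : ℚ) ≤ F.a * m * F.A l' j by positivity)
    simp only [F.cf_eq hm ha k1.1]
    linarith

/-- the conclusion -/
def Cc {n : ℕ} (T : Tw n w p) (a : ℕ) : Prop :=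
  ∃ (r : ℕ) (P : GP w p r), P.Ok a ∧ (∀ j, P.Kap j → T.fb.Kap j) ∧ ∀ k, T.fb.Tau k → P.toFb.Tau k

theorem Cc.le {n : ℕ} {T T₁ : Tw n w p} (h : Cc T₁ a) (k : T₁.fb.Le T.fb) : Cc T a :=
  let ⟨r, P, h1, h2, h3⟩ := h
  ⟨r, P, h1, fun j c => k.kap j (h2 j c), fun j c => h3 j (k.tau j c)⟩

theorem St.fin {T : Tw (w + e) w p} {d : Ed T.toFb m} (h : St kl a T d) (H : All kl) {r : ℕ}
    {Z : Mf r} {γ : T.Y.X → Z.X} {L L' : Bd Z.X} {b q k f} (hz : Zk Z L L')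
    (hm : Mo d γ L b q k f) : Cc T a := by
  obtain ⟨M₁, u, v, s, D, A, o, h1, h2, h3, h4, h5, h6, h7⟩ := h.neat H
  obtain ⟨B, hv⟩ := h5.mv
  have k1 := hm.pull hv h6 h3
  obtain ⟨c, k2⟩ := H.ordq w r b M₁.Y Z _ _ L _ _ D k1.hol h1.ok.base.lb hz.lbM h4.sn.snc
    h4.sn.connD (fun i j y hy hj => ⟨k1.qmer i j y hy hj, fun k => k1.qhol i j y hy hj (not_not.2 k)⟩)
    fun i i' j j' y hy hy' hj hj' k => k1.qchg i i' j j' y hy hy' hj hj' (not_not.2 k)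
  let F : Fd w e p m := ⟨tw T M₁ v, d.pull M₁ u v (off D)ᶜ, s, D, A, o, r, Z, fun y => γ (v y), L,
    b, fun i j y => q i.1 j (v y), c⟩
  have hF : F.Or := ⟨h4, k1.hol, hz.lbM, k1.pos, fun i j y hy hj k => k1.qhol i j y hy hj
    (not_not.2 k), fun i i' j j' y hy hy' hj hj' k => k1.qchg i i' j j' y hy hy' hj hj'
      (not_not.2 k), k2⟩
  have k3 : F.Hb fun i y => f i.1 (v y) := fun i j y hy hj =>
    let ⟨c, g, c1, c2, c3, c4, c5⟩ := k1.nrm i j y hy hj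
    ⟨c, g, c1, c2, c3, c4.mono fun _ k k' => k (not_not.2 k'), fun ε hε =>
      (c5 ε hε).imp fun _ k => k.mono fun _ k k' => k (not_not.2 k')⟩
  have k4 := H.low w e p m F hF k _ k1.nm k3 (h1.rg H k1.nm)
  obtain ⟨β, k5, k6⟩ := F.be h.one.pos hF k4 (H.upp w e p m F hF k _ k1.nm k3)
  exact ⟨r, F.gp β L', ⟨⟨h1.one.ok.connY, h1.one.fibn, h4.sn.snc, k6⟩, h1.one.kahW, h1.one.kahB,
    h.one.dim.2, k1.hol, k1.surj, hz.lbM, hz.lbA, hz.posA, mul_pos k1.pos h.one.pos,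
    H.big w e p m F hF a h1.one h1.sec β k5, hz.nef, hz.theta⟩,
    H.push w e p m F hF h1.sec β k5 T.toFb u v h.one.ok h5 h7 L',
    fun j c => H.tau w e p m F hF a h1.one k4 β k5 j (h2.tau j c)⟩

theorem All.cc (H : All kl) {T : Tw (w + e) w p} (hT : T.One e a m)
    (h0 : kl → ∀ d : Ed T.toFb m, d.E.Geo → d.Sec → d.E.Kl) : Cc T a := by
  obtain ⟨ρ, h1⟩ := H.rho _ w T.toFb hT.ok.snc
  obtain ⟨d, rfl, h2, h3, h4⟩ := H.eta w e p a m T hT ρ h1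
  have h : St kl a T d := ⟨hT, ⟨h2, H.fin w e m _ d hT.ok h2 h3 h1,
    H.eig w e m _ d hT.ok h2 h3 h4 h1 hT.int⟩, h3, fun c => h0 c d h2 h3⟩
  obtain ⟨M₁, u, v, s, D, A, o, k1, k2, -, k3, -⟩ := h.neat H
  obtain ⟨T₁, d₁, r, Z, γ, L, L', b, q, k, f, k4, k5, k6, k7⟩ := k1.mo H k3
  exact ((k4.fin H k6 k7).le k5).le k2

/-- **PK** -/
theorem pk_of (H : All False) : PK := fun _ _ _ _ _ _ _ hT => by
  obtain rfl := hT.dim.1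
  exact H.cc hT False.elim

end Vale.Agent.P281Z.Pk
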