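import Vale.Agent.P281Z.Pk.Defs

/-!
# P281Z, the canonical bundle formula: lines which are orthogonal summands
-/

open scoped Manifold ContDiff Topology Matrix ComplexOrder
open Set Filter
open Vale.Agent.P272.K Vale.Agent.P285.H281.FD
open Vale.Agent.P281Z.Hg (PG Mt Sg)

noncomputable section

namespace Vale.Agent.P281Z.Pk

namespace On

variable {n k : ℕ} {T : Type} {Q : Mt n} {Pr : ℕ → T → Mt n} {t : T} {u v : Fin n → ℂ}

theorem idem (h : PG k Q Pr t) (u : Fin n → ℂ) : Pr k t *ᵥ Pr k t *ᵥ u = Pr k t *ᵥ u := by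
  rw [Matrix.mulVec_mulVec, h.orth, if_pos rfl]

theorem pos (h : PG k Q Pr t) (hu : Pr k t *ᵥ u = u) (h0 : u ≠ 0) : 0 < star u ⬝ᵥ Q *ᵥ u := by
  have h1 : Sg k Pr t * Pr k t = Pr k t := by
    rw [Sg, Finset.sum_mul, Finset.sum_eq_single k (fun j _ hj => by
      rw [smul_mul_assoc, h.orth, if_neg hj, smul_zero]) fun m => by simp at m, smul_mul_assoc,
      h.orth, if_pos rfl, Nat.sub_self, pow_zero, one_smul]
  have h2 := h.pos.dotProduct_mulVec_pos h0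
  rwa [← Matrix.mulVec_mulVec, show Sg k Pr t *ᵥ u = u by
    rw [← hu, Matrix.mulVec_mulVec, h1]] at h2

theorem eq_zero (h : PG k Q Pr t) (hu : Pr k t *ᵥ u = u) (h0 : star u ⬝ᵥ Q *ᵥ u = 0) : u = 0 :=
  by_contra fun e => (pos h hu e).ne' h0

theorem swap (h : Q.IsHermitian) (u v : Fin n → ℂ) :
    star u ⬝ᵥ Q *ᵥ v = star (star v ⬝ᵥ Q *ᵥ u) := by
  rw [Matrix.star_dotProduct, Matrix.star_mulVec, h.eq, ← Matrix.dotProduct_mulVec]

theorem proj (h : PG k Q Pr t) (hu : Pr k t *ᵥ u = u) (v : Fin n → ℂ) :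
    star u ⬝ᵥ Q *ᵥ Pr k t *ᵥ v = star u ⬝ᵥ Q *ᵥ v := by
  rw [Matrix.mulVec_mulVec, ← h.adj, ← Matrix.mulVec_mulVec, Matrix.dotProduct_mulVec,
    ← Matrix.star_mulVec, hu]

/-- the derivative of an orthogonality relation -/
theorem der {E : Type} [NormedAddCommGroup E] [NormedSpace ℂ E] {φ ψ : E → Fin n → ℂ} {z : E}
    (hφ : DifferentiableAt ℂ φ z) (hψ : DifferentiableAt ℂ ψ z)
    (h : ∀ᶠ y in 𝓝 z, star (φ y) ⬝ᵥ Q *ᵥ ψ y = 0) (a : E) :
    star (φ z) ⬝ᵥ Q *ᵥ fderiv ℂ ψ z a = 0 := by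
  have k : ∀ s : ℂ, star s * (star (fderiv ℂ φ z a) ⬝ᵥ Q *ᵥ ψ z) +
      s * (star (φ z) ⬝ᵥ Q *ᵥ fderiv ℂ ψ z a) = 0 := fun s => by
    have l : HasDerivAt (fun r : ℝ => z + r • s • a) (s • a) 0 := by
      simpa using ((hasDerivAt_id (0 : ℝ)).smul_const (s • a)).const_add z
    have d : ∀ {f : E → Fin n → ℂ}, DifferentiableAt ℂ f z → ∀ i,
        HasDerivAt (fun r : ℝ => f (z + r • s • a) i) (s * fderiv ℂ f z a i) 0 := fun {f} hf i => by
      have := (hf.hasFDerivAt.restrictScalars ℝ).comp_hasDerivAt_of_eq (0 : ℝ) l (by simp)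
      simpa [Function.comp_def] using hasDerivAt_pi.1 this i
    have h1 := HasDerivAt.fun_sum (u := Finset.univ) fun i _ => (d hφ i).star.fun_mul
      (HasDerivAt.fun_sum (u := Finset.univ) fun j _ => (d hψ j).const_mul (Q i j))
    have h2 := h1.unique ((hasDerivAt_const (0 : ℝ) (0 : ℂ)).congr_of_eventuallyEq
      ((l.continuousAt.tendsto.eventually (by simpa using h)).mono fun _ e => e))
    simp only [zero_smul, add_zero] at h2
    rw [← h2]
    simp only [dotProduct, Matrix.mulVec, Finset.mul_sum, Finset.sum_add_distrib, Pi.star_apply,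
      star_mul']
    congr 1 <;> refine Finset.sum_congr rfl fun _ _ => Finset.sum_congr rfl fun _ _ => ?_ <;> ring
  have h1 := k 1
  have h2 := k Complex.I
  rw [star_one, one_mul, one_mul] at h1
  rw [Complex.star_def, Complex.conj_I] at h2
  refine mul_left_cancel₀ (mul_ne_zero two_ne_zero Complex.I_ne_zero) ?_
  linear_combination Complex.I * h1 + h2

theorem pt {E : Type} [NormedAddCommGroup E] [NormedSpace ℂ E] {ψ : E → Fin n → ℂ} {z : E}
    (h : PG k Q Pr t) (hψ : DifferentiableAt ℂ ψ z) (h1 : Pr k t *ᵥ ψ z = ψ z) (h0 : ψ z ≠ 0)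
    (h2 : ∀ u, Pr k t *ᵥ u = u → ∃ (φ : E → Fin n → ℂ) (s : ℂ), DifferentiableAt ℂ φ z ∧
      φ z = u + s • ψ z ∧ ∀ᶠ y in 𝓝 z, star (ψ y) ⬝ᵥ Q *ᵥ φ y = 0) (a : E) :
    ∃ s : ℂ, Pr k t *ᵥ fderiv ℂ ψ z a = s • ψ z := by
  have h3 := (pos h h1 h0).ne'
  obtain ⟨s, hs⟩ : ∃ s : ℂ, star (ψ z) ⬝ᵥ Q *ᵥ (Pr k t *ᵥ fderiv ℂ ψ z a - s • ψ z) = 0 :=
    ⟨_ / _, by rw [Matrix.mulVec_sub, Matrix.mulVec_smul, dotProduct_sub, dotProduct_smul,
      smul_eq_mul, div_mul_cancel₀ _ h3, sub_self]⟩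
  have h4 : Pr k t *ᵥ (Pr k t *ᵥ fderiv ℂ ψ z a - s • ψ z) =
      Pr k t *ᵥ fderiv ℂ ψ z a - s • ψ z := by
    rw [Matrix.mulVec_sub, Matrix.mulVec_smul, idem h, h1]
  obtain ⟨φ, s', k1, k2, k3⟩ := h2 _ h4
  have h5 := k3.self_of_nhds
  rw [k2, Matrix.mulVec_add, Matrix.mulVec_smul, dotProduct_add, dotProduct_smul, hs, zero_add,
    smul_eq_mul, mul_eq_zero_iff_right h3] at h5
  rw [h5, zero_smul, add_zero] at k2
  have h6 := der k1 hψ (k3.mono fun y e => by rw [swap h.herm, e, star_zero]) a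
  refine ⟨s, sub_eq_zero.1 (eq_zero h h4 ?_)⟩
  rw [← k2] at h4 hs
  nth_rewrite 1 [← k2]
  rw [Matrix.mulVec_sub, Matrix.mulVec_smul, dotProduct_sub, dotProduct_smul, proj h h4, h6,
    swap h.herm, hs, star_zero, smul_zero, sub_zero]

end On

/-- **ONE**: the condition `Lin.one` from orthogonal extensions off a set with dense complement -/
theorem one_of {w n k : ℕ} {W : Mf w} {U : Set W.X} (D : Hg.Loc w n k U) {V S : Set W.X}
    {ψ : W.X → W.X → Fin n → ℂ} (hV : IsOpen V) (hψ : D.Sec V ψ) (hS : Dense Sᶜ)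
    (h0 : ∀ a, ∀ y ∈ D.N a, y ∈ V → ψ a y ≠ 0)
    (h : ∀ a (c : Chart w W.X), ∀ y ∈ D.N a, y ∈ V → At c y → y ∉ S → ∀ u, D.Pr a k y *ᵥ u = u →
      ∃ (φ : W.X → Fin n → ℂ) (s : ℂ), DifferentiableAt ℂ (fun z => φ (c.symm z)) (c y) ∧
        φ y = u + s • ψ a y ∧ ∀ᶠ y' in 𝓝 y, star (ψ a y') ⬝ᵥ D.Q a *ᵥ φ y' = 0)
    (a : W.X) (c : Chart w W.X) (y : W.X) (hy : y ∈ D.N a) (hv : y ∈ V) (hc : At c y) (v : Cm w) :
    ∃ s : ℂ, D.Pr a k y *ᵥ fderiv ℂ (fun z => ψ a (c.symm z)) (c y) v = s • ψ a y := by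
  have h1 : AnalyticAt ℂ (fun z => ψ a (c.symm z)) (c y) :=
    let ⟨_, k1, k2, k3⟩ := eventually_nhds_iff.1 (hψ.hol a c y hc hy hv)
    P268.analyticAt_of_differentiableOn k2 (fun z hz => (k1 z hz).differentiableWithinAt) k3
  have h2 : ContinuousAt c y := c.continuousAt hc.2
  have h3 : ContinuousAt (fun y => D.Pr a k (c.symm (c y)) *ᵥ
      fderiv ℂ (fun z => ψ a (c.symm z)) (c y) v) y :=
    continuousAt_pi.2 fun i => tendsto_finsetSum Finset.univ fun j _ =>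
      (((D.pv a c y hc hy).smooth k i j).continuousAt.comp h2).mul (continuousAt_pi.1
        ((h1.fderiv.continuousAt.comp h2).clm_apply (continuousAt_const (y := v))) j)
  have h4 : ContinuousAt (fun y => ψ a (c.symm (c y))) y := h1.continuousAt.comp h2
  obtain ⟨β, hβ⟩ := Function.ne_iff.1 (h0 a y hy hv)
  have h5 : ∀ α, (D.Pr a k (c.symm (c y)) *ᵥ fderiv ℂ (fun z => ψ a (c.symm z)) (c y) v) α *
      ψ a (c.symm (c y)) β = (D.Pr a k (c.symm (c y)) *ᵥ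
        fderiv ℂ (fun z => ψ a (c.symm z)) (c y) v) β * ψ a (c.symm (c y)) α := fun α => by
    refine tendsto_nhds_unique_of_frequently_eq
      ((continuousAt_pi.1 h3 α).mul (continuousAt_pi.1 h4 β))
      ((continuousAt_pi.1 h3 β).mul (continuousAt_pi.1 h4 α))
      (((mem_closure_iff_frequently.1 (hS y)).and_eventually ((at_near hc).and
        (((D.opn a).eventually_mem hy).and (hV.eventually_mem hv)))).mono fun x ⟨a1, a2, a3, a4⟩ => ?_)
    obtain ⟨s, hs⟩ := On.pt (D.pv a c x a2 a3).toPG (hψ.hol a c x a2 a3 a4).self_of_nhds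
      (by simpa only [a2.left_inv] using hψ.top a x a3 a4)
      (by simpa only [a2.left_inv] using h0 a x a3 a4) (fun u hu => by
        obtain ⟨φ, s, b1, b2, b3⟩ := h a c x a3 a4 a2 a1 u (by simpa only [a2.left_inv] using hu)
        exact ⟨_, s, b1, by simpa only [a2.left_inv] using b2, at_ev a2 b3⟩) v
    simp only [Pi.mul_apply, hs, Pi.smul_apply, smul_eq_mul]
    ring
  rw [hc.left_inv] at h5
  exact ⟨_ / ψ a y β, funext fun α => by
    rw [Pi.smul_apply, smul_eq_mul, div_mul_eq_mul_div, ← h5, mul_div_cancel_right₀ _ hβ]⟩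

end Vale.Agent.P281Z.Pk
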