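import Vale.Agent.P281Z.Pk.All
import Vale.Agent.P281Z.Lv.All0
import Vale.Agent.P281Z.Rg.All

/-!
# P281Z, the canonical bundle formula
-/

namespace Vale.Agent.P281Z.Pk

theorem pk : PK := pk_rest (Lv.lv_gr gr) (Rg.reg_in (Lv.in_gr gr))

end Vale.Agent.P281Z.Pk
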