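import Vale.Agent.P281Z.Pk.Sk

/-!
# P281Z, the canonical bundle formula: descent of sections to the base
-/

open scoped Manifold ContDiff Topology
open Set Filter
open Vale.Agent.P272.K Vale.Agent.P285.H281.FD
open Vale.Agent.P277Z (Hol Nz at_chart hol_const)
open Vale.Agent.P277Z.Slc (Ind LEq Snc dd isLB_can)
open Vale.Agent.P277.HD (pull)

noncomputable section

namespace Vale.Agent.P281Z.Pk.Big

theorem od_imp {X : Type} [TopologicalSpace X] {S O : Set X} {P : X → Prop}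
    (h : ∀ x ∈ S, x ∈ O → ∃ᶠ y in 𝓝 x, y ∈ S ∧ ∀ᶠ z in 𝓝 y, P z) :
    OD S fun x => x ∈ O → P x := fun x hx => by
  by_cases k : ∃ᶠ y in 𝓝 x, y ∈ S ∧ y ∈ O
  · exact frequently_frequently_nhds.1 (k.mono fun y hy => (h y hy.1 hy.2).mono fun z hz =>
      ⟨hz.1, hz.2.mono fun _ a _ _ => a⟩)
  · exact (frequently_pure.2 ⟨hx, (not_frequently.1 k).mono fun y a b c =>
      (a ⟨b, c⟩).elim⟩).filter_mono (pure_le_nhds x)

section gen

variable {n : ℕ} {X : Type} [TopologicalSpace X] [ChartedSpace (Cm n) X]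
  [IsManifold 𝓘(ℂ, Cm n) ω X] {κ : Type} [Fintype κ] {G : κ → Set X} {k : κ → ℤ} {u b : X → ℂ}
  {x : X} {ζ : κ → X → ℂ}

theorem loc_const (hu : Hol n u x) (h : ∀ᶠ y in 𝓝 x, ¬ Ind n (fun _ : Fin 1 => u) y) :
    ∀ᶠ y in 𝓝 x, u y = u x := by
  have he := at_chart (n := n) x
  generalize chartAt (Cm n) x = e at he
  obtain ⟨r, hr, k⟩ := Metric.eventually_nhds_iff_ball.1
    ((at_ev he (h.and (hu.near.and (at_near he)))).and he.nhds_target)
  refine (P277Z.At.ev he (p := fun y => u y = u x)).1 ?_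
  filter_upwards [Metric.ball_mem_nhds _ hr] with z hz
  refine (Metric.isOpen_ball.is_const_of_fderiv_eq_zero (𝕜 := ℂ) (f := fun z => u (e.symm z))
    (convex_ball _ _).isPreconnected (fun z hz => ?_) (fun z hz => ?_) hz
    (Metric.mem_ball_self hr)).trans (congrArg u he.left_inv)
  · obtain ⟨⟨-, k1, k2⟩, k3⟩ := k z hz
    exact (e.right_inv k3 ▸ k1 e k2 :
      AnalyticAt ℂ (fun z => u (e.symm z)) z).differentiableAt.differentiableWithinAt
  · obtain ⟨⟨k0, k1, k2⟩, k3⟩ := k z hz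
    refine of_not_not fun m => k0 (.of_chart (fun _ => k1) k2 (linearIndependent_unique_iff.2 ?_))
    rwa [dd, e.right_inv k3]

theorem gen_inv (hG : Hyp n G) (h : OrdAt n G k u x) {l : κ} (hl : x ∈ G l) :
    ∃ᶠ y in 𝓝 x, y ∈ G l ∧ ∀ᶠ z in 𝓝 y, (∀ᶠ z' in 𝓝 z, z' ∈ off G → u z' ≠ 0) ∧
      BdP n id G (fun l => k l) (fun y => (u y)⁻¹) z := by
  obtain ⟨ζ, hζ⟩ := hG x
  obtain ⟨b, h1, -, h3, h4⟩ := h ζ hζ
  refine ((h4 l hl).and_eventually ((eventually_all.2 fun l => (hζ l).near).and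
    (h1.near.and h3.eventually_nhds)).eventually_nhds).mono fun y ⟨⟨k1, k2⟩, k3⟩ => ⟨k1, ?_⟩
  filter_upwards [k3, k3.self_of_nhds.2.1.ne_near k2] with z ⟨m1, m2, m3⟩ m4
  refine ⟨?_, ?_⟩
  · filter_upwards [m3, m2.ne_near m4, off_iff m1] with z' r1 r2 r3 r4
    rw [r1 r4]
    exact mul_ne_zero r2 (Finset.prod_ne_zero_iff.2 fun l _ => zpow_ne_zero _ (r3.1 r4 l))
  · simpa using ((bdP_mono continuousAt_id m1 fun l => -k l).cmul (m2.inv m4).cont).congr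
      (u' := fun y => (u y)⁻¹) (m3.mono fun y a c => by
        rw [a c, mul_inv, ← Finset.prod_inv_distrib]; simp)

theorem inv_bd (hG : Snc n G) (h : OrdAt n G k u x)
    (hu : ∀ᶠ y in 𝓝 x, y ∈ off G → Hol n u y ∧ u y ≠ 0) :
    BdP n id G (fun l => k l) (fun y => (u y)⁻¹) x :=
  bdP_codim1 hG (c := fun l => k l) (fun _ _ => lt_add_one _)
    (hu.mono fun _ a c => (a c).1.inv (a c).2) ((h.near (.of_snc hG)).mono fun _ a _ hl _ =>
      (gen_inv (.of_snc hG) a hl).mono fun _ m => ⟨m.1, m.2.self_of_nhds.2⟩)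

theorem unit (hG : Snc n G) (h : OrdAt n G k u x)
    (hu : ∀ᶠ y in 𝓝 x, y ∈ off G → Hol n u y ∧ u y ≠ 0) (hζ : ∀ l, LEq n (G l) x (ζ l)) :
    ∃ b, Hol n b x ∧ b x ≠ 0 ∧ ∀ᶠ y in 𝓝 x, y ∈ off G → u y = b y * ∏ l, ζ l y ^ k l := by
  obtain ⟨b, h1, -, h3, -⟩ := h ζ hζ
  obtain ⟨C, hC⟩ := inv_bd hG h hu ζ hζ
  refine ⟨b, h1, fun h0 => ?_, h3⟩
  have h4 : ∀ᶠ y in 𝓝 x, C * ‖b y‖ < 1 := (continuousAt_const.mul h1.cont.norm).eventually_lt
    continuousAt_const (by simp [h0])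
  obtain ⟨y, k1, k2, k3, k4, k5⟩ := (((Hyp.of_snc hG).freq x).and_eventually
    (hC.and (h3.and (hu.and h4)))).exists
  have k6 := (k4 k1).2
  have k7 := k2 k1
  rw [k3 k1] at k6
  simp only [id] at k7
  rw [wt_int, ← norm_mul, k3 k1, mul_inv, inv_mul_cancel_right₀ (right_ne_zero_of_mul k6), norm_inv,
    inv_le_iff_one_le_mul₀ (norm_pos_iff.2 (left_ne_zero_of_mul k6))] at k7
  exact k5.not_ge k7

variable {p : ℕ} {Y : Type} [TopologicalSpace Y] [ChartedSpace (Cm p) Y] [IsManifold 𝓘(ℂ, Cm p) ω Y]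

/-- two sections of a system of rank zero are proportional -/
theorem prop [PreconnectedSpace X] {G : κ → Set Y} {i : X → Y} {L : Bd X} {c : κ → ℝ}
    (hG : Hyp p G) (hi : HolM n p i) (hL : IsLB n L) (h1 : ¬ Sy n p i L G c 1)
    {s t : L.ι → X → ℂ} (hs : SecP n p i univ L G c s) (ht : SecP n p i univ L G c t) {a a' : L.ι}
    {x' : X} (ha : x ∈ L.U a) (hx : i x ∈ off G) (ha' : x' ∈ L.U a') (hx' : i x' ∈ off G)
    (h0 : t a' x' ≠ 0) : s a x * t a' x' = s a' x' * t a x := by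
  have hR := (hs.smul fun x _ => hol_const (t a' x') x).add
    (ht.smul fun x _ => hol_const (-s a' x') x)
  by_contra hc
  have hd := hR.dense_nz hG hi hL ⟨x, hx, (hR.nz_iff hL trivial hx ha).2 fun k =>
    hc (by linear_combination k)⟩
  have h2 := (hR.near hG hi.cont hL hx' ha').and ((ht.hol a' x' trivial ha' hx').ne_near h0)
  by_cases k : ∃ᶠ y in 𝓝 x', Ind n (fun (_ : Fin 1) z =>
      (t a' x' * s a' z + -s a' x' * t a' z) / t a' z) y
  · obtain ⟨y, k1, ⟨k2, k3, -⟩, k4⟩ := (k.and_eventually h2).exists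
    exact h1 (sy_of (Fin.cons t fun _ a z => t a' x' * s a z + -s a' x' * t a z)
      (Fin.cases ht fun _ => hR) k2 ⟨a', k3, k4, k1⟩)
  · obtain ⟨y, k1, ⟨⟨-, -, k2⟩, k3⟩, k4⟩ := ((mem_closure_iff_frequently.1 (hd x')).and_eventually
      (h2.and (loc_const ((hR.hol a' x' trivial ha' hx').div (ht.hol a' x' trivial ha' hx') h0)
        (not_frequently.1 k)))).exists
    rw [show t a' x' * s a' x' + -s a' x' * t a' x' = 0 by ring, zero_div, div_eq_zero_iff] at k4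
    exact k4.elim (k2.1 k1.2) k3

end gen

section fib

variable {n p d : ℕ} {V : Mf n} {Y : Mf p} {F : Mf d} {f : V.X → Y.X} {i : F.X → V.X} {y : Y.X}
  {κ : Type} [Fintype κ] {G : κ → Set V.X} {c : κ → ℝ}

omit [Fintype κ] in
theorem cls_can (hR : RegAt n p f G y) (hf : HolM n p f) (hS : Snc n G)
    (hi : Emb d n i (f ⁻¹' {y})) : cls d (Bd.can d F.X) = hi.hol.pic (cls n (Bd.can n V.X)) := by
  rw [← cls_pull hi.hol isLB_can]
  exact (cls_eq isLB_can (hi.hol.lb isLB_can)).2 (adj_iso hi hf fun x hx => hR.sbm hf hS hx)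

theorem kap_iff (hR : RegAt n p f G y) (hf : HolM n p f) (hS : Snc n G)
    (hi : Emb d n i (f ⁻¹' {y})) (M j : ℕ) : KapM d n i (Bd.can d F.X) G c M j ↔
      Sy d n i (pull i ((Bd.can n V.X).pow M)) G (fun l => M * c l) j := by
  have k : cls d ((Bd.can d F.X).pow M) = cls d (pull i ((Bd.can n V.X).pow M)) := by
    rw [cls_pow isLB_can, cls_pull hi.hol (lb_pow isLB_can M), cls_pow isLB_can, map_nsmul,
      cls_can hR hf hS hi]
  have h1 := hi.hol.lb (lb_pow (isLB_can (n := n) (W := V.X)) M)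
  exact ⟨fun h => Sy.of_cls (.of_snc hS) hi.hol.cont h1 (lb_pow isLB_can M) h k.symm
    fun _ => le_rfl, fun h => Sy.of_cls (.of_snc hS) hi.hol.cont (lb_pow isLB_can M) h1 h k
    fun _ => le_rfl⟩

end fib

/-- a bound at a general point of `G l` gives a bound on the base -/
theorem down (hO : OPN) {n w : ℕ} {M : Fb n w} {κ : Type} [Fintype κ] {D : κ → Set M.Y.X}
    {A : M.κ → κ → ℕ} (hS : Sn M D A) {l : M.κ} {j : κ} {x : M.X.X} (hx : Gd M D l j x)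
    {u : M.Y.X → ℂ} {r : M.κ → ℝ} {θ : κ → ℝ} (h : BdP n id M.G r (fun z => u (M.f z)) x)
    (hr : r l ≤ A l j * θ j) : BdP w id D θ u (M.f x) := by
  classical
  have hf := hS.ok.fibn.hol
  obtain ⟨ζ, hζ⟩ := Hyp.of_snc hS.ok.snc x
  obtain ⟨ζ', hζ'⟩ := Hyp.of_snc hS.snc (M.f x)
  obtain ⟨b, b1, b2, b3⟩ := unit hS.ok.snc (hS.ord j x _ (hζ' j)) (by
    filter_upwards [hf.cont.continuousAt.eventually (off_iff hζ'), (hf.hol (hζ' j).hol).near]
      with z k1 k2 k3 using ⟨k2, k1.1 (hS.pre z k3) j⟩) hζ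
  obtain ⟨C, hC⟩ := h.mono continuousAt_id (c' := fun l' => A l' j * θ j) (fun l' k => by
    rwa [show l' = l from by_contra fun e => hx.only l' e k]) ζ hζ
  obtain ⟨C', h0, hC'⟩ := bdd_near
    (b1.cont.norm.rpow_const (p := θ j) (.inl (norm_ne_zero_iff.2 b2)))
  refine BdP.mono continuousAt_id (c := fun j' => if j' = j then θ j else 0)
    (bdP_of_one continuousAt_id hζ' (C := C' * C) ?_) fun j' k => by
      rw [show j' = j from by_contra fun e => hx.onlyD j' e k, if_pos rfl]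
  refine (hO n w M κ D A hS l j x hx
    (fun z => ‖u (M.f z)‖ * ‖ζ' j (M.f z)‖ ^ θ j ≤ C' * C) ?_).mono fun y k1 k2 => ?_
  · filter_upwards [hC, hC', b3] with z k1 k2 k3 k4
    rw [k3 k4, norm_mul, Real.mul_rpow (norm_nonneg _) (norm_nonneg _), ← wt_int,
      ← Real.finsetProd_rpow _ _ fun _ _ => Real.rpow_nonneg (norm_nonneg _) _, mul_left_comm]
    simp only [← Real.rpow_mul (norm_nonneg _), Int.cast_natCast]
    exact mul_le_mul k2 (k1 k4) (mul_nonneg (norm_nonneg _) (wt_nonneg _ _ _)) h0.le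
  · obtain ⟨z, -, rfl, k3⟩ := k1 k2
    rwa [wt_single]

section desc

variable {w e m : ℕ} {M : Fb (w + e) w} {d : Ed M m} {κ : Type} [Fintype κ] {D : κ → Set M.Y.X}
  {A : M.κ → κ → ℕ} {o : M.κ → ℤ} {O S : Set M.Y.X} {s : Chart (w + e) M.X.X → M.X.X → ℂ}
  {i : d.l.ι} {x x' : M.X.X} {y : M.Y.X} {c c' : Chart (w + e) M.X.X}

theorem mem_O (h : d.Or D A o) (hi : M.f x ∈ d.l.U i) (hx : x ∈ off M.G) : x ∈ d.E.O i :=
  ⟨⟨hi, fun k => (h.hQ.le k) (h.sn.pre x hx)⟩, hx⟩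

theorem ex (h : d.Or D A o) (hi : y ∈ d.l.U i) (hy : y ∈ off D) :
    ∃ x c, M.f x = y ∧ x ∈ off M.G ∧ At c x ∧ d.t i c x ≠ 0 := by
  obtain ⟨x, rfl⟩ := h.sn.ok.fibn.surj y
  obtain ⟨x', ⟨k1, k2, k3⟩, k4⟩ := ((h.ok.ne i _ x hi (fun k => (h.hQ.le k) hy)
    (at_chart x)).and_eventually (at_near (at_chart (n := w + e) x))).exists
  exact ⟨x', _, k1, k2.2, k4, k3⟩

theorem lsec (h : d.Or D A o) (hx : x ∈ off M.G) (hc : At c x) (hy : M.f x = y) :
    ∃ g : M.Y.X → M.X.X, g y = x ∧ HolA w (w + e) g y ∧ Tendsto g (𝓝 y) (𝓝 x) ∧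
      ∀ᶠ z in 𝓝 y, M.f (g z) = z ∧ g z ∈ off M.G ∧ At c (g z) := by
  subst hy
  have hf := h.sn.ok.fibn.hol
  obtain ⟨g, g1, g2, g3⟩ := ((h.sn.reg _ (h.sn.pre x hx)).sbm hf h.sn.ok.snc rfl).sec (hf.at x)
  have k : Tendsto g (𝓝 (M.f x)) (𝓝 x) := by simpa only [ContinuousAt, g1] using g2.cont
  exact ⟨g, g1, g2, k, g3.and (k.eventually
    (((snc_open_off h.sn.ok.snc).eventually_mem hx).and (at_near hc)))⟩

variable (h : d.Or D A o) (hd : d.Sec) (hS : Thin w S)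
  (h1 : ∀ y ∉ S, ∀ (F : Mf e) (j : F.X → M.X.X), Emb e (w + e) j (M.f ⁻¹' {y}) →
    ¬ KapM e (w + e) j (Bd.can e F.X) M.G (fun l => M.δ l) m 1) (hO : IsOpen O)
  (hs : SecP (w + e) (w + e) id (M.f ⁻¹' O) ((Bd.can (w + e) M.X.X).pow m) M.G
    (fun l => m * (M.δ l : ℝ)) s)

include h hd hS h1 hO hs

theorem cross (h0 : y ∈ O) (hi : y ∈ d.l.U i) (hy : M.f x = y) (hy' : M.f x' = y)
    (hx : x ∈ off M.G) (hx' : x' ∈ off M.G) (hc : At c x) (hc' : At c' x')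
    (ht : d.t i c' x' ≠ 0) : s c x * d.t i c' x' = s c' x' * d.t i c x := by
  have hf := h.sn.ok.fibn.hol
  have key : ∀ y ∉ S, y ∈ O → y ∈ d.l.U i → ∀ x x', M.f x = y → M.f x' = y → x ∈ off M.G →
      x' ∈ off M.G → At c x → At c' x' → d.t i c' x' ≠ 0 →
      s c x * d.t i c' x' = s c' x' * d.t i c x := by
    intro y k h0 hi x x' hy hy' hx hx' hc hc' ht
    have hR := h.sn.reg y (hy ▸ h.sn.pre x hx)
    obtain ⟨F, j, hj, -⟩ := hR.fib rfl hf h.sn.ok.snc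
    have := h.sn.ok.conn
    have := hj.conn.2 (h.sn.ok.fibn.conn_all y)
    obtain ⟨z, rfl⟩ := hj.ex hy
    obtain ⟨z', rfl⟩ := hj.ex hy'
    exact prop (.of_snc h.sn.ok.snc) hj.hol (hj.hol.lb (lb_pow isLB_can m))
      (mt (kap_iff hR hf h.sn.ok.snc hj m 1).2 (h1 y k F j hj))
      ((hs.comp hj.hol).res fun z _ => show M.f (j z) ∈ O from (hj.fib z).symm ▸ h0)
      (((hd i).comp hj.hol).res fun z' _ => show M.f (j z') ∈ d.l.U i \ d.Q from
        ((hj.fib z).trans (hj.fib z').symm) ▸ (mem_O h (hy.symm ▸ hi) hx).1) hc hx hc' hx' ht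
  obtain ⟨g, -, -, g3, g4⟩ := lsec h hx hc hy
  obtain ⟨g', -, -, g3', g4'⟩ := lsec h hx' hc' hy'
  have a1 := (hs.hol c x (show M.f x ∈ O from hy.symm ▸ h0) hc hx).cont.tendsto.comp g3
  have a2 := (hs.hol c' x' (show M.f x' ∈ O from hy'.symm ▸ h0) hc' hx').cont.tendsto.comp g3'
  have a3 := (h.ok.thol i c x (mem_O h (hy.symm ▸ hi) hx) hc).cont.tendsto.comp g3
  have a4 := (h.ok.thol i c' x' (mem_O h (hy'.symm ▸ hi) hx') hc').cont.tendsto.comp g3'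
  refine tendsto_nhds_unique_of_frequently_eq (a1.mul a4) (a2.mul a3) (((hS.freq y).and_eventually
    (g4.and (g4'.and ((a4.eventually_ne ht).and ((hO.eventually_mem h0).and
      (lb_near h.ok.base.lb hi)))))).mono fun z ⟨k0, k1, k2, k3, k4, k5⟩ => ?_)
  exact key z k0 k4 k5 _ _ k1.1 k2.1 k1.2.1 k2.2.1 k1.2.2 k2.2.2 k3

/-- the quotient `s / t i` comes from the base -/
theorem desc (hD : DENS) (hP : OPN) {θ : κ → ℝ}
    (hθ : ∀ j, ∃ l, Dom M A l j ∧ m * (M.δ l : ℝ) + o l ≤ A l j * θ j) :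
    ∃ u : d.l.ι → M.Y.X → ℂ, (∀ i, ∀ y ∈ O, y ∈ d.l.U i → y ∈ off D → Hol w (u i) y) ∧
      (∀ i i', ∀ y ∈ O, y ∈ d.l.U i → y ∈ d.l.U i' → y ∈ off D →
        u i y = d.l.g i i' y * (jacM (d.ch i) (d.ch i') y).det ^ m * u i' y) ∧
      (∀ i, ∀ y ∈ O, y ∈ d.l.U i → BdP w id D θ (u i) y) ∧
      ∀ i c x, M.f x ∈ O → M.f x ∈ d.l.U i → x ∈ off M.G → At c x →
        s c x = u i (M.f x) * d.t i c x := by
  have h2 : ∀ i y, ∃ a : ℂ, ∀ c x, M.f x = y → y ∈ O → y ∈ d.l.U i → x ∈ off M.G → At c x →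
      s c x = a * d.t i c x := fun i y => by
    by_cases k : y ∈ d.l.U i ∧ y ∈ off D
    · obtain ⟨x', c', k1, k2, k3, k4⟩ := ex h k.1 k.2
      exact ⟨s c' x' / d.t i c' x', fun c x m1 m2 m3 m4 m5 => by
        rw [div_mul_eq_mul_div, ← cross h hd hS h1 hO hs m2 m3 m1 k1 m4 k2 m5 k3 k4,
          mul_div_cancel_right₀ _ k4]⟩
    · exact ⟨0, fun c x m1 _ m3 m4 _ => (k ⟨m3, m1 ▸ h.sn.pre x m4⟩).elim⟩
  choose u hu using h2
  have hf := h.sn.ok.fibn.hol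
  have h3 : ∀ i, ∀ y ∈ O, y ∈ d.l.U i → y ∈ off D → Hol w (u i) y := fun i y h0 hi hy => by
    obtain ⟨x, c, k1, k2, k3, k4⟩ := ex h hi hy
    obtain ⟨g, rfl, g2, g3, g4⟩ := lsec h k2 k3 k1
    have a1 := h.ok.thol i c _ (mem_O h (k1.symm ▸ hi) k2) k3
    refine ((g2.hol (hs.hol c _ (show M.f _ ∈ O from k1.symm ▸ h0) k3 k2)).div (g2.hol a1)
      k4).congr ?_
    filter_upwards [g4, g3.eventually (a1.ne_near k4), hO.mem_nhds h0, lb_near h.ok.base.lb hi]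
      with z m1 m2 m3 m4
    rw [hu i z c _ m1.1 m3 m4 m1.2.1 m1.2.2]
    exact mul_div_cancel_right₀ _ m2
  refine ⟨u, h3, fun i i' y h0 hi hi' hy => ?_, fun i y h0 hi => ?_,
    fun i c x => hu i _ c x rfl⟩
  · obtain ⟨x, c, rfl, k2, k3, k4⟩ := ex h hi hy
    refine mul_right_cancel₀ k4 ?_
    rw [← hu i _ c x rfl h0 hi k2 k3, hu i' _ c x rfl h0 hi' k2 k3]
    exact (congrArg _ (h.ok.lchg i i' c x (mem_O h hi k2) (mem_O h hi' k2) k3)).trans (by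
      rw [← mul_assoc, mul_comm (u i' _)])
  have h4 := (hO.eventually_mem h0).and (lb_near h.ok.base.lb hi)
  refine (bdP_codim1 h.sn.snc (c := θ) (fun l _ => Int.lt_floor_add_one (θ l))
    (h4.mono fun z k => h3 i z k.1 k.2) (h4.eventually_nhds.mono fun y k j hj _ => ?_)).mono
    continuousAt_id fun l _ => Int.floor_le _
  obtain ⟨l, hl, hr⟩ := hθ j
  refine ((hD _ w M κ D A h.sn l j hl _ (fun _ => True) (od_imp (O := M.f ⁻¹' d.l.U i)
    (P := fun x => ∃ c, At c x ∧ (∀ᶠ z in 𝓝 x, z ∈ off M.G → d.t i c z ≠ 0) ∧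
      BdP (w + e) id M.G (fun l => o l) (fun z => (d.t i c z)⁻¹) x) fun x hx hi => ?_)
    (fun x hx => (frequently_pure.2 ⟨hx, .of_forall fun _ _ => trivial⟩).filter_mono
      (pure_le_nhds x)) y hj).and_eventually k).mono ?_
  · exact ((gen_inv (.of_snc h.sn.ok.snc) (h.ot i _ x hi (at_chart x)) hx).and_eventually
      (at_near (at_chart x)).eventually_nhds).mono fun z m =>
        ⟨m.1.1, (m.2.and m.1.2).mono fun _ r => ⟨_, r⟩⟩
  rintro _ ⟨⟨x, rfl, k1, k2, -⟩, k3, k4⟩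
  obtain ⟨c, k5, k6, k7⟩ := k2 k4
  refine ⟨k1.memD, down hP h.sn k1 (((hs.bdP (a := c) k3 k5).mul continuousAt_id k7).congr ?_) hr⟩
  filter_upwards [k6, at_near k5, hf.cont.continuousAt.eventually
    ((hO.eventually_mem k3).and (lb_near h.ok.base.lb k4))] with z m1 m2 m3 m4
  rw [hu i _ c z rfl m3.1 m3.2 m4 m2, mul_inv_cancel_right₀ (m1 m4)]

end desc

end Vale.Agent.P281Z.Pk.Big
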