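import Vale.Agent.P281Z.Lf.Defs
import Vale.Agent.P281Z.Nt.Sk
import Vale.Agent.P281Z.Sc.Ord
import Vale.Agent.P281Z.Mf.Adj
import Vale.Agent.P281Z.Hg.DH

/-!
# P281Z, the canonical bundle formula: definitions
-/

open scoped Manifold ContDiff Topology ENNReal Matrix
open Set Filter MeasureTheory
open Vale.Agent.P272.K Vale.Agent.P285.H281.FD
open Vale.Agent.P277Z (Hol Mer Nz)
open Vale.Agent.P277Z.Slc (lin Ind LEq Snc)
open Vale.Agent.P277Z.Hir (Cpb)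
open Vale.Agent.P277.HD (pull)
open Vale.Agent.P281Z.Hg (PC IsPC fdet)

noncomputable section

namespace Vale.Agent.P281Z.Pk

instance ms {n : ℕ} (V : Mf n) : MeasurableSpace V.X := borel _

instance bs {n : ℕ} (V : Mf n) : BorelSpace V.X := ⟨rfl⟩

/-! ### Measures -/

section meas

variable {n : ℕ} {V : Mf n}

/-- `μ` has the density `D e` in the chart `e` -/
def IsDm (D : Chart n V.X → V.X → ℝ≥0∞) (μ : Measure V.X) : Prop :=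
  ∀ e ∈ atlas (Cm n) V.X, ∀ f : V.X → ℝ≥0∞, Measurable f → (∀ x ∉ e.source, f x = 0) →
    ∫⁻ x, f x ∂μ = ∫⁻ z in e.target, f (e.symm z) * D e (e.symm z)

open Classical in
/-- the measure with the densities `D` -/
def dm (D : Chart n V.X → V.X → ℝ≥0∞) : Measure V.X := if h : ∃ μ, IsDm D μ then h.choose else 0

/-- `|t|^(2/m)` on `O` -/
def tm (m : ℕ) (O : Set V.X) (t : Chart n V.X → V.X → ℂ) (e : Chart n V.X) : V.X → ℝ≥0∞ :=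
  O.indicator fun x => ‖t e x‖ₑ ^ (2 / m : ℝ)

/-- `F` is integrable on `S` near `y` -/
def LI (χ : Chart n V.X) (S : Set V.X) (F : V.X → ℝ≥0∞) (y : V.X) : Prop :=
  ∃ O ∈ 𝓝 (χ y), ∫⁻ z in O ∩ χ.symm ⁻¹' S, F (χ.symm z) < ⊤

variable {w e : ℕ} {X : Mf (w + e)} {W : Mf w}

/-- `μ` lives on the fibre over `y`, with the density `D q` in the product chart `q` -/
def IsFm (g : X.X → W.X) (y : W.X) (D : PC w e X.X W.X → X.X → ℝ≥0∞) (μ : Measure X.X) : Prop :=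
  μ (g ⁻¹' {y})ᶜ = 0 ∧ ∀ q, IsPC g q → y ∈ q.1.source → ∀ f : X.X → ℝ≥0∞, Measurable f →
    (∀ x ∉ q.2.source, f x = 0) → ∫⁻ x, f x ∂μ = ∫⁻ z in {z | (q.1 y, z) ∈ q.2.target},
      f (q.2.symm (q.1 y, z)) * D q (q.2.symm (q.1 y, z))

open Classical in
/-- the measure on the fibre with the densities `D` -/
def fm (g : X.X → W.X) (y : W.X) (D : PC w e X.X W.X → X.X → ℝ≥0∞) : Measure X.X :=
  if h : ∃ μ, IsFm g y D μ then h.choose else 0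

/-- a product chart as a chart -/
def qc (q : PC w e X.X W.X) : Chart (w + e) X.X :=
  q.2.transHomeomorph (Fin.appendHomeomorph w e)

/-- the coefficient of `t / (dχ)^m` in the fibre coordinates of `q` -/
def rl (m : ℕ) (χ : Chart w W.X) (g : X.X → W.X) (t : Chart (w + e) X.X → X.X → ℂ)
    (q : PC w e X.X W.X) (x : X.X) : ℂ :=
  t (chartAt (Cm (w + e)) x) x *
    ((jacM (qc q) (chartAt (Cm (w + e)) x) x).det * (jacM χ q.1 (g x)).det) ^ m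

/-- `|t / (dχ)^m|^(2/m)` on `O` -/
def fmm (m : ℕ) (O : Set X.X) (χ : Chart w W.X) (g : X.X → W.X)
    (t : Chart (w + e) X.X → X.X → ℂ) (q : PC w e X.X W.X) : X.X → ℝ≥0∞ :=
  O.indicator fun x => ‖rl m χ g t q x‖ₑ ^ (2 / m : ℝ)

/-- `φ` is holomorphic at `x` along the fibre -/
def FH (g : X.X → W.X) (φ : X.X → ℂ) (x : X.X) : Prop :=
  ∀ q : PC w e X.X W.X, IsPC g q → x ∈ q.2.source →
    AnalyticAt ℂ (fun z => φ (q.2.symm ((q.2 x).1, z))) (q.2 x).2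

/-- `O` contains the fibre over `y`, up to a nowhere dense analytic set -/
def FBig (g : X.X → W.X) (y : W.X) (O : Set X.X) : Prop :=
  ∀ x, g x = y → ∃ h, Hol (w + e) h x ∧ (∃ᶠ x' in 𝓝 x, g x' = y ∧ h x' ≠ 0) ∧
    ∀ᶠ x' in 𝓝 x, g x' = y → h x' ≠ 0 → x' ∈ O

end meas

/-! ### Relative pluricanonical forms -/

/-- the base, with a line bundle whose frames are relative forms -/
structure Bs (w : ℕ) : Type 1 where
  W : Mf w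
  l : Bd W.X
  ch : l.ι → Chart w W.X

namespace Bs

variable {w : ℕ} (B : Bs w)

structure Ok : Prop where
  conn : ConnectedSpace B.W.X
  kah : B.W.Kah
  lb : IsLB w B.l
  ch : ∀ i, ∀ y ∈ B.l.U i, At (B.ch i) y

/-- the power of the line bundle -/
@[reducible] def pow (N : ℕ) : Bs w := ⟨B.W, B.l.pow N, B.ch⟩

end Bs

/-- the `m`-forms `t i` on `X`; the frames of `l` are the `t i / (d ch i)^m` -/
structure Et {w : ℕ} (B : Bs w) (e m : ℕ) : Type 1 where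
  X : Mf (w + e)
  g : X.X → B.W.X
  κ : Type
  [fin : Fintype κ]
  G : κ → Set X.X
  t : B.l.ι → Chart (w + e) X.X → X.X → ℂ
  Q₀ : Set B.W.X
  Q : Set B.W.X
  ρ : X.X → ℝ

attribute [instance] Et.fin

namespace Et

variable {w e m : ℕ} {B : Bs w} (E : Et B e m)

/-- the domain of `t i` -/
def O (i : B.l.ι) : Set E.X.X := E.g ⁻¹' (B.l.U i \ E.Q₀) ∩ off E.G

/-- the measure `|t i|^(2/m)` -/
def μ (i : B.l.ι) : Measure E.X.X := dm (tm m (E.O i ∩ E.g ⁻¹' E.Qᶜ) (E.t i))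

/-- the measure `|t i / (d ch i)^m|^(2/m)` on the fibre over `y` -/
def ν (i : B.l.ι) (y : B.W.X) : Measure E.X.X := fm E.g y (fmm m (E.O i) (B.ch i) E.g (E.t i))

/-- the weight `ρ^ε` -/
def wt (ε : ℝ) (x : E.X.X) : ℝ≥0∞ := ENNReal.ofReal (E.ρ x ^ ε)

/-- the fibre integral -/
def J (i : B.l.ι) (ε : ℝ) (y : B.W.X) : ℝ≥0∞ := ∫⁻ x, E.wt ε x ∂E.ν i y

/-- `φ` is square integrable on the fibre, for all the weights -/
def L2 (i : B.l.ι) (y : B.W.X) (φ : E.X.X → ℂ) : Prop :=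
  ∀ ε : ℝ, 0 < ε → ∫⁻ x, ‖φ x‖ₑ ^ 2 * E.wt ε x ∂E.ν i y < ⊤

/-- the geometric properties -/
structure Geo : Prop where
  pos : 0 < m
  base : B.Ok
  kah : E.X.Kah
  hol : HolM (w + e) w E.g
  snc : Snc (w + e) E.G
  thin₀ : Thin w E.Q₀
  thin : Thin w E.Q
  sub : E.Q₀ ⊆ E.Q
  reg : ∀ y ∉ E.Q, RegAt (w + e) w E.g E.G y
  onto : ∀ y ∉ E.Q, ∃ x, E.g x = y
  thol : ∀ i c, ∀ x ∈ E.O i, At c x → Hol (w + e) (E.t i c) x
  tchg : ∀ i c c', ∀ x ∈ E.O i, At c x → At c' x →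
    E.t i c x = (jacM c c' x).det ^ m * E.t i c' x
  lchg : ∀ i j c, ∀ x ∈ E.O i, x ∈ E.O j → At c x →
    E.t j c x = B.l.g i j (E.g x) * (jacM (B.ch i) (B.ch j) (E.g x)).det ^ m * E.t i c x
  den : ∀ i c x, E.g x ∈ B.l.U i → At c x → ∃ (k : ℕ) (a u : Fin k → E.X.X → ℂ),
    (∀ j, Hol (w + e) (a j) x ∧ Hol (w + e) (u j) x) ∧ ∀ᶠ x' in 𝓝 x, x' ∈ E.O i →
      (∃ j, a j x' ≠ 0) ∧ ∀ j, a j x' * E.t i c x' = u j x'
  ne : ∀ i c x, E.g x ∈ B.l.U i → E.g x ∉ E.Q → At c x →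
    ∃ᶠ x' in 𝓝 x, E.g x' = E.g x ∧ x' ∈ E.O i ∧ E.t i c x' ≠ 0
  cont : Continuous E.ρ
  cpb : ∀ x (ζ : E.κ → E.X.X → ℂ), (∀ l, LEq (w + e) (E.G l) x (ζ l)) →
    ∃ r : E.κ → ℕ, Cpb (𝓝 x) E.ρ fun y => ∏ l, ‖ζ l y‖ ^ r l

/-- the fibre integrals are finite -/
def Fi : Prop := ∀ i, ∀ y ∈ B.l.U i, y ∉ E.Q → ∀ ε : ℝ, 0 < ε → E.J i ε y < ⊤

/-- the fibres have a finite mass (no log canonical centre dominates the base) -/
def Kl : Prop := ∀ i, ∀ y ∈ B.l.U i, y ∉ E.Q → E.J i 0 y < ⊤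

/-- square integrable meromorphic functions on the fibres are constant -/
def Un : Prop := ∀ i, ∀ y ∈ B.l.U i, y ∉ E.Q → ∀ O, IsOpen O → O ⊆ E.O i → FBig E.g y O →
  ∀ φ, (∀ x ∈ O, E.g x = y → FH E.g φ x) → E.L2 i y φ → ∃ c, ∀ x ∈ O, E.g x = y → φ x = c

structure Ok : Prop extends E.Geo where
  fi : E.Fi
  un : E.Un

/-- the preimage of `Q₀` is contained in the divisors -/
def Pre : Prop := ∀ x ∈ off E.G, E.g x ∉ E.Q₀

/-- `h` is the leading coefficient of the fibre integrals -/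
def Nm (S : Set B.W.X) (k : ℝ) (h : B.l.ι → B.W.X → ℝ) : Prop :=
  ∀ i, ∀ y ∈ B.l.U i, y ∉ S → 0 < h i y ∧
    Tendsto (fun ε : ℝ => ε ^ k * (E.J i ε y).toReal) (𝓝[>] 0) (𝓝 (h i y))

/-- the mean of `φ` over the fibre is `c` -/
def Mean (i : B.l.ι) (y : B.W.X) (φ : E.X.X → ℂ) (c : ℂ) : Prop :=
  ∀ ε : ℝ, 0 < ε → ∫ x, φ x * (E.ρ x ^ ε : ℝ) ∂E.ν i y = c * (E.J i ε y).toReal

end Et

/-- a top form without zeros and poles off the divisors, whose multiples have a mean -/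
structure Lg {w d : ℕ} {B : Bs w} (C : Et B d 1) : Prop extends C.Geo where
  fi : C.Fi
  pre : C.Pre
  conn : ∀ l, IsConnected (C.G l)
  nz : ∀ i c, ∀ x ∈ C.O i, At c x → C.t i c x ≠ 0
  ord : ∃ a : C.κ → ℤ, ∀ i c x, C.g x ∈ B.l.U i → At c x → OrdAt (w + d) C.G a (C.t i c) x
  cpg : ∃ b : C.κ → ℕ, ∀ x (ζ : C.κ → C.X.X → ℂ), (∀ l, LEq (w + d) (C.G l) x (ζ l)) →
    Cpb (𝓝 x) C.ρ fun y => ∏ l, ‖ζ l y‖ ^ b l
  mean : ∀ i, ∀ y ∈ B.l.U i, y ∉ C.Q → ∀ φ, (∀ x ∈ off C.G, C.g x = y → FH C.g φ x) →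
    C.L2 i y φ → ∃ c, C.Mean i y φ c
  meanH : ∀ i O, IsOpen O → O ⊆ B.l.U i \ C.Q → ∀ φ,
    (∀ x ∈ off C.G, C.g x ∈ O → Hol (w + d) φ x) → (∀ y ∈ O, C.L2 i y φ) →
    ∃ c : B.W.X → ℂ, ∀ y ∈ O, Hol w c y ∧ C.Mean i y φ (c y)

/-- a line in the top piece of a variation of Hodge structure -/
structure Lin {w n k : ℕ} {W : Mf w} {U : Set W.X} (D : Hg.Loc w n k U) (l : Bd W.X)
    (ψ : l.ι → W.X → W.X → Fin n → ℂ) : Prop where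
  sec : ∀ i, D.Sec (l.U i) (ψ i)
  chg : ∀ i j a, ∀ y ∈ D.N a, y ∈ l.U i → y ∈ l.U j → ψ j a y = l.g i j y • ψ i a y
  ne : ∀ i a, ∀ y ∈ D.N a, y ∈ l.U i → ψ i a y ≠ 0
  one : ∀ i a (c : Chart w W.X), ∀ y ∈ D.N a, y ∈ l.U i → At c y → ∀ v, ∃ s : ℂ,
    D.Pr a k y *ᵥ fderiv ℂ (fun z => ψ i a (c.symm z)) (c y) v = s • ψ i a y

/-- the Hodge norm of the frames -/
def hN {w n k : ℕ} {W : Mf w} {U : Set W.X} (D : Hg.Loc w n k U) {l : Bd W.X}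
    (ψ : l.ι → W.X → W.X → Fin n → ℂ) (i : l.ι) (y : W.X) : ℝ := Hm.hn (D.Q y) (ψ i y y)

/-! ### Forms on a fibration with a boundary -/

/-- the data on `M` -/
structure Ed {w e : ℕ} (M : Fb (w + e) w) (m : ℕ) : Type 1 where
  l : Bd M.Y.X
  ch : l.ι → Chart w M.Y.X
  t : l.ι → Chart (w + e) M.X.X → M.X.X → ℂ
  Q : Set M.Y.X
  ρ : M.X.X → ℝ

namespace Ed

variable {w e m : ℕ} {M : Fb (w + e) w} (d : Ed M m)

@[reducible] def B : Bs w := ⟨M.Y, d.l, d.ch⟩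

@[reducible] def E : Et d.B e m := ⟨M.X, M.f, M.κ, M.G, d.t, d.Q, d.Q, d.ρ⟩

/-- the poles of `t` are at most `m Δ` -/
def Sec : Prop := ∀ i, SecP (w + e) (w + e) id (M.f ⁻¹' (d.l.U i \ d.Q))
  ((Bd.can (w + e) M.X.X).pow m) M.G (fun l => m * (M.δ l : ℝ)) (d.t i)

/-- `t` generates the sections on the fibres -/
def One : Prop := ∀ i, ∀ y ∈ d.l.U i, y ∉ d.Q → ∀ (F : Mf e) (j : F.X → M.X.X),
  Emb e (w + e) j (M.f ⁻¹' {y}) → ∀ s, SecP e (w + e) j univ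
    (pull j ((Bd.can (w + e) M.X.X).pow m)) M.G (fun l => m * (M.δ l : ℝ)) s →
    ∃ a : ℂ, ∀ c x, j x ∈ off M.G → At c (j x) → s c x = a * d.t i c (j x)

/-- the pull back -/
def pull (M₁ : Fb (w + e) w) (u : M₁.X.X → M.X.X) (v : M₁.Y.X → M.Y.X) (Q₁ : Set M₁.Y.X) :
    Ed M₁ m where
  l := ⟨d.l.ι × Chart w M₁.Y.X, fun i => v ⁻¹' d.l.U i.1 ∩ {y | At i.2 y},
    fun i j y => d.l.g i.1 j.1 (v y)⟩
  ch i := i.2
  t i c x := d.t i.1 (chartAt (Cm (w + e)) (u x)) (u x) *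
    ((dfM u c (chartAt (Cm (w + e)) (u x)) x).det / (dfM v i.2 (d.ch i.1) (M₁.f x)).det) ^ m
  Q := Q₁
  ρ x := d.ρ (u x)

end Ed

/-- the weight vanishes on the support of the boundary -/
def Rc {n p : ℕ} (M : Fb n p) (ρ : M.X.X → ℝ) : Prop :=
  Continuous ρ ∧ ∀ x (ζ : M.κ → M.X.X → ℂ), (∀ l, LEq n (M.G l) x (ζ l)) →
    Cpb (𝓝 x) ρ fun y => ∏ l, ‖ζ l y‖ ^ (if 0 < M.δ l then 1 else 0 : ℕ)

/-- the tower over a model of its first floor -/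
@[reducible] def tw {n w p : ℕ} (T : Tw n w p) (M₁ : Fb n w) (v : M₁.Y.X → T.Y.X) : Tw n w p :=
  ⟨M₁, T.B, fun y => T.h (v y)⟩

/-! ### Orders -/

section ord

variable {n w : ℕ} (M : Fb n w) {κ : Type} [Fintype κ] (D : κ → Set M.Y.X)

/-- the restriction of `f` to `G l` has rank `w - 1` at `x` -/
def NeAt (l : M.κ) (x : M.X.X) : Prop :=
  ∃ (ζ : M.X.X → ℂ) (φ : Fin (w - 1) → M.Y.X → ℂ), LEq n (M.G l) x ζ ∧ (∀ i, Hol w (φ i) (M.f x)) ∧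
    Ind n (Sum.elim (fun _ : Unit => ζ) fun i z => φ i (M.f z)) x

/-- `f` is log smooth off `D`, and `f^* D j = ∑ A l j • G l` -/
structure Sn (A : M.κ → κ → ℕ) : Prop where
  ok : M.Ok
  connG : ∀ l, IsConnected (M.G l)
  snc : Snc w D
  connD : ∀ j, IsConnected (D j)
  reg : ∀ y ∈ off D, RegAt n w M.f M.G y
  pre : ∀ x ∈ off M.G, M.f x ∈ off D
  ord : ∀ j x ζ, LEq w (D j) (M.f x) ζ → OrdAt n M.G (fun l => A l j) (fun z => ζ (M.f z)) x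

variable {D} in
/-- `G l` dominates `D j` -/
def Dom (A : M.κ → κ → ℕ) (l : M.κ) (j : κ) : Prop := 0 < A l j ∧ ∃ x ∈ M.G l, NeAt M l x

/-- `x` is a general point of `G l`, over a general point of `D j` -/
structure Gd (l : M.κ) (j : κ) (x : M.X.X) : Prop where
  mem : x ∈ M.G l
  only : ∀ l', l' ≠ l → x ∉ M.G l'
  memD : M.f x ∈ D j
  onlyD : ∀ j', j' ≠ j → M.f x ∉ D j'
  ne : NeAt M l x

end ord

/-- `P` holds on an open dense subset of `S` -/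
def OD {X : Type} [TopologicalSpace X] (S : Set X) (P : X → Prop) : Prop :=
  ∀ x ∈ S, ∃ᶠ y in 𝓝 x, y ∈ S ∧ ∀ᶠ z in 𝓝 y, z ∈ S → P z

/-- the orders of the forms `t i` are the `o l` -/
structure Ed.Or {w e m : ℕ} {M : Fb (w + e) w} (d : Ed M m) {κ : Type} [Fintype κ]
    (D : κ → Set M.Y.X) (A : M.κ → κ → ℕ) (o : M.κ → ℤ) : Prop where
  sn : Sn M D A
  hQ : d.Q = (off D)ᶜ
  ok : d.E.Ok
  ot : ∀ i c x, M.f x ∈ d.l.U i → At c x → OrdAt (w + e) M.G o (d.t i c) x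

/-- regularity of the fibre integrals along smooth hypersurfaces -/
def Et.RG {w e m : ℕ} {B : Bs w} (E : Et B e m) (s : ℕ) (Q' : Set B.W.X)
    (h : B.l.ι → B.W.X → ℝ) : Prop :=
  ∀ i, ∀ y ∈ B.l.U i, ∀ (H : Set B.W.X) (ζ : B.W.X → ℂ) (j : ℤ), y ∈ H → LEq w H y ζ →
    (∀ᶠ z in 𝓝 y, (z ∈ Q' → z ∈ H) ∧ (z ∈ H → z ∈ E.Q₀)) →
    LI (B.ch i) Q'ᶜ (fun z => ENNReal.ofReal (h i z ^ s * ‖ζ z‖ ^ (2 * j))) y →
    ∀ ε : ℝ, 0 < ε →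
      LI (B.ch i) Q'ᶜ (fun z => E.J i ε z ^ s * ENNReal.ofReal (‖ζ z‖ ^ (2 * j))) y

/-- the final model -/
structure Fd (w e p m : ℕ) : Type 1 where
  T : Tw (w + e) w p
  d : Ed T.toFb m
  k : ℕ
  D : Fin k → Set T.Y.X
  A : T.κ → Fin k → ℕ
  o : T.κ → ℤ
  r : ℕ
  Z : Mf r
  γ : T.Y.X → Z.X
  M : Bd Z.X
  a : ℕ
  q : d.l.ι → M.ι → T.Y.X → ℂ
  b : Fin k → ℤ

namespace Fd

variable {w e p m : ℕ} (F : Fd w e p m)

/-- the orders -/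
structure Or : Prop extends F.d.Or F.D F.A F.o where
  hγ : HolM w F.r F.γ
  lbM : IsLB F.r F.M
  pos : 0 < F.a
  qhol : ∀ i j, ∀ y ∈ F.d.l.U i, F.γ y ∈ F.M.U j → y ∈ off F.D → Hol w (F.q i j) y ∧ F.q i j y ≠ 0
  qchg : ∀ i i' j j', ∀ y ∈ F.d.l.U i, y ∈ F.d.l.U i' → F.γ y ∈ F.M.U j → F.γ y ∈ F.M.U j' →
    y ∈ off F.D → F.q i j y * F.M.g j j' (F.γ y) = F.d.l.g i i' y ^ F.a * F.q i' j' y
  oq : ∀ i j, ∀ y ∈ F.d.l.U i, F.γ y ∈ F.M.U j → OrdAt w F.D F.b (F.q i j) y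

/-- the frame `q ψ^a` has a norm of order zero -/
def Hb (h : F.d.l.ι → F.T.Y.X → ℝ) : Prop :=
  ∀ i j, ∀ y ∈ F.d.l.U i, F.γ y ∈ F.M.U j → ∃ (c : ℝ) (g : F.T.Y.X → ℂ), 0 < c ∧ Hol w g y ∧
    Nz g y ∧ (∀ᶠ x in 𝓝 y, x ∈ off F.D → c ≤ ‖F.q i j x‖ ^ 2 * h i x ^ (m * F.a)) ∧
    ∀ ε : ℝ, 0 < ε → ∃ C : ℝ, ∀ᶠ x in 𝓝 y, x ∈ off F.D →
      ‖F.q i j x‖ ^ 2 * h i x ^ (m * F.a) * ‖g x‖ ^ ε ≤ C

/-- inversion of adjunction -/
def Low : Prop := ∀ l j, Dom F.T.toFb F.A l j →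
  ((F.a * m : ℕ) - F.b j) * (F.A l j : ℤ) ≤ F.a * (F.o l + m)

/-- the threshold is attained -/
def Upp : Prop := ∀ j, ∃ l, Dom F.T.toFb F.A l j ∧
  (F.a : ℤ) * (F.o l + m) ≤ ((F.a * m : ℕ) - F.b j) * (F.A l j : ℤ)

/-- the coefficient which is defined by `G l` -/
def cf (l : F.T.κ) (j : Fin F.k) : ℚ :=
  (F.o l + m * F.T.δ l) / (m * F.A l j) + F.b j / (F.a * m)

/-- the discriminant -/
structure Be (β : Fin F.k → ℚ) : Prop where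
  le : ∀ l j, Dom F.T.toFb F.A l j → β j ≤ F.cf l j
  eq : ∀ j, ∃ l, Dom F.T.toFb F.A l j ∧ β j = F.cf l j

/-- the base with the discriminant -/
@[reducible] def fb (β : Fin F.k → ℚ) : Fb w p := ⟨F.T.Y, F.T.B, F.T.h, Fin F.k, F.D, β⟩

/-- the generalized pair -/
@[reducible] def gp (β : Fin F.k → ℚ) (L : Bd F.Z.X) : GP w p F.r :=
  ⟨F.fb β, F.Z, F.γ, F.M, L, F.a * m⟩

end Fd

end Vale.Agent.P281Z.Pk
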