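import Vale.Agent.P281Z.Sc.Ord

/-!
# P281Z, the relative forms: primitive vectors of germs, sections on a fibre
-/

open scoped Manifold ContDiff Topology
open Set Filter
open Vale.Agent.P272.K Vale.Agent.P285.H281.FD Vale.Agent.P277Z
open Vale.Agent.P277Z.Slc (Ind LEq Snc dd)
open Vale.Agent.P298.H941 (O)
open Vale.Agent.P277.HD (pull)

set_option linter.unusedSectionVars false

noncomputable section

namespace Vale.Agent.P281Z.Pk.Eta

theorem dvd_of_cop {R : Type} [CommRing R] [IsDomain R] [DecompositionMonoid R] {v w p q : R}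
    (h : IsRelPrime p q) (h1 : v ∣ w * p) (h2 : v ∣ w * q) : v ∣ w := by
  obtain ⟨v₁, v₂, ⟨w', rfl⟩, k, rfl⟩ := exists_dvd_and_dvd_of_dvd_mul h1
  by_cases h0 : v₁ = 0
  · simp [h0]
  rw [mul_assoc, mul_dvd_mul_iff_left h0] at h2
  exact mul_dvd_mul_left _ ((h.of_dvd_left k).dvd_of_dvd_mul_right h2)

section loc

variable {n : ℕ} {W : Type} [TopologicalSpace W] [ChartedSpace (Cm n) W]
  [IsManifold 𝓘(ℂ, Cm n) ω W] {ι : Type} {x : W}

variable (n) in
/-- the germ at `y` -/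
abbrev gr (y : W) (a : W → ℂ) : O (Cm n) := gW (chartAt (Cm n) y) y a

theorem gcdF {a : W → ℂ} {A : ι → W → ℂ} (ha : Hol n a x) (h0 : Nz a x) (hA : ∀ j, Hol n (A j) x)
    (s : Finset ι) : ∃ d, Hol n d x ∧ Nz d x ∧ Dvd n d a x ∧ (∀ j ∈ s, Dvd n d (A j) x) ∧
      ∀ᶠ y in 𝓝 x, ∀ u v : O (Cm n), v ∣ u * gr n y a → (∀ j ∈ s, v ∣ u * gr n y (A j)) →
        v ∣ u * gr n y d := by
  classical
  induction s using Finset.induction_on with
  | empty => exact ⟨a, ha, h0, .refl _ _, by simp, .of_forall fun _ _ _ h _ => h⟩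
  | insert i s _ ih =>
    obtain ⟨d, h1, h2, h3, h4, h5⟩ := ih
    obtain ⟨d', q, p, k1, k2, k3, k4⟩ := (luf n W x).gcd _ _ (hA i) h1 h2
    have k5 : Nz p x := fun k => h2 (by
      filter_upwards [k, k4] with y a b using by rw [b.2.1, a, mul_zero])
    have k6 : Dvd n d' d x := ⟨p, k3, k4.mono fun y a => a.2.1.trans (mul_comm _ _)⟩
    refine ⟨d', k1, fun k => h2 (by
      filter_upwards [k, k4] with y a b using by rw [b.2.1, a, zero_mul]), k6.trans h3,
      Finset.forall_mem_insert _ _ _ |>.2 ⟨⟨q, k2, k4.mono fun y a => a.1.trans (mul_comm _ _)⟩,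
        fun j hj => k6.trans (h4 j hj)⟩, ?_⟩
    filter_upwards [h5, k4.eventually_nhds, k1.near, k2.near, k3.near, h1.near, (hA i).near,
      k5.near k3] with y a b c1 c2 c3 c4 c5 c6 u v hu hv
    have he := at_chart (n := n) y
    have e1 := a u v hu fun j hj => hv j (Finset.mem_insert_of_mem hj)
    have e2 := hv i (Finset.mem_insert_self _ _)
    rw [gr, (gW_eq_iff he c4 (c1.mul c3)).2 (b.mono fun _ k => k.2.1), gW_mul he c1 c3,
      ← mul_assoc] at e1
    rw [gr, (gW_eq_iff he c5 (c1.mul c2)).2 (b.mono fun _ k => k.1), gW_mul he c1 c2,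
      ← mul_assoc] at e2
    exact dvd_of_cop ((cop_iff he c2 c3 c6).1 b.self_of_nhds.2.2) e1 e2

variable (n) in
/-- the germs `A j` have no common factor -/
structure Prim (A : ι → W → ℂ) (y : W) : Prop where
  hol : ∀ j, Hol n (A j) y
  nz : ∃ j, Nz (A j) y
  div : ∀ B : ι → W → ℂ, (∀ j, Hol n (B j) y) →
    (∀ j j', ∀ᶠ z in 𝓝 y, B j z * A j' z = B j' z * A j z) →
    ∃ c, Hol n c y ∧ ∀ j, ∀ᶠ z in 𝓝 y, B j z = c z * A j z

theorem prim [Fintype ι] {A₀ : ι → W → ℂ} (h : ∀ j, Hol n (A₀ j) x) {i : ι} (h0 : Nz (A₀ i) x) :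
    ∃ (d : W → ℂ) (A : ι → W → ℂ), Hol n d x ∧ Nz d x ∧
      ∀ᶠ y in 𝓝 x, (∀ j, A₀ j y = A j y * d y) ∧ Prim n A y := by
  obtain ⟨d, h1, h2, -, h4, h5⟩ := gcdF (h i) h0 h Finset.univ
  choose A hA e using fun j => h4 j (Finset.mem_univ j)
  refine ⟨d, A, h1, h2, ?_⟩
  filter_upwards [h5, (eventually_all.2 e).eventually_nhds, eventually_all.2 fun j => (hA j).near,
    eventually_all.2 fun j => (h j).near, h1.near, h2.near h1, h0.near (h i)]
    with y a b c1 c2 c3 c4 c5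
  have he := at_chart (n := n) y
  have c6 : Nz (A i) y := fun k => c5 (by
    filter_upwards [k, b] with z p q using by rw [q, p, zero_mul])
  refine ⟨b.self_of_nhds, c1, ⟨i, c6⟩, fun B hB k => ?_⟩
  have e1 : ∀ j, gr n y (A₀ j) = gr n y (A j) * gr n y d := fun j => by
    rw [gr, (gW_eq_iff he (c2 j) ((c1 j).mul c3)).2 (b.mono fun _ k => k j), gW_mul he (c1 j) c3]
  have e2 : ∀ j, gr n y (B i) * gr n y (A j) = gr n y (B j) * gr n y (A i) := fun j => by
    rw [← gW_mul he (hB i) (c1 j), ← gW_mul he (hB j) (c1 i)]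
    exact (gW_eq_iff he ((hB i).mul (c1 j)) ((hB j).mul (c1 i))).2 (k i j)
  have e3 : ∀ j, gr n y (A i) * gr n y d ∣ gr n y (B i) * gr n y (A₀ j) := fun j =>
    ⟨gr n y (B j), by rw [e1, ← mul_assoc, e2]; ring⟩
  obtain ⟨γ, e4⟩ := (mul_dvd_mul_iff_right ((gW_ne_zero he c3).2 c4)).1
    (a _ _ (e3 i) fun j _ => e3 j)
  obtain ⟨c, hc, rfl⟩ := gW_surj he γ
  refine ⟨c, hc, fun j => (gW_eq_iff he (hB j) (hc.mul (c1 j))).1 ?_⟩
  rw [gW_mul he hc (c1 j)]
  refine mul_right_cancel₀ ((gW_ne_zero he (c1 i)).2 c6) ((e2 j).symm.trans ?_)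
  rw [e4]
  ring

/-- gluing of germs which are generically determined -/
theorem glueH {V : Set W} (hV : IsOpen V) {Gd : W → Prop} {R P : W → ℂ → Prop}
    (hG : ∀ y ∈ V, ∀ᶠ z in gen {y}, Gd z) (hu : ∀ y a b, Gd y → R y a → R y b → a = b)
    (h : ∀ y ∈ V, ∃ c, Hol n c y ∧ (∀ᶠ z in 𝓝 y, Gd z → R z (c z)) ∧ P y (c y)) :
    ∃ C : W → ℂ, ∀ y ∈ V, Hol n C y ∧ (Gd y → R y (C y)) ∧ P y (C y) := by
  choose! c h1 h2 h3 using h
  refine ⟨fun y => c y y, fun y hy => ⟨(h1 y hy).congr ?_, (h2 y hy).self_of_nhds, h3 y hy⟩⟩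
  filter_upwards [hV.mem_nhds hy, (h1 y hy).near, (h2 y hy).eventually_nhds] with z a b d
  refine eq_of_gen b.cont (h1 z a).cont ?_
  filter_upwards [hG z a, gen_of_nhds d, gen_of_nhds (h2 z a)] with t p q r
    using hu t _ _ p (q p) (r p)

theorem const_of_dd {r : W → ℂ} (h : ∀ᶠ y in 𝓝 x, Hol n r y ∧ ¬ Ind n (fun _ : Fin 1 => r) y) :
    ∀ᶠ y in 𝓝 x, r y = r x := by
  have he := at_chart (n := n) x
  set e := chartAt (Cm n) x
  obtain ⟨ε, h0, hb⟩ := Metric.eventually_nhds_iff_ball.1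
    (((At.ev he).2 (h.and (At.near he))).and (At.right he))
  refine (At.ev he (p := fun y => r y = r x)).1 ?_
  filter_upwards [Metric.ball_mem_nhds _ h0] with z hz
  have k := Metric.isOpen_ball.is_const_of_fderiv_eq_zero (𝕜 := ℂ) (f := fun z => r (e.symm z))
    (convex_ball _ _).isPreconnected (fun w hw => by
      have := (hb w hw).1.1.1 e (hb w hw).1.2
      rw [(hb w hw).2] at this
      exact this.differentiableAt.differentiableWithinAt) (fun w hw => by_contra fun k =>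
      (hb w hw).1.1.2 (Slc.Ind.of_chart (fun _ => (hb w hw).1.1.1) (hb w hw).1.2
        (linearIndependent_unique_iff.2 (by rwa [dd, (hb w hw).2])))) hz
      (Metric.mem_ball_self h0)
  rwa [e.left_inv he.2] at k

end loc

section fib

variable {e n : ℕ} {F X : Type} [TopologicalSpace F] [ChartedSpace (Cm e) F]
  [IsManifold 𝓘(ℂ, Cm e) ω F] [TopologicalSpace X] [ChartedSpace (Cm n) X]
  [IsManifold 𝓘(ℂ, Cm n) ω X] {κ : Type} [Fintype κ] {G : κ → Set X} {i : F → X} {c : κ → ℝ}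
  {L : Bd F}

/-- the sections form a line -/
theorem line [PreconnectedSpace F] (hG : Hyp n G) (hi : HolM e n i) (hL : IsLB e L)
    (h : ¬ Sy e n i L G c 1) {σ s : L.ι → F → ℂ} (hσ : SecP e n i univ L G c σ)
    (h0 : ∃ x, i x ∈ off G ∧ NZ L σ x) (hs : SecP e n i univ L G c s) :
    ∃ a : ℂ, ∀ b, ∀ x ∈ L.U b, i x ∈ off G → s b x = a * σ b x := by
  obtain ⟨x, h1, h2⟩ := h0
  obtain ⟨b, hb⟩ := hL.cover x
  have h3 : ∀ᶠ y in 𝓝 x, i y ∈ off G ∧ y ∈ L.U b ∧ σ b y ≠ 0 := by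
    filter_upwards [hσ.near hG hi.cont hL h1 hb,
      (hσ.hol b x trivial hb h1).ne_near (h2 b hb)] with y p q using ⟨p.1, p.2.1, q⟩
  have h4 := const_of_dd (n := e) (r := fun y => s b y / σ b y) (h3.mono fun y p =>
    ⟨(hs.hol b y trivial p.2.1 p.1).div (hσ.hol b y trivial p.2.1 p.1) p.2.2, fun k =>
      h (sy_of ![σ, s] (Fin.forall_fin_two.2 ⟨hσ, hs⟩) p.1 ⟨b, p.2.1, p.2.2, by
        have : (fun (j : Fin 1) y => ![σ, s] j.succ b y / ![σ, s] 0 b y) =
          fun _ y => s b y / σ b y := by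
          funext j
          rw [Subsingleton.elim j 0]
          rfl
        rwa [this]⟩)⟩)
  have h5 := hs.add (hσ.smul (a := fun _ => -(s b x / σ b x)) fun y _ => hol_const _ y)
  refine ⟨s b x / σ b x, fun b' y hy hy' => by_contra fun k => ?_⟩
  obtain ⟨z, p, q, r⟩ := ((mem_closure_iff_frequently.1 (h5.dense_nz hG hi hL
    ⟨y, hy', (h5.nz_iff hL trivial hy' hy).2 fun j => k (by linear_combination j)⟩ x)).and_eventually
      (h3.and h4)).exists
  refine p.2 b q.2.1 (show s b z + -(s b x / σ b x) * σ b z = 0 from ?_)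
  rw [← r, neg_mul, div_mul_cancel₀ _ q.2.2, add_neg_cancel]

end fib

end Vale.Agent.P281Z.Pk.Eta
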