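import Vale.Agent.P281Z.Pk.EtaA
import Vale.Agent.P281Z.Mf.Fib

/-!
# P281Z, the relative forms: local generators of a direct image of rank one
-/

open scoped Manifold ContDiff Topology Matrix
open Set Filter
open Vale.Agent.P272.K Vale.Agent.P285.H281.FD Vale.Agent.P277Z
open Vale.Agent.P277Z.Slc (Ind LEq Snc)
open Vale.Agent.P277.HD (pull)

set_option linter.unusedSectionVars false

noncomputable section

namespace Vale.Agent.P281Z.Pk.Eta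

/-- the statement `Gr.REL` -/
def REL : Prop :=
  ∀ (n p : ℕ) (V : Mf n) (Y : Mf p) (f : V.X → Y.X) (L : Bd V.X) (κ : Type) [Fintype κ]
    (G : κ → Set V.X) (c : κ → ℝ), HolM n p f → IsLB n L → Snc n G → ∀ y₀ U, IsOpen U → y₀ ∈ U →
    ∀ (k : ℕ) (s : Fin k → L.ι → V.X → ℂ), (∀ j, SecP n n id (f ⁻¹' U) L G c (s j)) →
    ∃ (b : ℕ) (T : Y.X → Matrix (Fin b) (Fin k) ℂ) (h : Y.X → ℂ),
      (∀ i j, Hol p (fun y => T y i j) y₀) ∧ Hol p h y₀ ∧ (∃ᶠ y in 𝓝 y₀, h y ≠ 0) ∧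
      ∀ᶠ y in 𝓝 y₀, h y ≠ 0 → RegAt n p f G y → ∀ a : Fin k → ℂ,
        (∀ x ∈ off G, f x = y → ∀ b, x ∈ L.U b → ∑ j, a j * s j b x = 0) ↔ T y *ᵥ a = 0

variable {n p : ℕ} {M : Fb n p} {L : Bd M.X.X} {c : M.κ → ℝ} {S : Set M.Y.X} {d : ℕ}

variable (L c S d) in
/-- the sections on the fibres over the complement of `S` form a line -/
structure Gv : Prop where
  ok : M.Ok
  dim : n = p + d
  lb : IsLB n L
  thin : Thin p S
  reg : ∀ y ∉ S, RegAt n p M.f M.G y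
  one : ∀ y ∉ S, ∀ (F : Mf d) (i : F.X → M.X.X), Emb d n i (M.f ⁻¹' {y}) →
    Sy d n i (pull i L) M.G c 0 ∧ ¬ Sy d n i (pull i L) M.G c 1

variable (L) in
/-- `τ` is not zero on the fibre -/
def Gn (τ : L.ι → M.X.X → ℂ) (y : M.Y.X) : Prop := ∃ x, M.f x = y ∧ x ∈ off M.G ∧ NZ L τ x

variable (L) in
/-- `τ' = a τ` on the fibre -/
def Rt (τ τ' : L.ι → M.X.X → ℂ) (y : M.Y.X) (a : ℂ) : Prop :=
  ∀ x ∈ off M.G, M.f x = y → ∀ b, x ∈ L.U b → τ' b x = a * τ b x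

theorem Gn.uniq {τ τ' : L.ι → M.X.X → ℂ} {y : M.Y.X} {a a' : ℂ} (hL : IsLB n L) (h : Gn L τ y)
    (k : Rt L τ τ' y a) (k' : Rt L τ τ' y a') : a = a' :=
  let ⟨x, h1, h2, h3⟩ := h
  let ⟨b, hb⟩ := hL.cover x
  mul_right_cancel₀ (h3 b hb) ((k x h2 h1 b hb).symm.trans (k' x h2 h1 b hb))

namespace Gv

variable (h : Gv L c S d) {U U' : Set M.Y.X} {τ τ' : L.ι → M.X.X → ℂ} {y : M.Y.X}
include h

theorem hyp : Hyp n M.G := .of_snc h.ok.snc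

theorem hol : HolM n p M.f := h.ok.fibn.hol

omit h in
theorem res {F : Mf d} {i : F.X → M.X.X} (hi : Emb d n i (M.f ⁻¹' {y})) (hy : y ∈ U)
    (hτ : SecP n n id (M.f ⁻¹' U) L M.G c τ) :
    SecP d n i univ (pull i L) M.G c fun a x => τ a (i x) :=
  (hτ.comp hi.hol).res fun x _ => show M.f (i x) ∈ U from (hi.fib x).symm ▸ hy

theorem conn {F : Mf d} {i : F.X → M.X.X} (hi : Emb d n i (M.f ⁻¹' {y})) : ConnectedSpace F.X :=
  have := h.ok.conn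
  hi.conn.2 (h.ok.fibn.conn_all y)

omit h in
theorem gn {F : Mf d} {i : F.X → M.X.X} (hi : Emb d n i (M.f ⁻¹' {y})) (h0 : Gn L τ y) :
    ∃ x, i x ∈ off M.G ∧ NZ (pull i L) (fun a x => τ a (i x)) x := by
  obtain ⟨x, h1, h2, h3⟩ := h0
  obtain ⟨x, rfl⟩ := hi.ex (y := x) h1
  exact ⟨x, h2, h3⟩

theorem fib_one (hS : y ∉ S) (hy : y ∈ U) (hτ : SecP n n id (M.f ⁻¹' U) L M.G c τ)
    (h0 : Gn L τ y) {F : Mf d} {i : F.X → M.X.X} (hi : Emb d n i (M.f ⁻¹' {y}))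
    {t : L.ι → F.X → ℂ} (ht : SecP d n i univ (pull i L) M.G c t) :
    ∃ a : ℂ, ∀ b x, i x ∈ L.U b → i x ∈ off M.G → t b x = a * τ b (i x) :=
  have := h.conn hi
  line h.hyp hi.hol (hi.hol.lb h.lb) (h.one y hS F i hi).2 (res hi hy hτ) (gn hi h0) ht

theorem fib_rel (hS : y ∉ S) (hy : y ∈ U) (hτ : SecP n n id (M.f ⁻¹' U) L M.G c τ)
    (h0 : Gn L τ y) (hy' : y ∈ U') (hτ' : SecP n n id (M.f ⁻¹' U') L M.G c τ') :
    ∃ a, Rt L τ τ' y a := by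
  obtain ⟨F, i, hi, -⟩ := (h.reg y hS).fib h.dim h.hol h.ok.snc
  obtain ⟨a, ha⟩ := h.fib_one hS hy hτ h0 hi (res hi hy' hτ')
  refine ⟨a, fun x h1 h2 b hb => ?_⟩
  obtain ⟨x, rfl⟩ := hi.ex (y := x) h2
  exact ha b x hb h1

theorem fib_ne (hS : y ∉ S) (hy : y ∈ U) (hτ : SecP n n id (M.f ⁻¹' U) L M.G c τ)
    (h0 : Gn L τ y) {x : M.X.X} (hx : M.f x = y) :
    ∃ᶠ x' in 𝓝 x, M.f x' = y ∧ x' ∈ off M.G ∧ NZ L τ x' := by
  obtain ⟨F, i, hi, -⟩ := (h.reg y hS).fib h.dim h.hol h.ok.snc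
  obtain ⟨x, rfl⟩ := hi.ex (y := x) hx
  have := h.conn hi
  exact (hi.hol.cont.tendsto x).frequently ((mem_closure_iff_frequently.1
    ((res hi hy hτ).dense_nz h.hyp hi.hol (hi.hol.lb h.lb) (gn hi h0) x)).mono fun z k =>
      ⟨hi.fib z, k⟩)

end Gv

variable (L c S) in
/-- local generators `s j = A j • t` -/
structure Ld (y₀ : M.Y.X) where
  U : Set M.Y.X
  k : ℕ
  s : Fin k → L.ι → M.X.X → ℂ
  A : Fin k → M.Y.X → ℂ
  opn : IsOpen U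
  mem : y₀ ∈ U
  ch : ∀ y ∈ U, At (chartAt (Cm p) y₀) y
  sec : ∀ j, SecP n n id (M.f ⁻¹' U) L M.G c (s j)
  gen : ∀ U', IsOpen U' → ∀ t, SecP n n id (M.f ⁻¹' U') L M.G c t → ∀ y ∈ U ∩ U',
    ∃ a : Fin k → M.Y.X → ℂ, (∀ j, Hol p (a j) y) ∧ ∀ᶠ y' in 𝓝 y, ∀ x ∈ off M.G, M.f x = y' →
      ∀ b, x ∈ L.U b → t b x = ∑ j, a j y' * s j b x
  ex : ∀ y ∈ U, y ∉ S → ∃ j, Gn L (s j) y
  prim : ∀ y ∈ U, Prim p A y
  rel : ∀ x ∈ off M.G, M.f x ∈ U → M.f x ∉ S → ∀ b, x ∈ L.U b → ∀ j j',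
    A j (M.f x) * s j' b x = A j' (M.f x) * s j b x

theorem ld (hR : REL) (h : Gv L c S d) {y₀ : M.Y.X} {U : Set M.Y.X} {k : ℕ}
    {s : Fin k → L.ι → M.X.X → ℂ} (h1 : IsOpen U) (h2 : y₀ ∈ U)
    (h3 : ∀ j, SecP n n id (M.f ⁻¹' U) L M.G c (s j))
    (h4 : ∀ U', IsOpen U' → ∀ t, SecP n n id (M.f ⁻¹' U') L M.G c t → ∀ y ∈ U ∩ U',
      ∃ a : Fin k → M.Y.X → ℂ, (∀ j, Hol p (a j) y) ∧ ∀ᶠ y' in 𝓝 y, ∀ x ∈ off M.G, M.f x = y' →
        ∀ b, x ∈ L.U b → t b x = ∑ j, a j y' * s j b x)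
    (h5 : ∀ y ∈ U, y ∉ S → ∀ (F : Mf d) (i : F.X → M.X.X), Emb d n i (M.f ⁻¹' {y}) →
      ∀ t, SecP d n i univ (pull i L) M.G c t → ∃ a : Fin k → ℂ, ∀ x, i x ∈ off M.G →
        ∀ b, i x ∈ L.U b → t b x = ∑ j, a j * s j b (i x)) : Nonempty (Ld L c S y₀) := by
  have ex : ∀ y ∈ U, y ∉ S → ∃ j, Gn L (s j) y := fun y hy hS => by
    obtain ⟨F, i, hi, -⟩ := (h.reg y hS).fib h.dim h.hol h.ok.snc
    obtain ⟨σ, k1, x, k2, k3⟩ := (sy_zero (hi.hol.lb h.lb)).1 (h.one y hS F i hi).1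
    obtain ⟨a, ha⟩ := h5 y hy hS F i hi σ k1
    obtain ⟨b, hb⟩ := h.lb.cover (i x)
    obtain ⟨j, -, hj⟩ := Finset.exists_ne_zero_of_sum_ne_zero (ha x k2 b hb ▸ k3 b hb)
    exact ⟨j, i x, hi.fib x, k2, ((h3 j).nz_iff h.lb (show M.f (i x) ∈ U from
      (hi.fib x).symm ▸ hy) k2 hb).2 (right_ne_zero_of_mul hj)⟩
  obtain ⟨r, T, g, k1, k2, k3, k4⟩ := hR n p M.X M.Y M.f L M.κ M.G c h.hol h.lb h.ok.snc y₀ U h1 h2
    k s h3
  have k5 : Nz g y₀ := not_eventually.2 k3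
  obtain ⟨i, j₀, k6⟩ : ∃ i j, Nz (fun y => T y i j) y₀ := by
    by_contra hc
    simp only [not_exists, Nz, not_not] at hc
    obtain ⟨y, ⟨a1, a2, a3⟩, a4, a5⟩ := ((gen_of_nhds ((eventually_all.2 fun i =>
      eventually_all.2 (hc i)).and (k4.and (h1.mem_nhds h2)))).and
        ((k5.gen k2).and (h.thin.gen y₀))).exists
    obtain ⟨j, x, b1, b2, b3⟩ := ex y a3 a5
    obtain ⟨b, hb⟩ := h.lb.cover x
    have := (a2 a4 (h.reg y a5) (Pi.single j 1)).2 (by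
      rw [show T y = 0 from Matrix.ext a1, Matrix.zero_mulVec]) x b2 b1 b hb
    exact b3 b hb (by simpa [Pi.single_apply] using this)
  obtain ⟨D, A, l1, l2, l3⟩ := prim (k1 i) k6
  have l4 : ∀ᶠ y in 𝓝 y₀, y ∉ S → g y * D y ≠ 0 → ∀ x ∈ off M.G, M.f x = y → ∀ b, x ∈ L.U b →
      ∀ j j', A j y * s j' b x = A j' y * s j b x := by
    filter_upwards [k4, l3, h1.mem_nhds h2] with y a1 a2 a3 a4 a5 x b1 b2 b hb j j'
    obtain ⟨l, hl⟩ := ex y a3 a4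
    choose a ha using fun j => h.fib_rel a4 a3 (h3 l) hl a3 (h3 j)
    have := congrFun ((a1 (left_ne_zero_of_mul a5) (h.reg y a4)
      (Pi.single j (a j') - Pi.single j' (a j))).1 fun z c1 c2 b' hb' => by
        simp only [Pi.sub_apply, sub_mul, Finset.sum_sub_distrib, Pi.single_apply, ite_mul,
          zero_mul, Finset.sum_ite_eq', Finset.mem_univ, if_true]
        rw [ha j z c1 c2 b' hb', ha j' z c1 c2 b' hb']
        ring) i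
    rw [Matrix.mulVec_sub, Matrix.mulVec_single, Matrix.mulVec_single] at this
    simp only [Pi.sub_apply, Pi.smul_apply, Matrix.col_apply, Pi.zero_apply,
      MulOpposite.smul_eq_mul_unop, MulOpposite.unop_op] at this
    rw [a2.1 j, a2.1 j'] at this
    rw [ha j x b1 b2 b hb, ha j' x b1 b2 b hb]
    refine mul_left_cancel₀ (right_ne_zero_of_mul a5) ?_
    linear_combination s l b x * this
  obtain ⟨U', m1, m2, m3⟩ := eventually_nhds_iff.1 (l4.and (l3.and ((h1.eventually_mem h2).and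
    ((At.near (at_chart (n := p) y₀)).and ((k5.mul k2 l1 l2).near (k2.mul l1))))))
  have m4 : U' ⊆ U := fun y hy => (m1 y hy).2.2.1
  refine ⟨⟨U', k, s, A, m2, m3, fun y hy => (m1 y hy).2.2.2.1, fun j => (h3 j).res
    (preimage_mono m4), fun U₁ a t b y hy => h4 U₁ a t b y ⟨m4 hy.1, hy.2⟩,
    fun y hy => ex y (m4 hy), fun y hy => (m1 y hy).2.1.2, fun x a1 a2 a3 b hb j j' => ?_⟩⟩
  have hc : ∀ j j', ContinuousAt (fun x => A j (M.f x) * s j' b x) x := fun j j' =>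
    ((h.hol.hol ((m1 _ a2).2.1.2.hol j)).mul ((h3 j').hol b x (m4 a2) hb a1)).cont
  refine tendsto_nhds_unique_of_frequently_eq (hc j j') (hc j' j)
    (((((h.reg _ a3).sbm h.hol h.ok.snc rfl).freq (h.hol.at x)
      (not_eventually.1 (m1 _ a2).2.2.2.2)).and_eventually ((h.hyp.isOpen.eventually_mem a1).and
        ((lb_near h.lb hb).and (h.hol.cont.continuousAt.eventually
          ((m2.inter h.thin.closed.isOpen_compl).mem_nhds ⟨a2, a3⟩))))).mono ?_)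
  exact fun z k => (m1 _ k.2.2.2.1).1 k.2.2.2.2 k.1 z k.2.1 rfl b k.2.2.1 j j'

namespace Ld

variable {α β : M.Y.X} (D : Ld L c S α) (D' : Ld L c S β) {y : M.Y.X} {x : M.X.X} {b : L.ι}

open Classical in
/-- the generator -/
def t (b : L.ι) (x : M.X.X) : ℂ :=
  if h : ∃ j, D.A j (M.f x) ≠ 0 then D.s h.choose b x / D.A h.choose (M.f x) else 0

/-- the good points -/
def Go : Set M.Y.X := {y | y ∈ D.U ∧ y ∉ S ∧ ∃ j, D.A j y ≠ 0}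

variable {D D'}

theorem eq (hx : M.f x ∈ D.Go) (h1 : x ∈ off M.G) (hb : x ∈ L.U b) (j : Fin D.k) :
    D.s j b x = D.A j (M.f x) * D.t b x := by
  rw [t, dif_pos hx.2.2, ← mul_div_assoc, D.rel x h1 hx.1 hx.2.1 b hb,
    mul_div_cancel_left₀ _ hx.2.2.choose_spec]

theorem go_gen (h : Gv L c S d) (hy : y ∈ D.U) : ∀ᶠ z in P277Z.gen {y}, z ∈ D.Go := by
  obtain ⟨j, hj⟩ := (D.prim y hy).nz
  filter_upwards [gen_of_nhds (D.opn.mem_nhds hy), h.thin.gen y, hj.gen ((D.prim y hy).hol j)]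
    with z a b c using ⟨a, b, j, c⟩

theorem go_open (h : Gv L c S d) : IsOpen D.Go :=
  isOpen_iff_mem_nhds.2 fun y ⟨h1, h2, j, h3⟩ => by
    filter_upwards [D.opn.mem_nhds h1, h.thin.closed.isOpen_compl.mem_nhds h2,
      ((D.prim y h1).hol j).ne_near h3] with z a b c using ⟨a, b, j, c⟩

theorem t_sec (h : Gv L c S d) : SecP n n id (M.f ⁻¹' D.Go) L M.G c D.t := by
  have k : ∀ x b, M.f x ∈ D.Go → x ∈ L.U b → ∃ j, Hol n (fun z => (D.A j (M.f z))⁻¹) x ∧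
      ∀ᶠ z in 𝓝 x, z ∈ off M.G → D.t b z = (D.A j (M.f z))⁻¹ * D.s j b z := fun x b hx hb => by
    obtain ⟨j, hj⟩ := hx.2.2
    have k := h.hol.hol ((D.prim _ hx.1).hol j)
    refine ⟨j, k.inv hj, ?_⟩
    filter_upwards [k.ne_near hj, lb_near h.lb hb, h.hol.cont.continuousAt.eventually
      ((go_open h).mem_nhds hx)] with z a1 a2 a3 a4
    rw [eq a3 a4 a2, inv_mul_cancel_left₀ a1]
  refine ⟨fun b x hx hb h1 => ?_, fun b b' x hx hb hb' h1 => ?_, fun b x hx hb => ?_⟩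
  · obtain ⟨j, k1, k2⟩ := k x b hx hb
    refine (k1.mul ((D.sec j).hol b x hx.1 hb h1)).congr ?_
    filter_upwards [k2, h.hyp.isOpen.mem_nhds h1] with z p q using (p q).symm
  · obtain ⟨j, hj⟩ := hx.2.2
    refine mul_left_cancel₀ hj ?_
    rw [← eq hx h1 hb, (D.sec j).chg b b' x hx.1 hb hb' h1, eq hx h1 hb', mul_left_comm]
  · obtain ⟨j, k1, k2⟩ := k x b hx hb
    exact (((D.sec j).bdP hx.1 hb).cmul k1.cont).congr k2

theorem t_gn (hy : y ∈ D.Go) : Gn L D.t y := by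
  obtain ⟨j, x, rfl, h1, h2⟩ := D.ex y hy.1 hy.2.1
  exact ⟨x, rfl, h1, fun b hb => right_ne_zero_of_mul (eq hy h1 hb j ▸ h2 b hb)⟩

theorem loc (h : Gv L c S d) (hy : y ∈ D.U ∩ D'.U) : ∃ C, Hol p C y ∧
    (∀ᶠ z in 𝓝 y, z ∈ D.Go ∩ D'.Go → Rt L D.t D'.t z (C z)) ∧
    ((∀ l, D.A l y = 0) → ∀ j, C y * D'.A j y = 0) := by
  choose a h1 h2 using fun j => D.gen D'.U D'.opn _ (D'.sec j) y hy
  have h3 : ∀ᶠ z in 𝓝 y, z ∈ D.Go → ∀ j, Rt L D.t (D'.s j) z (∑ l, a j l z * D.A l z) := by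
    filter_upwards [eventually_all.2 h2] with z p q j x b1 b2 b hb
    subst b2
    rw [p j x b1 rfl b hb, Finset.sum_mul]
    exact Finset.sum_congr rfl fun l _ => by rw [eq q b1 hb, mul_assoc]
  have h4 : ∀ j, Hol p (fun z => ∑ l, a j l z * D.A l z) y := fun j =>
    Hol.sum _ fun l _ => (h1 j l).mul ((D.prim y hy.1).hol l)
  have h5 := D'.prim y hy.2
  obtain ⟨C, k1, k2⟩ := h5.div _ h4 fun j j' =>
    ((h4 j).mul (h5.hol j')).eq_of_gen ((h4 j').mul (h5.hol j)) (by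
      filter_upwards [gen_of_nhds h3, go_gen h hy.1, go_gen h hy.2] with z p q r
      obtain ⟨x, rfl, b1, b2⟩ := t_gn q
      obtain ⟨b, hb⟩ := h.lb.cover x
      have e := D'.rel x b1 r.1 r.2.1 b hb j j'
      rw [p q j x b1 rfl b hb, p q j' x b1 rfl b hb] at e
      exact mul_right_cancel₀ (b2 b hb) (by linear_combination -e))
  refine ⟨C, k1, ?_, fun k j => ?_⟩
  · filter_upwards [h3, eventually_all.2 k2] with z p q r x b1 b2 b hb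
    subst b2
    obtain ⟨j, hj⟩ := r.2.2.2
    refine mul_left_cancel₀ hj ?_
    rw [← eq r.2 b1 hb, p r.1 j x b1 rfl b hb, q j]
    ring
  · rw [← (k2 j).self_of_nhds]
    simp [k]

end Ld

/-- the cocycle -/
theorem cocycle (h : Gv L c S d) (D : ∀ y, Ld L c S y) : ∃ C : M.Y.X → M.Y.X → M.Y.X → ℂ,
    (∀ α β, ∀ y ∈ (D α).U, y ∈ (D β).U → Hol p (C α β) y ∧ C α β y ≠ 0 ∧
      (y ∈ (D α).Go → y ∈ (D β).Go → Rt L (D α).t (D β).t y (C α β y)) ∧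
      ∀ γ, y ∈ (D γ).U → C α β y * C β γ y = C α γ y) ∧
    ∃ Q, Thin p Q ∧ ∀ α, ∀ y ∈ (D α).U, y ∉ Q ↔ y ∈ (D α).Go := by
  choose C hC using fun α β => glueH (n := p) ((D α).opn.inter (D β).opn)
    (Gd := fun z => z ∈ (D α).Go ∩ (D β).Go) (R := Rt L (D α).t (D β).t)
    (P := fun y a => (∀ l, (D α).A l y = 0) → ∀ j, a * (D β).A j y = 0)
    (fun y hy => (Ld.go_gen h hy.1).and (Ld.go_gen h hy.2))
    (fun y a b k => (Ld.t_gn k.1).uniq h.lb) fun y hy => Ld.loc h hy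
  have h1 : ∀ α β γ, ∀ y ∈ (D α).U, y ∈ (D β).U → y ∈ (D γ).U → C α β y * C β γ y = C α γ y :=
    fun α β γ y a b c => eq_of_gen ((hC α β y ⟨a, b⟩).1.mul (hC β γ y ⟨b, c⟩).1).cont
      (hC α γ y ⟨a, c⟩).1.cont (by
        filter_upwards [Ld.go_gen h a, Ld.go_gen h b, Ld.go_gen h c] with z p q r
        refine (Ld.t_gn p).uniq h.lb (fun x b1 b2 b hb => ?_) ((hC α γ z ⟨p.1, r.1⟩).2.1 ⟨p, r⟩)
        rw [(hC β γ z ⟨q.1, r.1⟩).2.1 ⟨q, r⟩ x b1 b2 b hb,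
          (hC α β z ⟨p.1, q.1⟩).2.1 ⟨p, q⟩ x b1 b2 b hb]
        ring)
  have h2 : ∀ α, ∀ y ∈ (D α).U, C α α y = 1 := fun α y a =>
    eq_of_gen (hC α α y ⟨a, a⟩).1.cont continuousAt_const (by
      filter_upwards [Ld.go_gen h a] with z p using (Ld.t_gn p).uniq h.lb
        ((hC α α z ⟨p.1, p.1⟩).2.1 ⟨p, p⟩) fun x _ _ b _ => (one_mul _).symm)
  have h3 : ∀ α β, ∀ y ∈ (D α).U, y ∈ (D β).U → C α β y ≠ 0 := fun α β y a b =>
    left_ne_zero_of_mul_eq_one ((h1 α β α y a b a).trans (h2 α y a))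
  have h4 : ∀ β, ∀ y ∈ (D β).U, (∃ α, y ∈ (D α).U ∧ ∀ j, (D α).A j y = 0) ↔
      ∀ j, (D β).A j y = 0 := fun β y b => ⟨fun ⟨α, a, k⟩ j =>
    (mul_eq_zero.1 ((hC α β y ⟨a, b⟩).2.2 k j)).resolve_left (h3 α β y a b), fun k => ⟨β, b, k⟩⟩
  have h5 : ∀ y, ∀ᶠ z in 𝓝 y, z ∈ {y | ∃ α, y ∈ (D α).U ∧ ∀ j, (D α).A j y = 0} ↔
      ∀ j, (D y).A j z = 0 := fun y => by
    filter_upwards [(D y).opn.mem_nhds (D y).mem] with z hz using h4 y z hz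
  refine ⟨C, fun α β y a b => ⟨(hC α β y ⟨a, b⟩).1, h3 α β y a b, fun p q =>
    (hC α β y ⟨a, b⟩).2.1 ⟨p, q⟩, fun γ => h1 α β γ y a b⟩, _, h.thin.union (thin_of_nz
      (fun y => ⟨_, (D y).A, ((D y).prim y (D y).mem).hol, h5 y⟩) fun y => ?_), fun α y a => ?_⟩
  · obtain ⟨j, hj⟩ := ((D y).prim y (D y).mem).nz
    exact ⟨_, ((D y).prim y (D y).mem).hol j, hj, (h5 y).mono fun z p q => p.1 q j⟩
  · rw [mem_union, not_or, mem_ofPred_eq, h4 α y a, not_forall]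
    exact ⟨fun k => ⟨a, k⟩, fun k => k.2⟩

end Vale.Agent.P281Z.Pk.Eta
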