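import Vale.Agent.P281Z.Pk.Sk

/-!
# P281Z, the canonical bundle formula: statements for the case of finite mass
-/

open scoped Manifold ContDiff Topology ENNReal Matrix
open Set Filter MeasureTheory
open Vale.Agent.P272.K Vale.Agent.P285.H281.FD
open Vale.Agent.P277Z (Hol Mer Nz)
open Vale.Agent.P281Z.Hg (PC IsPC fdet RelHol FibHol FibItg)

noncomputable section

namespace Vale.Agent.P281Z.Pk

/-- `t` is a holomorphic form of top degree on `O` -/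
structure Tf {n : ℕ} {V : Mf n} (O : Set V.X) (t : Chart n V.X → V.X → ℂ) : Prop where
  hol : ∀ c, ∀ x ∈ O, At c x → Hol n (t c) x
  chg : ∀ c c', ∀ x ∈ O, At c x → At c' x → t c x = (jacM c c' x).det * t c' x

/-- the relative form `t / dχ` -/
def rf {w e : ℕ} {X : Mf (w + e)} {W : Mf w} (χ : Chart w W.X) (g : X.X → W.X)
    (t : Chart (w + e) X.X → X.X → ℂ) : PC w e X.X W.X → Cm w × Cm e → ℂ :=
  fun q k => rl 1 χ g t q (q.2.symm k)

/-- **RLH** -/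
def RLH : Prop := ∀ (w e : ℕ) (X : Mf (w + e)) (W : Mf w) (g : X.X → W.X) (χ : Chart w W.X)
  (V : Set W.X) (t : Chart (w + e) X.X → X.X → ℂ), HolM (w + e) w g → IsOpen V →
  (∀ y ∈ V, At χ y) → Tf (g ⁻¹' V) t → RelHol g V (rf χ g t)

/-- **GEXT**: holomorphic top forms on general fibres extend -/
def GEXT : Prop := ∀ (w e : ℕ) (X : Mf (w + e)) (W : Mf w) (g : X.X → W.X), ConnectedSpace W.X →
  HolM (w + e) w g → ∃ S, Thin w S ∧ ∀ y ∉ S, ∀ χ, At χ y → ∀ σ : PC w e X.X W.X → Cm e → ℂ,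
    FibHol g y σ → ∃ V s, IsOpen V ∧ y ∈ V ∧ Tf (g ⁻¹' V) s ∧
      ∀ q x, IsPC g q → x ∈ q.2.source → g x = y → σ q (q.2 x).2 = rl 1 χ g s q x

/-- **EXT0**: forms of finite mass extend across the divisors -/
def EXT0 : Prop := ForC fun w d B C => C.Kl →
  ∃ t' : B.l.ι → Chart (w + d) C.X.X → C.X.X → ℂ, ∀ i, Tf (C.g ⁻¹' (B.l.U i \ C.Q)) (t' i) ∧
    ∀ c x, C.g x ∈ B.l.U i \ C.Q → x ∈ off C.G → At c x → t' i c x = C.t i c x

/-- **ITG**: fibre integrals of products of forms -/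
def ITG : Prop := ∀ (w d : ℕ) (B : Bs w) (C : Et B d 1), C.Geo → ∀ i, ∀ y ∈ B.l.U i, y ∉ C.Q →
  C.J i 0 y < ⊤ → 0 < C.J i 0 y ∧ ∀ (V : Set B.W.X) (t' s : Chart (w + d) C.X.X → C.X.X → ℂ)
    (φ : C.X.X → ℂ), IsOpen V → y ∈ V → V ⊆ B.l.U i \ C.Q → Tf (C.g ⁻¹' V) t' → Tf (C.g ⁻¹' V) s →
    (∀ c x, C.g x ∈ V → x ∈ off C.G → At c x → t' c x = C.t i c x ∧ s c x = φ x * C.t i c x) →
    (∀ x ∈ off C.G, C.g x ∈ V → ContinuousAt φ x) → C.L2 i y φ ∧ Integrable φ (C.ν i y) ∧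
    ∀ I, FibItg C.g y (fun q z => star (rf (B.ch i) C.g t' q (q.1 y, z)) *
      rf (B.ch i) C.g s q (q.1 y, z)) I → I = ∫ x, φ x ∂C.ν i y

end Vale.Agent.P281Z.Pk
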