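import Vale.Agent.P281Z.Pk.Nu
import Vale.Agent.P281Z.Pk.Lv0S
import Vale.Agent.P281Z.Sc.L2

/-!
# P281Z, the canonical bundle formula: forms of finite mass extend across the divisors
-/

open scoped Manifold ContDiff Topology ENNReal
open Set Filter MeasureTheory Function
open Vale.Agent.P272.K Vale.Agent.P285.H281.FD
open Vale.Agent.P277Z (Hol at_chart hol_const)
open Vale.Agent.P277Z.Slc (Ind LEq isLB_can)
open Vale.Agent.P281Z.Hg (PC IsPC fdet)

noncomputable section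

namespace Vale.Agent.P281Z.Pk

open Mg

/-- product charts which contain given functions as fibre coordinates -/
theorem Mg.ex_apc {w e : ℕ} {X Y α : Type} [TopologicalSpace X] [ChartedSpace (Cm (w + e)) X]
    [IsManifold 𝓘(ℂ, Cm (w + e)) ω X] [TopologicalSpace Y] [ChartedSpace (Cm w) Y]
    [IsManifold 𝓘(ℂ, Cm w) ω Y] {g : X → Y} {x : X} {χ : Chart w Y} {h : α → X → ℂ}
    (hg : ContinuousAt g x) (hχ : At χ (g x))
    (hi : Ind (w + e) (Sum.elim h fun (a : Fin w) z => χ (g z) a) x) {U : Set X} (hU : U ∈ 𝓝 x) :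
    ∃ (q : PC w e X Y) (j : α → Fin e), IsPC g q ∧ q.1 = χ ∧ x ∈ q.2.source ∧ q.2.source ⊆ U ∧
      Injective j ∧ ∀ y ∈ q.2.source, ∀ a, (q.2 y).2 (j a) = h a y := by
  obtain ⟨c, j, h1, h2, h3, h4, h5⟩ := exists_chart hi (inter_mem hU (hg.eventually (at_near hχ)))
  obtain ⟨σ, hσ⟩ := Equiv.Perm.exists_extending_pair (Fin.castAdd e) (fun a => j (.inr a))
    (Fin.castAdd_injective _ _) (h4.comp Sum.inr_injective)
  have k : ∀ a, ∃ k, σ (Fin.natAdd w k) = j (.inl a) := fun a => by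
    obtain ⟨b, hb⟩ := σ.surjective (j (.inl a))
    induction b using Fin.addCases with
    | left b => exact absurd (h4 ((hσ b).symm.trans hb)) Sum.inr_ne_inl
    | right b => exact ⟨b, hb⟩
  choose k hk using k
  refine ⟨(χ, c.transHomeomorph (((LinearEquiv.funCongrLeft ℂ ℂ σ).toContinuousLinearEquiv.trans
    (apL w e).symm).toHomeomorph)), k, pc_of_co (h1.trans _) hχ.1 fun y hy =>
      ⟨(h3 hy).2.2, funext fun a => ?_⟩, rfl, h2, fun y hy => (h3 hy).1, fun a b e => ?_,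
    fun y hy a => ?_⟩
  · exact (congrArg (c y) (hσ a)).trans (h5 y hy _)
  · exact Sum.inl_injective (h4 (by rw [← hk, ← hk, e]))
  · exact (congrArg (c y) (hk a)).trans (h5 y hy _)

/-- **RLH** -/
theorem rlh : RLH := fun w e X W g χ V t hg hV hχ ht =>
  ⟨fun q x hq hx hx' => (pc_co hq).an_hol (q.2.map_source hx) (by
      rw [q.2.left_inv hx]
      exact rl_hol (hg.at x) (((hV.preimage hg.cont).eventually_mem hx').mono fun y hy c c' a b =>
        by rw [pow_one, ht.chg c c' y hy a b]) (ht.hol _ x hx' (at_chart x)) hq hx (hχ _ hx')),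
    fun q q' x hq hq' hx hx' hy => by
      rw [rf, rf, q.2.left_inv hx, q'.2.left_inv hx', rl_chg hq hq' hx hx' (hχ _ hy), pow_one]⟩

/-- the orders along the divisors which meet good fibres are not negative -/
theorem ord_nonneg {w d : ℕ} {B : Bs w} {C : Et B d 1} (h : C.Geo) (hK : C.Kl) {a : C.κ → ℤ}
    {i : B.l.ι} {x : C.X.X} (hx : C.g x ∈ B.l.U i \ C.Q)
    (ho : OrdAt (w + d) C.G a (C.t i (chartAt (Cm (w + d)) x)) x) {l : C.κ} (hl : x ∈ C.G l) :
    0 ≤ a l := by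
  classical
  obtain ⟨ξ, hξ, hI⟩ := h.snc x
  obtain ⟨b, h1, -, h3, h4⟩ := ho ξ hξ
  have hc := at_chart (n := w + d) x
  generalize chartAt (Cm (w + d)) x = c at hc h3
  obtain ⟨z, ⟨m1, m2, m3⟩, m4, m5, m6, m7, m8⟩ := (((Md.gen_pt hξ hI hl h1
    (not_dvd_of (hξ l) (h4 l hl))).self_of_nhds hl).and_eventually
    ((eventually_all.2 fun l => (hξ l).near).and (h1.near.and (h3.eventually_nhds.and
      ((at_near hc).and (((h.oU i).preimage h.hol.cont).eventually_mem hx)))))).exists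
  have hχ := h.base.ch i _ m8.1
  obtain ⟨q, j, a1, -, a3, -, -, a6⟩ := ex_apc h.hol.cont.continuousAt hχ
    (h.reg _ m8.2 z rfl _ hχ ξ m4) univ_mem
  have b0 := (pc_at a1 a3).2
  have P := par_pc a1 b0
  have hp := P.inv z rfl a3
  set σ : Cm d → C.X.X := fun v => q.2.symm (q.1 (C.g z), v)
  set k := j ⟨l, m1⟩
  have hT := P.oT.mem_nhds hp.1
  have hσ : Tendsto σ (𝓝 (q.2 z).2) (𝓝 z) := by
    have e := P.cont.continuousAt hT
    rwa [ContinuousAt, show σ (q.2 z).2 = z from hp.2] at e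
  have b1 : ∫⁻ v in {v | (q.1 (C.g z), v) ∈ q.2.target},
      fmm 1 (C.O i) (B.ch i) C.g (C.t i) q (σ v) < ⊤ := by
    have e := (h.nu m8.1 m8.2).1.2 q a1 b0 _ (measurable_one.indicator q.2.open_source.measurableSet)
      fun x hx => indicator_of_notMem hx _
    rw [setLIntegral_congr_fun P.oT.measurableSet fun v hv => by
      rw [indicator_of_mem (P.mem v hv).2.1, Pi.one_apply, one_mul]] at e
    rw [← e]
    refine lt_of_le_of_lt (lintegral_mono fun x => ?_) (hK i _ m8.1 m8.2)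
    simpa [Et.wt] using indicator_le_self (M := ℝ≥0∞) q.2.source 1 x
  have b2 : ∀ᶠ v in 𝓝 (q.2 z).2, v k = ξ l (σ v) ∧ (v k ≠ 0 → σ v ∈ C.O i) := by
    filter_upwards [hT, hσ.eventually (off_iff m4), hσ.eventually (eventually_all.2 fun l' :
      {l' // l' ≠ l} => (m4 l').hol.ne_near (m3 l' l'.2))] with v c1 c2 c3
    obtain ⟨d1, d2, d3⟩ := P.mem v c1
    have e : v k = ξ l (σ v) := (congrFun d3 k).symm.trans (a6 _ d2 _)
    refine ⟨e, fun c4 => ⟨by rw [mem_preimage, show C.g (σ v) = _ from d1]; exact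
      ⟨m8.1, mt (h.sub ·) m8.2⟩, c2.2 fun l' => ?_⟩⟩
    by_cases c5 : l' = l
    · exact c5 ▸ e ▸ c4
    · exact c3 ⟨l', c5⟩
  have b3 := Sc.small (f := fun v => rl 1 (B.ch i) C.g (C.t i) q (σ v)) (T := {k}) (γ := 0) two_pos
    (Finset.singleton_nonempty k) (by simpa using (a6 z a3 _).trans ((m4 l).mem.2 m1)) hT b1 (by
      filter_upwards [hT, b2] with v c1 c2 c3
      obtain ⟨-, d2, -⟩ := P.mem v c1
      have c4 := c2.2 (c3 k (Finset.mem_singleton_self k))
      have e := (pc_co a1).an_hol c1 (h.rlh c4 a1 d2)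
      refine ⟨e.fun_comp (f := fun v => (q.1 (C.g z), v)) (analyticAt_const.prod analyticAt_id), ?_⟩
      simp [fmm, indicator_of_mem c4])
  by_contra! hc'
  have : (𝓝[{v : Cm d | ∀ i ∈ ({k} : Finset (Fin d)), v i ≠ 0}] (q.2 z).2).NeBot :=
    mem_closure_iff_nhdsWithin_neBot.1 (by
      simp only [Finset.mem_singleton, forall_eq]
      exact (dense_compl_singleton (0 : ℂ)).preimage (isOpenMap_eval k) (q.2 z).2)
  let u : C.X.X → ℂ := fun y => (b y * ∏ l' ∈ Finset.univ.erase l, ξ l' y ^ a l') *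
    ((jacM (qc q) c y).det * (jacM (B.ch i) q.1 (C.g y)).det)
  have c1 : Hol (w + d) u z := (m5.mul (Hol.prod _ fun l' m => (m4 l').hol.zpow
    (m3 l' (Finset.ne_of_mem_erase m)) _)).mul ((jd_hol (qc_co a1) (co_chart m7.1) a3 m7.2).mul
      (h.hol.hol (jd_hol (co_chart hχ.1) (co_chart a1.1) hχ.2 b0)))
  have c2 : u z ≠ 0 := mul_ne_zero (mul_ne_zero m2 (Finset.prod_ne_zero_iff.2 fun l' m =>
    zpow_ne_zero _ (m3 l' (Finset.ne_of_mem_erase m)))) (mul_ne_zero
      (jd_ne (qc_co a1) (co_chart m7.1) a3 m7.2) (jd_ne (co_chart hχ.1) (co_chart a1.1) hχ.2 b0))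
  refine absurd (le_of_tendsto_of_tendsto (((c1.cont.norm.pow 2).tendsto.comp hσ).mono_left
    nhdsWithin_le_nhds) b3 (eventually_nhdsWithin_iff.2 ?_))
    (not_le.2 (pow_pos (norm_pos_iff.2 c2) 2))
  filter_upwards [hT, b2, hσ.eventually m6, hσ.eventually (at_near m7), hσ.eventually
    ((m4 l).hol.cont.norm.eventually (gt_mem_nhds (a := 1) (by simp [(m4 l).mem.2 m1])))]
    with v r1 r2 r3 r4 r5 r6
  have r7 := r6 k (Finset.mem_singleton_self k)
  have r8 := r2.2 r7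
  have r9 : rl 1 (B.ch i) C.g (C.t i) q (σ v) * v k = u (σ v) * v k ^ (a l + 1) := by
    rw [rl_eq (fun c c' => h.tchg i c c' _ r8) a1 (P.mem v r1).2.1 r4, r3 r8.2,
      ← Finset.mul_prod_erase _ _ (Finset.mem_univ l), ← r2.1, zpow_add_one₀ r7]
    ring
  simp only [Finset.prod_singleton, Pi.zero_apply, zero_add, Real.rpow_two, comp_apply,
    Pi.pow_apply]
  rw [← mul_pow, ← norm_mul, r9, norm_mul (u _), norm_zpow]
  exact pow_le_pow_left₀ (norm_nonneg _) (le_mul_of_one_le_right (norm_nonneg _)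
    (one_le_zpow_of_nonpos₀ (norm_pos_iff.2 r7) (r2.1 ▸ r5.le) (by omega))) 2

/-- **EXT0** -/
theorem ext0 : EXT0 := fun w d B C h hK => by
  obtain ⟨a, ha⟩ := h.ord
  have hG := h.toGeo
  have hH := Hyp.of_snc hG.snc
  have k : ∀ i x, C.g x ∈ B.l.U i \ C.Q → x ∈ off C.G → x ∈ C.O i := fun i x a b =>
    ⟨⟨a.1, mt (hG.sub ·) a.2⟩, b⟩
  choose t' h1 h2 h3 using fun i => SecP.ext (L := Bd.can (w + d) C.X.X) (s := C.t i)
    (c := fun _ => 0) hG.snc isLB_can ((hG.oU i).preimage hG.hol.cont)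
    ⟨fun c x p q r => hG.thol i c x (k i x p r) q,
      fun c c' x p q q' r => (hG.tchg i c c' x (k i x p r) q q').trans (by rw [pow_one]; rfl),
      fun c x p q => (ha i c x p.1 q).bdP hH fun l hl => by
        simpa using ord_nonneg hG hK p (ha i _ x p.1 (at_chart x)) hl⟩ fun _ => one_pos
  exact ⟨t', fun i => ⟨⟨h1 i, h2 i⟩, fun c x p q r => h3 i c x p r q⟩⟩

end Vale.Agent.P281Z.Pk
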