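import Vale.Agent.P281Z.Pk.Lv0S
import Vale.Agent.P281Z.Pk.Rl

/-!
# P281Z, the canonical bundle formula: top forms on general fibres extend
-/

open scoped Manifold ContDiff Topology
open Set Filter
open Vale.Agent.P272.K Vale.Agent.P285.H281.FD
open Vale.Agent.P277Z (Hol at_chart hol_const)
open Vale.Agent.P277Z.Slc (Snc isLB_can)
open Vale.Agent.P277.HD (pull)
open Vale.Agent.P281Z.Hg (PC IsPC fdet FibHol)

noncomputable section

namespace Vale.Agent.P281Z.Pk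

namespace Gx

open Mg

variable {w e : ℕ} {X : Mf (w + e)} {W : Mf w} {g : X.X → W.X} {q q' : PC w e X.X W.X} {x : X.X}
  {χ : Chart w W.X} {c c' : Chart (w + e) X.X} {σ : PC w e X.X W.X → Cm e → ℂ} {y : W.X}

/-- the Jacobian factor -/
def jf (g : X.X → W.X) (χ : Chart w W.X) (q : PC w e X.X W.X) (c : Chart (w + e) X.X) (x : X.X) :
    ℂ := (jacM (qc q) c x).det * (jacM χ q.1 (g x)).det

theorem jf_ne (hq : IsPC g q) (hx : x ∈ q.2.source) (hχ : At χ (g x)) (hc : At c x) :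
    jf g χ q c x ≠ 0 :=
  mul_ne_zero (jd_ne (qc_co hq) (co_chart hc.1) hx hc.2)
    (jd_ne (co_chart hχ.1) (co_chart hq.1) hχ.2 (pc_at hq hx).2)

theorem jf_q (hq : IsPC g q) (hq' : IsPC g q') (hx : x ∈ q.2.source) (hx' : x ∈ q'.2.source)
    (hχ : At χ (g x)) (hc : At c x) : jf g χ q c x = fdet q q' x * jf g χ q' c x := by
  have a := pc_at hq hx
  have a' := pc_at hq' hx'
  rw [jf, jf, jd_mul (qc_co hq) (qc_co hq') (co_chart hc.1) hx hx' hc.2, jd_qc hq hq' hx hx',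
    jd_mul (co_chart hχ.1) (co_chart a.1) (co_chart a'.1) hχ.2 a.2 a'.2]
  ring

theorem jf_c (hq : IsPC g q) (hx : x ∈ q.2.source) (hc : At c x) (hc' : At c' x) :
    jf g χ q c' x = (jacM c c' x).det * jf g χ q c x := by
  rw [jf, jf, jd_mul (qc_co hq) (co_chart hc.1) (co_chart hc'.1) hx hc.2 hc'.2]
  ring

theorem jf_hol (hg : HolA (w + e) w g x) (hq : IsPC g q) (hx : x ∈ q.2.source) (hχ : At χ (g x))
    (hc : At c x) : Hol (w + e) (jf g χ q c) x :=
  (jd_hol (qc_co hq) (co_chart hc.1) hx hc.2).mul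
    (hg.hol (jd_hol (co_chart hχ.1) (co_chart hq.1) hχ.2 (pc_at hq hx).2))

theorem indep (hσ : FibHol g y σ) (hq : IsPC g q) (hq' : IsPC g q') (hx : x ∈ q.2.source)
    (hx' : x ∈ q'.2.source) (hy : g x = y) (hχ : At χ (g x)) (hc : At c x) :
    σ q (q.2 x).2 / jf g χ q c x = σ q' (q'.2 x).2 / jf g χ q' c x := by
  have h := jf_ne hq hx hχ hc
  rw [jf_q hq hq' hx hx' hχ hc] at h ⊢
  rw [hσ.ch q q' x hq hq' hx hx' hy, mul_div_mul_left _ _ (left_ne_zero_of_mul h)]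

end Gx

open Mg Gx in
theorem gext_of (h : GR) : GEXT := by
  intro w e X W g hW hg
  have h0 : Snc (w + e) (Empty.elim : Empty → Set X.X) := fun _ =>
    ⟨Empty.elim, fun l => l.elim, fun l => l.1.elim, fun _ _ => linearIndependent_empty_type⟩
  have ho : ∀ x : X.X, x ∈ off (Empty.elim : Empty → Set X.X) := fun _ l => l.elim
  obtain ⟨S, ρ, hS, hR, hU⟩ := h _ _ X W g _ Empty _ Empty.elim hW hg isLB_can h0
  refine ⟨S, hS, fun y hy χ hχ σ hσ => ?_⟩
  obtain ⟨U, k, s, u1, u2, u3, -, u4⟩ := hU y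
  have sb : ∀ x, g x = y → Sbm (w + e) w g x := fun x hx => (hR y hy).sbm hg h0 hx
  obtain ⟨F, i, hi⟩ := fib_emb (d := e) rfl hg sb
  have hχ' : ∀ a, At χ (g (i a)) := fun a => (hi.fib a).symm ▸ hχ
  choose Q Q1 _ Q2 _ using fun a => ex_pc (hg.at (i a)) (sb _ (hi.fib a)) (hχ' a) univ_mem
  obtain ⟨a, ha⟩ := (u4 y u2 hy).1 e F i hi
    (fun c a => σ (Q a) ((Q a).2 (i a)).2 / jf g χ (Q a) c (i a))
    (secP_of_hol hi.hol.cont (fun c a _ (hc : At c (i a)) => by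
      have k1 : AnV e (fun b => ((Q a).2 (i b)).2) a := AnV.pi fun j => (hi.hol.at a).hol
        ((((pc_co (Q1 a)).an _ (Q2 a)).cmp analyticAt_snd).hol j)
      have k2 : Hol e (fun b => σ (Q a) ((Q a).2 (i b)).2) a :=
        k1.cmp (hσ.hol _ _ (Q1 a) (Q2 a) (hi.fib a))
      refine (k2.div ((hi.hol.at a).hol (jf_hol (hg.at _) (Q1 a) (Q2 a) (hχ' a) hc))
        (jf_ne (Q1 a) (Q2 a) (hχ' a) hc)).congr ?_
      filter_upwards [hi.hol.cont.continuousAt.eventually ((Q a).2.open_source.mem_nhds (Q2 a)),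
        hi.hol.cont.continuousAt.eventually (at_near hc)] with b b1 b2
        using indep hσ (Q1 a) (Q1 b) b1 (Q2 b) (hi.fib b) (hχ' b) b2)
      (fun c c' a _ (hc : At c (i a)) (hc' : At c' (i a)) => by
        change _ = (jacM c c' (i a)).det * _
        rw [jf_c (Q1 a) (Q2 a) hc hc', ← mul_div_assoc, mul_div_mul_left _ _
          (jd_ne (co_chart hc.1) (co_chart hc'.1) hc.2 hc'.2)]) fun l => l.elim)
  have tf : Tf (g ⁻¹' U) fun c x => ∑ j, a j * s j c x :=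
    ⟨fun c x hx hc => .sum _ fun j _ => (hol_const _ _).mul ((u3 j).hol c x hx hc (ho x)),
      fun c c' x hx hc hc' => by
        rw [Finset.mul_sum]
        exact Finset.sum_congr rfl fun j _ => by
          rw [(u3 j).chg c c' x hx hc hc' (ho x), mul_left_comm]
          rfl⟩
  refine ⟨U, _, u1, u2, tf, fun q x hq hx hxy => ?_⟩
  obtain ⟨b, rfl⟩ : x ∈ range i := hi.rng ▸ hxy
  have hc := at_chart (n := w + e) (i b)
  rw [rl, ← ha b (ho _) _ hc, pow_one, ← indep hσ hq (Q1 b) hx (Q2 b) hxy (hχ' b) hc]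
  exact (div_mul_cancel₀ _ (jf_ne hq hx (hχ' b) hc)).symm

end Vale.Agent.P281Z.Pk
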