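import Vale.Agent.P281Z.Pk.Sk
import Vale.Agent.P281Z.Hm.Br
import Vale.Agent.P281Z.Hm.Id
import Vale.Agent.P281Z.Mf.Mod

/-!
# P281Z, the canonical bundle formula: the line on a covering, and its pull back
-/

open scoped Manifold ContDiff Topology Matrix
open Set Filter Matrix
open Vale.Agent.P272.K Vale.Agent.P285.H281.FD
open Vale.Agent.P277Z (Hol Nz at_chart)
open Vale.Agent.P277.HD (pull)
open Vale.Agent.P281Z.Hm (Cv GV Ln cz hn gH LnAt cz_mul cz_one hn_conj hn_smul)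

noncomputable section

namespace Vale.Agent.P281Z.Pk.Hl

variable {w n k : ℕ} {W V : Mf w} {U : Set W.X} {D : Hg.Loc w n k U} {l : Bd W.X}
  {ψ : l.ι → W.X → W.X → Fin n → ℂ} {E : Type} [NormedAddCommGroup E] [NormedSpace ℂ E]

theorem lift_near {C : Cv W.X U} {f : E → C.X} {z : E} (hf : C.Lift w f z) :
    ∀ᶠ s in 𝓝 z, C.Lift w f s := by
  have hc := (Hm.Br.loc C).continuous
  filter_upwards [hf.1.eventually_nhds, (hc.continuousAt.comp hf.1.self_of_nhds).eventually_mem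
    (chart_source_mem_nhds (Cm w) _), hf.2.eventually_analyticAt] with s a b c
  exact ⟨a, Hm.Br.change (hc.continuousAt.comp a.self_of_nhds) b (mem_chart_source _ _) c⟩

theorem hN_eq (h : Lin D l ψ) {i : l.ι} {a y : W.X} (ha : y ∈ D.N a) (hi : y ∈ l.U i) :
    hN D ψ i y = hn (D.Q a) (ψ i a y) := by
  have h0 := D.mem y (D.sub a ha)
  rw [hN, D.chQ a y y ha h0, hn_conj, ← (h.sec i).ch a y y ha h0 hi]

theorem hN_cont (h : Lin D l ψ) (hl : IsLB w l) {i : l.ι} {y : W.X} (hy : y ∈ U)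
    (hi : y ∈ l.U i) : ContinuousAt (hN D ψ i) y := by
  have h0 := D.mem y hy
  have he := at_chart (n := w) y
  have h1 : ContinuousAt (ψ i y) y :=
    (((h.sec i).hol y _ y he h0 hi).self_of_nhds.continuousAt.comp
      ((chartAt (Cm w) y).continuousAt he.2)).congr
      ((at_near he).mono fun x hx => congrArg (ψ i y) hx.left_inv)
  have h2 : Continuous fun s : Fin n → ℂ => hn (D.Q y) s := by
    unfold hn
    fun_prop
  refine (h2.continuousAt.comp h1).congr ?_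
  filter_upwards [(D.opn y).mem_nhds h0, lb_near hl hi] with x a b using (hN_eq h a b).symm

/-- the line on the covering -/
theorem line (hC : Hm.StCov) (h : Lin D l ψ) (hl : IsLB w l) (hU : IsOpen U) (hc : IsConnected U) :
    ∃ (C : Cv W.X U) (T : GV w C (Fin n)) (L : Ln T l), Lf.Free T ∧ (∀ g, L.lam g = 1) ∧
      ∀ i x, C.π x ∈ l.U i → L.h i x = hN D ψ i (C.π x) := by
  obtain ⟨C, T, b, b', h1, h2, h3, h4, h5, h6, -, h8⟩ := hC w n k W.X U D hU hc
  have hπ := (Hm.Br.loc C).continuous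
  have m := fun x => D.mem _ (C.mem x)
  have e1 : ∀ x s, cz (b x) *ᵥ cz (b' x) *ᵥ s = s := fun x s => by
    rw [mulVec_mulVec, ← cz_mul, (h2 x).1, cz_one, one_mulVec]
  have e2 : ∀ x s, T.gr x T.w *ᵥ cz (b' x) *ᵥ s = cz (b' x) *ᵥ D.Pr (C.π x) k (C.π x) *ᵥ s :=
    fun x s => by rw [h4, h1, ← mulVec_mulVec, ← mulVec_mulVec, e1]
  have e3 : ∀ i x, C.π x ∈ l.U i → T.gr x T.w *ᵥ cz (b' x) *ᵥ ψ i (C.π x) (C.π x) =
      cz (b' x) *ᵥ ψ i (C.π x) (C.π x) := fun i x hx => by rw [e2, (h.sec i).top _ _ (m x) hx]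
  refine ⟨C, T, ⟨hl, fun i x => cz (b' x) *ᵥ ψ i (C.π x) (C.π x), fun _ => 1, 1, one_pos,
    fun _ => one_pow _, fun i g x _ => ?_, fun i j x hi hj => ?_, fun i E _ _ _ _ f z hf hz => ?_⟩,
    fun g x hg => ?_, fun _ => rfl, fun i x hx => ?_⟩
  · rw [C.inv, h5, cz_mul, one_smul, mulVec_mulVec]
  · rw [h.chg i j _ _ (m x) hi hj, mulVec_smul]
  · have k0 := (hπ.continuousAt.comp hf.1.self_of_nhds).eventually (lb_near hl hz)
    refine ⟨h8 _ _ (hl.isOpen i) (h.sec i) E f z hf hz, fun c => h.ne i _ _ (m _) hz ?_,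
      k0.mono fun s hs => e3 i _ hs, ?_⟩
    · rw [← e1 (f z) (ψ i _ _), c, mulVec_zero]
    filter_upwards [lift_near hf, k0] with s k1 k2 v
    have he := at_chart (n := w) (C.π (f s))
    have k3 : ContinuousAt (fun t => C.π (f t)) s := hπ.continuousAt.comp k1.1.self_of_nhds
    have k4 : (fun t => cz (b' (f t)) *ᵥ ψ i (C.π (f t)) (C.π (f t))) =ᶠ[𝓝 s] fun t =>
        cz (b' (f s)) *ᵥ ψ i (C.π (f s)) ((chartAt (Cm w) (C.π (f s))).symm
          (chartAt (Cm w) (C.π (f s)) (C.π (f t)))) := by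
      filter_upwards [k1.1.self_of_nhds.eventually (h6 (f s) _ (m _)), k3.eventually (at_near he),
        k3.eventually ((D.opn _).mem_nhds (m _)), k3.eventually (lb_near hl k2)] with t a c d e
      rw [D.one _ _ (m _), mul_one] at a
      rw [c.left_inv, ← a, cz_mul, ← mulVec_mulVec]
      exact congrArg _ ((h.sec i).ch _ _ _ (m _) d e)
    have k5 := ((cz (b' (f s))).mulVecLin.toContinuousLinearMap.hasFDerivAt.comp s
      (((h.sec i).hol _ _ _ he (m _) k2).self_of_nhds.hasFDerivAt.comp s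
        k1.2.differentiableAt.hasFDerivAt)).fderiv
    obtain ⟨c, hc⟩ := h.one i _ _ _ (m (f s)) k2 he
      (fderiv ℂ (fun t => chartAt (Cm w) (C.π (f s)) (C.π (f t))) s v)
    refine ⟨c, ?_⟩
    rw [k4.fderiv_eq, ← mulVec_smul, ← hc, ← e2]
    exact congrArg _ (congrFun (congrArg DFunLike.coe k5) v)
  · have := h5 g x
    rw [hg] at this
    rw [← mul_one (T.ρ g), ← (h2 x).2, ← mul_assoc, ← this]
  · have k1 : gH T.Q T.w (T.gr x) *ᵥ cz (b' x) *ᵥ ψ i (C.π x) (C.π x) =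
        ((cz (b x))ᴴ * D.Q (C.π x) * cz (b x)) *ᵥ cz (b' x) *ᵥ ψ i (C.π x) (C.π x) := by
      conv_lhs => rw [← e3 i x hx, mulVec_mulVec, gH, Matrix.mul_assoc, (T.hs x).C_mul,
        Matrix.mul_smul, smul_mulVec, ← mulVec_mulVec, e3 i x hx, h3 x, smul_mulVec, smul_smul, h1,
        ← mul_pow, neg_one_mul, neg_neg, one_pow, one_smul]
    change Complex.re (star _ ⬝ᵥ _) = _
    rw [k1]
    exact (hn_conj _ _ _).trans (by rw [e1]; rfl)

/-- the pull back by a modification -/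
theorem back {μ : V.X → W.X} {Q : Set W.X} (hμ : Modif w μ Q) {U₁ : Set V.X}
    (hU : ∀ y, y ∈ U₁ ↔ μ y ∉ Q) {C : Cv W.X Qᶜ} {T : GV w C (Fin n)} (L : Ln T l)
    (hF : Lf.Free T) (h1 : ∀ g, L.lam g = 1) :
    ∃ (C₁ : Cv V.X U₁) (T₁ : GV w C₁ (Fin n)) (L₁ : Ln T₁ (pull μ l)), Lf.Free T₁ ∧
      (∀ g, L₁.lam g = 1) ∧ ∀ i x, ∃ x', C.π x' = μ (C₁.π x) ∧ L₁.h i x = L.h i x' := by
  obtain ⟨v, k1, k2, k3⟩ := hμ.inv
  have k4 : ∀ y ∉ Q, v y ∈ U₁ := fun y hy => (hU _).2 ((k1 y).symm ▸ hy)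
  have hO : IsOpen U₁ := by
    rw [show U₁ = μ ⁻¹' Qᶜ from Set.ext hU]
    exact hμ.thin.closed.isOpen_compl.preimage hμ.hol.cont
  let g : (Qᶜ : Set W.X) ≃ₜ U₁ :=
    { toFun := fun y => ⟨v y, k4 y y.2⟩
      invFun := fun x => ⟨μ x, (hU x).1 x.2⟩
      left_inv := fun y => Subtype.ext (k1 y)
      right_inv := fun x => Subtype.ext (k2 x ((hU x).1 x.2))
      continuous_toFun := (continuous_iff_continuousAt.2 fun y : (Qᶜ : Set W.X) =>
        (k3 y y.2).1.cont.comp continuous_subtype_val.continuousAt).subtype_mk _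
      continuous_invFun := (hμ.hol.cont.comp continuous_subtype_val).subtype_mk _ }
  have k5 : C.π ⁻¹' Qᶜ = univ := eq_univ_of_forall C.mem
  let C₁ : Cv V.X U₁ :=
    { X := C.X
      π := fun x => v (C.π x)
      cov := .of_isCoveringMap_subtype hO (fun x => k4 _ (C.mem x))
        ((C.cov.isCoveringMap_restrictPreimage.comp_homeomorph
          ((Homeomorph.setCongr k5).trans (Homeomorph.Set.univ _)).symm).homeomorph_comp g)
      mem := fun x => k4 _ (C.mem x)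
      surj := fun y hy => (C.surj _ ((hU y).1 hy)).imp fun x hx => by
        rw [hx, k2 y ((hU y).1 hy)]
      Γ := C.Γ
      csm := C.csm
      inv := fun g x => congrArg v (C.inv g x)
      tr := fun x x' e => C.tr x x' ((k1 _).symm.trans ((congrArg μ e).trans (k1 _))) }
  have k6 : ∀ (E : Type) [NormedAddCommGroup E] [NormedSpace ℂ E] (f : E → C.X) z,
      C₁.Lift w f z → C.Lift w f z := fun E _ _ f z hf => by
    have he := at_chart (n := w) (v (C.π (f z)))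
    have he' : At (chartAt (Cm w) (C.π (f z))) (μ (v (C.π (f z)))) := by
      rw [k1]
      exact at_chart _
    refine ⟨hf.1, (((hμ.hol.at _).an he he').fun_comp
      (f := fun s => chartAt (Cm w) (v (C.π (f z))) (v (C.π (f s)))) hf.2).congr ?_⟩
    filter_upwards [((Hm.Br.loc C₁).continuous.continuousAt.comp hf.1.self_of_nhds).eventually
      (at_near he)] with s hs
    exact congrArg _ ((congrArg μ hs.left_inv).trans (k1 _))
  have k7 : ∀ i (x : C.X), C₁.π x ∈ (pull μ l).U i → C.π x ∈ l.U i := fun i x hx => k1 (C.π x) ▸ hx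
  exact ⟨C₁, ⟨T.Q, T.w, T.gr, T.ρ, T.eqv, T.pQ, fun E _ _ _ _ f z hf => T.lv E f z (k6 E f z hf)⟩,
    ⟨hμ.hol.lb L.lb, L.ψ, L.lam, L.m, L.hm, L.pow, fun i g x hx => L.eqv i g x (k7 i x hx),
      fun i j x hi hj => (L.ch i j x (k7 i x hi) (k7 j x hj)).trans
        (congrArg (fun y => l.g i j y • L.ψ i x) (k1 _).symm),
      fun i E _ _ _ _ f z hf hz => L.ln i E f z (k6 E f z hf) (k7 i _ hz)⟩,
    hF, h1, fun i x => ⟨x, (k1 _).symm, rfl⟩⟩

end Vale.Agent.P281Z.Pk.Hl
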