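import Vale.Agent.P281Z.Pk.Lm
import Vale.Agent.P281Z.Pk.Lv0S

/-!
# P281Z, the canonical bundle formula: fibre integrals of products of forms
-/

open scoped Manifold ContDiff Topology ENNReal
open Set Filter MeasureTheory
open Vale.Agent.P272.K Vale.Agent.P285.H281.FD
open Vale.Agent.P277Z (Hol at_chart)
open Vale.Agent.P281Z.Hg (PC IsPC FibItg)

noncomputable section

namespace Vale.Agent.P281Z.Pk

open Lm Mg in
theorem itg_of (hN : NU) (hU : NUL) (hB : BIGO) : ITG := by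
  intro w d B C hE i y hy hQ _
  refine ⟨J_pos hN hB hE hy hQ, fun V t' s φ hV hyV _ ht hs h1 h2 => ?_⟩
  have hν := (hN _ _ _ B C hE i y hy hQ).1
  have hΩ : IsOpen (off C.G ∩ C.g ⁻¹' V) :=
    (Hyp.of_snc hE.snc).isOpen.inter (hV.preimage hE.hol.cont)
  have a0 : ∀ᵐ x ∂C.ν i y, (off C.G ∩ C.g ⁻¹' V).indicator φ x = φ x := by
    filter_upwards [R0.ae_O hU hB hE hy hQ, (hν.1 : ∀ᵐ x ∂C.ν i y, x ∈ C.g ⁻¹' {y})] with x a b
    exact indicator_of_mem (show x ∈ off C.G ∩ C.g ⁻¹' V from ⟨a.2, singleton_subset_iff.2 hyV b⟩) _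
  have m0 : Measurable ((off C.G ∩ C.g ⁻¹' V).indicator φ) := by
    classical
    rw [← piecewise_eq_indicator]
    exact ContinuousOn.measurable_piecewise (fun x hx => (h2 x hx.1 hx.2).continuousWithinAt)
      continuousOn_const hΩ.measurableSet
  have c : ∀ {u}, Tf (C.g ⁻¹' V) u → ∀ {q x}, IsPC C.g q → x ∈ q.2.source → C.g x = y →
      ContinuousAt (rl 1 (B.ch i) C.g u q) x := fun {u} hu q x hq hx e =>
    have k : C.g x ∈ V := e ▸ hyV
    (rl_hol (hE.hol.at x) (((hV.preimage hE.hol.cont).eventually_mem k).mono fun z hz c c' a b =>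
      by rw [pow_one, ← hu.chg c c' z hz a b]) (hu.hol _ x k (at_chart x)) hq hx
      (e ▸ hE.base.ch i y hy)).cont
  have r : ∀ q x, C.g x = y → x ∈ C.O i →
      rl 1 (B.ch i) C.g s q x = φ x * rl 1 (B.ch i) C.g t' q x ∧
      fmm 1 (C.O i) (B.ch i) C.g (C.t i) q x = ‖rl 1 (B.ch i) C.g t' q x‖ₑ ^ 2 ∧
      (off C.G ∩ C.g ⁻¹' V).indicator φ x = φ x := fun q x e hx => by
    have k : C.g x ∈ V := e ▸ hyV
    obtain ⟨b1, b2⟩ := h1 _ x k hx.2 (at_chart x)
    refine ⟨by rw [rl, rl, b1, b2, mul_assoc], ?_,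
      indicator_of_mem (show x ∈ off C.G ∩ C.g ⁻¹' V from ⟨hx.2, k⟩) _⟩
    rw [fmm, indicator_of_mem hx, rl, rl, b1, Nat.cast_one, div_one, ENNReal.rpow_two]
  have f2 : ∫⁻ x, ‖φ x‖ₑ ^ 2 ∂C.ν i y < ⊤ := by
    rw [← lintegral_congr_ae (a0.mono fun x hx => congrArg (‖·‖ₑ ^ 2) hx)]
    refine fin hν hE.hol (sbm hE hQ) (m0.enorm.pow_const 2)
      (H := fun q x => rl 1 (B.ch i) C.g s q x ^ 2) fun q x hq hx e => ⟨(c hs hq hx e).pow 2, ?_⟩
    by_cases k : x ∈ C.O i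
    · obtain ⟨b1, b2, b3⟩ := r q x e k
      rw [b1, b2, b3, enorm_pow, enorm_mul, mul_pow]
    · rw [fmm, indicator_of_notMem k, mul_zero]
      exact zero_le
  have f1 : Integrable φ (C.ν i y) := by
    refine ⟨m0.aestronglyMeasurable.congr a0, ?_⟩
    rw [HasFiniteIntegral, ← lintegral_congr_ae (a0.mono fun x hx => congrArg (‖·‖ₑ) hx)]
    refine fin hν hE.hol (sbm hE hQ) m0.enorm
      (H := fun q x => rl 1 (B.ch i) C.g s q x * rl 1 (B.ch i) C.g t' q x) fun q x hq hx e =>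
        ⟨(c hs hq hx e).mul (c ht hq hx e), ?_⟩
    by_cases k : x ∈ C.O i
    · obtain ⟨b1, b2, b3⟩ := r q x e k
      rw [b1, b2, b3, enorm_mul, enorm_mul, mul_assoc, sq]
    · rw [fmm, indicator_of_notMem k, mul_zero]
      exact zero_le
  refine ⟨fun ε hε => ?_, f1, fun I hI => itg hν hE.hol (sbm hE hQ)
    (fun q hq a => fmm_meas hE hq a) fmm_lt f1 (fun q hq a => ?_) hI⟩
  · obtain ⟨K, -, hK⟩ := R0.wt_le hE
    refine (lintegral_mono fun x => mul_le_mul_right (hK ε hε.le x) _).trans_lt ?_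
    rw [lintegral_mul_const' _ _ ENNReal.ofReal_ne_top]
    exact ENNReal.mul_lt_top f2 ENNReal.ofReal_lt_top
  · filter_upwards [slice hq a ((hB _ _ _ B C hE i).2 y hy hQ),
      ae_restrict_mem (par hq a).oT.measurableSet] with z b1 b2
    obtain ⟨b3, b4, -⟩ := r q _ ((par hq a).mem z b2).1 b1.1
    rw [b4, rf, rf, b3, ENNReal.toReal_pow, toReal_enorm, Complex.ofReal_pow, Complex.star_def,
      mul_left_comm, Complex.conj_mul', mul_comm]

end Vale.Agent.P281Z.Pk
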