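import Vale.Agent.P281Z.Pk.Rl
import Vale.Agent.P281Z.Pk.Reg0
import Vale.Agent.P281Z.Mf.Fib
import Vale.Agent.P271.H879.Null

/-!
# P281Z, the canonical bundle formula: integrals over the fibres
-/

open scoped Manifold ContDiff Topology ENNReal
open Set Filter MeasureTheory Metric
open Vale.Agent.P272.K Vale.Agent.P285.H281.FD
open Vale.Agent.P277Z (Hol)
open Vale.Agent.P281Z.Hg (PC IsPC FibItg)

noncomputable section

namespace Vale.Agent.P281Z.Pk.Lm

open Mg

variable {w e : ℕ} {X : Mf (w + e)} {W : Mf w} {g : X.X → W.X} {y : W.X} {q : PC w e X.X W.X}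
  {D : PC w e X.X W.X → X.X → ℝ≥0∞} {μ : Measure X.X} {O : Set X.X}

/-- the slice -/
abbrev sT (q : PC w e X.X W.X) (y : W.X) : Set (Cm e) := {z | (q.1 y, z) ∈ q.2.target}

/-- the parametrization of the fibre -/
abbrev sK (q : PC w e X.X W.X) (y : W.X) (z : Cm e) : X.X := q.2.symm (q.1 y, z)

theorem par (hq : IsPC g q) (hy : y ∈ q.1.source) :
    Par (g ⁻¹' {y}) q.2.source (sT q y) (sK q y) fun x => (q.2 x).2 := par_pc hq hy

theorem pou (hg : HolM (w + e) w g) (hs : ∀ x, g x = y → Sbm (w + e) w g x) :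
    ∃ (N : ℕ) (q : Fin N → PC w e X.X W.X) (ρ : Fin N → X.X → ℝ), (∀ i, IsPC g (q i)) ∧
      (∀ i, y ∈ (q i).1.source) ∧ (∀ i, Continuous (ρ i)) ∧
      (∀ i, tsupport (ρ i) ⊆ (q i).2.source) ∧ (∀ x, g x = y → ∑ i, ρ i x = 1) ∧
      ∀ i x, 0 ≤ ρ i x ∧ ρ i x ≤ 1 := by
  have hc : IsClosed (g ⁻¹' {y}) := isClosed_singleton.preimage hg.cont
  choose q h1 h2 h3 _ using fun x : g ⁻¹' {y} =>
    ex_pc (hg.at x) (hs x x.2) (P277Z.at_chart _) univ_mem
  obtain ⟨T, hT⟩ := hc.isCompact.elim_finite_subcover (fun x => (q x).2.source)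
    (fun x => (q x).2.open_source) fun x hx => mem_iUnion.2 ⟨⟨x, hx⟩, h3 _⟩
  obtain ⟨ρ, hρ⟩ := PartitionOfUnity.exists_isSubordinate hc
    (fun i => (q (T.equivFin.symm i)).2.source) (fun _ => (q _).2.open_source) fun x hx => by
      obtain ⟨a, ha, k⟩ := mem_iUnion₂.1 (hT hx)
      exact mem_iUnion.2 ⟨T.equivFin ⟨a, ha⟩, by rwa [Equiv.symm_apply_apply]⟩
  refine ⟨_, _, fun i => ρ i, fun _ => h1 _, fun i => ?_, fun i => (ρ i).continuous, hρ,
    fun x hx => (finsum_eq_sum_of_fintype _).symm.trans (ρ.sum_eq_one hx),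
    fun i x => ⟨ρ.nonneg i x, ρ.le_one i x⟩⟩
  have := (pc_at (h1 _) (h3 (T.equivFin.symm i))).2
  rwa [show g _ = y from (T.equivFin.symm i).1.2] at this

/-- big sets have full measure in the slices -/
theorem slice (hq : IsPC g q) (hy : y ∈ q.1.source) (h : FBig g y O) :
    ∀ᵐ z ∂volume.restrict (sT q y), sK q y z ∈ O := by
  have P := par hq hy
  rw [ae_restrict_iff' P.oT.measurableSet]
  refine measure_null_of_locally_null _ fun z hz => ?_
  have hz : z ∈ sT q y := (Classical.not_imp.1 hz).1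
  obtain ⟨a1, a2, a3⟩ := P.mem z hz
  obtain ⟨f, h1, h2, h3⟩ := h _ a1
  have k := P.cont.continuousAt (P.oT.mem_nhds hz)
  have h4 : AnalyticAt ℂ (fun z => f (sK q y z)) z := by
    simpa only [q.2.right_inv hz] using sl_an hq a2 h1
  obtain ⟨r, hr, h5⟩ := Metric.eventually_nhds_iff_ball.1 (h4.eventually_analyticAt.and
    ((k.eventually h3).and (P.oT.eventually_mem hz)))
  have h6 : ContinuousAt (fun x => (q.2 x).2) (sK q y z) := (q.2.continuousAt a2).snd
  obtain ⟨x, ⟨b1, b2⟩, b3, b4⟩ := (h2.and_eventually ((q.2.open_source.eventually_mem a2).and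
    (h6.eventually (p := (· ∈ ball z r)) (by beta_reduce; rw [a3]; exact ball_mem_nhds z hr)))).exists
  refine ⟨_, inter_mem_nhdsWithin _ (ball_mem_nhds z hr), measure_mono_null (fun v hv => ?_)
    (P271.H879.null_zeros volume (fun v hv => (h5 v hv).1.differentiableAt.differentiableWithinAt)
      b4 (by rwa [(P.inv x b1 b3).2]))⟩
  exact ⟨hv.2, by_contra fun k => hv.1 fun a => (h5 v hv.2).2.1 (P.mem v a).1 k⟩

theorem res (h : IsFm g y D μ) (hq : IsPC g q) (hy : y ∈ q.1.source)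
    (hD : AEMeasurable (fun z => D q (sK q y z)) (volume.restrict (sT q y))) :
    μ.restrict q.2.source =
      ((volume.restrict (sT q y)).withDensity fun z => D q (sK q y z)).map (sK q y) := by
  have P := par hq hy
  have k : AEMeasurable (sK q y) (volume.restrict (sT q y)) :=
    P.cont.aemeasurable P.oT.measurableSet
  refine Measure.ext_of_lintegral _ fun f hf => ?_
  rw [← lintegral_indicator P.oV.measurableSet, h.2 q hq hy _ (hf.indicator P.oV.measurableSet)
    fun x hx => indicator_of_notMem hx _, lintegral_map' hf.aemeasurable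
    (k.mono_ac (withDensity_absolutelyContinuous _ _)),
    lintegral_withDensity_eq_lintegral_mul₀ hD (g := fun z => f (sK q y z))
      (hf.comp_aemeasurable k)]
  exact setLIntegral_congr_fun P.oT.measurableSet fun z hz => by
    rw [indicator_of_mem (P.mem z hz).2.1, Pi.mul_apply, mul_comm]

theorem int_ch (h : IsFm g y D μ) (hq : IsPC g q) (hy : y ∈ q.1.source)
    (hD : AEMeasurable (fun z => D q (sK q y z)) (volume.restrict (sT q y)))
    (hD' : ∀ z, D q (sK q y z) < ⊤) {F : X.X → ℂ} (hF : AEStronglyMeasurable F μ)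
    (h0 : ∀ x ∉ q.2.source, F x = 0) :
    ∫ x, F x ∂μ = ∫ z in sT q y, (D q (sK q y z)).toReal • F (sK q y z) := by
  have P := par hq hy
  have k := res h hq hy hD
  rw [← setIntegral_eq_integral_of_forall_compl_eq_zero h0, k, integral_map
    ((P.cont.aemeasurable P.oT.measurableSet).mono_ac (withDensity_absolutelyContinuous _ _))
    (k ▸ hF.restrict), integral_withDensity_eq_integral_toReal_smul₀ hD (.of_forall hD')]

/-- densities which are dominated by continuous functions are integrable -/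
theorem fin (h : IsFm g y D μ) (hg : HolM (w + e) w g) (hs : ∀ x, g x = y → Sbm (w + e) w g x)
    {F : X.X → ℝ≥0∞} (hF : Measurable F) {H : PC w e X.X W.X → X.X → ℂ}
    (hH : ∀ q x, IsPC g q → x ∈ q.2.source → g x = y →
      ContinuousAt (H q) x ∧ F x * D q x ≤ ‖H q x‖ₑ) : ∫⁻ x, F x ∂μ < ⊤ := by
  obtain ⟨N, q, ρ, h1, h2, h3, h4, h5, h6⟩ := pou hg hs
  have m : ∀ i, Measurable fun x => ENNReal.ofReal (ρ i x) * F x := fun i =>
    (h3 i).measurable.ennreal_ofReal.mul hF
  rw [lintegral_congr_ae (g := fun x => ∑ i, ENNReal.ofReal (ρ i x) * F x)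
    ((show ∀ᵐ x ∂μ, x ∈ g ⁻¹' {y} from h.1).mono fun x hx => by
      simp only [← Finset.sum_mul, ← ENNReal.ofReal_sum_of_nonneg fun i _ => (h6 i x).1, h5 x hx,
        ENNReal.ofReal_one, one_mul]), lintegral_finsetSum _ fun i _ => m i]
  refine ENNReal.sum_lt_top.2 fun i _ => ?_
  have P := par (h1 i) (h2 i)
  have hK : IsCompact ((fun x => ((q i).2 x).2) '' (tsupport (ρ i) ∩ g ⁻¹' {y})) :=
    ((isClosed_tsupport _).inter (isClosed_singleton.preimage hg.cont)).isCompact.image_of_continuousOn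
      ((q i).2.continuousOn.mono fun x hx => h4 i hx.1).snd
  have hT : _ ⊆ sT (q i) y := image_subset_iff.2 fun x (hx : x ∈ tsupport (ρ i) ∩ g ⁻¹' {y}) =>
    (P.inv x hx.2 (h4 i hx.1)).1
  rw [h.2 _ (h1 i) (h2 i) _ (m i) fun x hx => by
    rw [image_eq_zero_of_notMem_tsupport fun k => hx (h4 i k), ENNReal.ofReal_zero, zero_mul],
    lint_sub P.oT.measurableSet hK.measurableSet hT fun z hz hz' => by
      rw [image_eq_zero_of_notMem_tsupport fun k => hz' ⟨_, ⟨k, (P.mem z hz).1⟩, (P.mem z hz).2.2⟩,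
        ENNReal.ofReal_zero, zero_mul, zero_mul]]
  have k := fun z hz => hH _ _ (h1 i) (P.mem z (hT hz)).2.1 (P.mem z (hT hz)).1
  refine (setLIntegral_mono' hK.measurableSet fun z hz => ?_).trans_lt
    (ContinuousOn.integrableOn_compact hK (f := fun z => H (q i) (sK (q i) y z)) fun z hz =>
      (k z hz).1.comp_continuousWithinAt (f := sK (q i) y) ((P.cont z (hT hz)).mono hT)).2
  rw [mul_assoc]
  exact (mul_le_of_le_one_left' (ENNReal.ofReal_le_one.2 (h6 i _).2)).trans (k z hz).2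

/-- the integral of a density is the integral for the measure -/
theorem itg (h : IsFm g y D μ) (hg : HolM (w + e) w g) (hs : ∀ x, g x = y → Sbm (w + e) w g x)
    (hD : ∀ q, IsPC g q → y ∈ q.1.source →
      AEMeasurable (fun z => D q (sK q y z)) (volume.restrict (sT q y)))
    (hD' : ∀ q x, D q x < ⊤) {φ : X.X → ℂ} (hφ : Integrable φ μ) {F : PC w e X.X W.X → Cm e → ℂ}
    (hF : ∀ q, IsPC g q → y ∈ q.1.source → ∀ᵐ z ∂volume.restrict (sT q y),
      F q z = (D q (sK q y z)).toReal * φ (sK q y z)) {I : ℂ} (hI : FibItg g y F I) :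
    I = ∫ x, φ x ∂μ := by
  obtain ⟨N, q, ρ, h1, h2, h3, h4, h5, h6⟩ := pou hg hs
  have m : ∀ i, Integrable (fun x => (ρ i x : ℂ) * φ x) μ := fun i =>
    hφ.bdd_mul (c := 1) (Complex.continuous_ofReal.comp (h3 i)).aestronglyMeasurable
      (.of_forall fun x => by rw [Complex.norm_of_nonneg (h6 i x).1]; exact (h6 i x).2)
  rw [← hI N q ρ h1 h2 h3 h4 h5, integral_congr_ae (g := fun x => ∑ i, (ρ i x : ℂ) * φ x)
    ((show ∀ᵐ x ∂μ, x ∈ g ⁻¹' {y} from h.1).mono fun x hx => by
      simp only [← Finset.sum_mul, ← Complex.ofReal_sum, h5 x hx, Complex.ofReal_one, one_mul]),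
    integral_finsetSum _ fun i _ => m i]
  refine Finset.sum_congr rfl fun i _ => ?_
  rw [int_ch h (h1 i) (h2 i) (hD _ (h1 i) (h2 i)) (fun _ => hD' _ _) (m i).1 fun x hx => by
    rw [image_eq_zero_of_notMem_tsupport fun k => hx (h4 i k), Complex.ofReal_zero, zero_mul]]
  refine integral_congr_ae ((hF _ (h1 i) (h2 i)).mono fun z hz => ?_)
  simp only [hz, Complex.real_smul, mul_left_comm]

variable {m : ℕ} {B : Bs w} {E : Et B e m} {i : B.l.ι} {y : B.W.X} {q : PC w e E.X.X B.W.X}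

theorem O_open (hE : E.Geo) (i : B.l.ι) : IsOpen (E.O i) :=
  (((hE.base.lb.isOpen i).sdiff hE.thin₀.closed).preimage hE.hol.cont).inter
    (Hyp.of_snc hE.snc).isOpen

theorem sbm (hE : E.Geo) (hQ : y ∉ E.Q) (x : E.X.X) (hx : E.g x = y) : Sbm (w + e) w E.g x :=
  (hE.reg y hQ).sbm hE.hol hE.snc hx

theorem fmm_lt (q : PC w e E.X.X B.W.X) (x : E.X.X) :
    fmm m (E.O i) (B.ch i) E.g (E.t i) q x < ⊤ :=
  (indicator_le_self _ _ x).trans_lt
    (ENNReal.rpow_lt_top_of_nonneg (by positivity) enorm_ne_top)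

theorem fmm_meas (hE : E.Geo) (hq : IsPC E.g q) (hy : y ∈ q.1.source) :
    AEMeasurable (fun z => fmm m (E.O i) (B.ch i) E.g (E.t i) q (sK q y z))
      (volume.restrict (sT q y)) := by
  have P := par hq hy
  have h1 := P.cont.isOpen_inter_preimage P.oT (O_open hE i)
  refine (((aemeasurable_indicator_iff h1.measurableSet).2 (ContinuousOn.aemeasurable
    (f := fun z => rl m (B.ch i) E.g (E.t i) q (sK q y z)) (fun z hz => ?_)
      h1.measurableSet)).enorm.pow_const (2 / m : ℝ)).congr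
    ((ae_restrict_mem P.oT.measurableSet).mono fun z hz => ?_)
  · exact (rl_hol (hE.hol.at _) (((O_open hE i).eventually_mem hz.2).mono fun x hx c c' =>
      hE.tchg i c c' x hx) (hE.thol i _ _ hz.2 (P277Z.at_chart _)) hq (P.mem z hz.1).2.1
      (hE.base.ch i _ hz.2.1.1)).cont.comp_continuousWithinAt (f := sK q y)
        ((P.cont z hz.1).mono inter_subset_left)
  · by_cases k : sK q y z ∈ E.O i
    · simp only [fmm, indicator_of_mem k,
        indicator_of_mem (show z ∈ sT q y ∩ sK q y ⁻¹' E.O i from ⟨hz, k⟩)]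
    · simp only [fmm, indicator_of_notMem k, enorm_zero,
        indicator_of_notMem fun a : z ∈ sT q y ∩ sK q y ⁻¹' E.O i => k a.2]
      exact ENNReal.zero_rpow_of_pos (div_pos two_pos (Nat.cast_pos.2 hE.pos))

/-- the fibres have a positive mass -/
theorem J_pos (hN : NU) (hB : BIGO) (hE : E.Geo) (hy : y ∈ B.l.U i) (hQ : y ∉ E.Q) :
    0 < E.J i 0 y := by
  obtain ⟨x, rfl⟩ := hE.onto y hQ
  obtain ⟨q, hq, -, hx, -⟩ := ex_pc (hE.hol.at x) (sbm hE hQ x rfl) (P277Z.at_chart _) univ_mem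
  have a := (pc_at hq hx).2
  have P := par hq a
  rw [R0.J_zero, pos_iff_ne_zero, Ne, Measure.measure_univ_eq_zero]
  intro h0
  have h1 := (hN _ _ _ B E hE i _ hy hQ).1.2 q hq a (q.2.source.indicator 1)
    (measurable_one.indicator P.oV.measurableSet) fun x hx => indicator_of_notMem hx _
  rw [h0, lintegral_zero_measure, setLIntegral_congr_fun P.oT.measurableSet
    (g := fun z => fmm m (E.O i) (B.ch i) E.g (E.t i) q (sK q (E.g x) z)) fun z hz => by
      rw [indicator_of_mem (P.mem z hz).2.1, Pi.one_apply, one_mul], eq_comm,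
    lintegral_eq_zero_iff' (fmm_meas hE hq a)] at h1
  have h2 : ∀ᵐ z ∂volume.restrict (sT q (E.g x)), False := by
    filter_upwards [h1, slice hq a ((hB _ _ _ B E hE i).2 _ hy hQ),
      ae_restrict_mem P.oT.measurableSet] with z b1 b2 b3
    rw [fmm, indicator_of_mem b2.1, Pi.zero_apply, ENNReal.rpow_eq_zero_iff_of_pos
      (div_pos two_pos (Nat.cast_pos.2 hE.pos)), enorm_eq_zero] at b1
    exact (rl_ne hq (P.mem z b3).2.1 (hE.base.ch i _ b2.1.1.1)).2 b2.2 b1
  rw [eventually_false_iff_eq_bot, ae_eq_bot, Measure.restrict_eq_zero] at h2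
  exact (P.oT.measure_pos _ ⟨_, (P.inv x rfl hx).1⟩).ne' h2

end Vale.Agent.P281Z.Pk.Lm
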