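import Vale.Agent.P281Z.Pk.Sk
import Vale.Agent.P281Z.Md.All
import Vale.Agent.P281Z.Nt.Down

/-!
# P281Z, the canonical bundle formula: the pull back of the forms (PLG, PLS)
-/

open scoped Manifold ContDiff Topology ENNReal
open Set Filter Function
open Vale.Agent.P272.K Vale.Agent.P285.H281.FD
open Vale.Agent.P277Z (Hol Nz at_chart)
open Vale.Agent.P277Z.Slc (Ind LEq Snc isLB_can)
open Vale.Agent.P277Z.Hir (Cpb)

set_option linter.unusedSectionVars false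

noncomputable section

namespace Vale.Agent.P281Z.Pk

open Md

namespace Pl

section gen

variable {n : ℕ} {X X₁ : Type} [TopologicalSpace X] [ChartedSpace (Cm n) X]
  [TopologicalSpace X₁] [ChartedSpace (Cm n) X₁]

theorem dfM_det (u : X₁ → X) (c : Chart n X₁) (c' : Chart n X) (x : X₁) :
    (dfM u c c' x).det = mn (fun z => c' (u z)) c id x := by
  have h := minor_eq (f := u) (e := c) (e' := c') (x := x) id
  rw [Matrix.submatrix_id_id] at h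
  exact h.symm

theorem cpb_unit {T : Type} [TopologicalSpace T] {x : T} {c : T → ℂ} (hc : ContinuousAt c x)
    (h0 : c x ≠ 0) {f g : T → ℝ} (hg : ∀ y, 0 ≤ g y) (h : ∀ᶠ y in 𝓝 x, f y = ‖c y‖ * g y) :
    Cpb (𝓝 x) f g := by
  have h1 : 0 < ‖c x‖ := norm_pos_iff.2 h0
  have hA := hc.norm.tendsto
  generalize ‖c x‖ = A at hA h1
  refine ⟨2 * A + 2 / A, by positivity, ?_⟩
  filter_upwards [hA.eventually_const_lt (half_lt_self h1),
    hA.eventually_lt_const (lt_two_mul_self h1), h] with t a b e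
  rw [e]
  generalize ‖c t‖ = B at a b
  have k1 : 1 ≤ (2 * A + 2 / A) * B := by
    have : 2 / A * (A / 2) = 1 := by field_simp
    nlinarith [div_pos two_pos h1]
  exact ⟨mul_le_mul_of_nonneg_right (by linarith [div_pos two_pos h1]) (hg t),
    by rw [← mul_assoc]; exact le_mul_of_one_le_left (hg t) k1⟩

variable [IsManifold 𝓘(ℂ, Cm n) ω X] [IsManifold 𝓘(ℂ, Cm n) ω X₁]

theorem jac_ne {e e' : Chart n X} {x : X} (he : At e x) (he' : At e' x) : (jacM e e' x).det ≠ 0 :=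
  (isLB_can (n := n) (W := X)).ne_zero e e' x he he'

/-- log pluricanonical forms pull back, locally -/
theorem bdP_pull {m : ℕ} {u : X₁ → X} {κ κ₁ : Type} [Fintype κ] [Fintype κ₁] {G : κ → Set X}
    {δ : κ → ℚ} {G₁ : κ₁ → Set X₁} {δ₁ : κ₁ → ℚ} (hu : HolM n n u) (hG : Snc n G) (hG₁ : Snc n G₁)
    (hδ : ∀ l, δ l ≤ 1) (hL : LogM n u G δ G₁ δ₁) {O : Set X} {s : Chart n X → X → ℂ}
    (h : SecP n n id O ((Bd.can n X).pow m) G (fun l => m * (δ l : ℝ)) s) (hO : IsOpen O) {y : X₁}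
    (hy : u y ∈ O) {e₁ : Chart n X₁} (he : At e₁ y) :
    BdP n id G₁ (fun l => m * (δ₁ l : ℝ)) (pb u m s e₁) y := fun ζ₁ hζ₁ => by
  have h1 := ten_of h
  have hc := at_chart (n := n) (u y)
  set c := chartAt (Cm n) (u y)
  have h2 : ∀ᶠ z in 𝓝 (u y), z ∈ off G → Hol n (s c) z := by
    filter_upwards [at_near hc, hO.mem_nhds hy] with z a b k using h1.hol c z a ⟨b, k⟩
  have h3 : ∀ᶠ z in 𝓝 (u y), ‖s c z‖ = ‖s c (c.symm (c z))‖ ∧
      ∃ᶠ v in 𝓝 (c z), ContinuousAt (fun v => ‖s c (c.symm v)‖) v := by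
    filter_upwards [at_near hc, h2.eventually_nhds] with z a b
    exact ⟨by rw [a.left_inv], (c.continuousAt a.2).tendsto.frequently
      (((mem_closure_iff_frequently.1 (snc_dense_off hG z)).and_eventually ((at_near a).and b)).mono
        fun z' k => (k.2.2 k.1 c k.2.1).continuousAt.norm)⟩
  refine (lb_one.1 (pull_bd (T := fun v => ‖s c (c.symm v)‖) jac hu hG hG₁ hδ hL (anV_chart hc)
    (gn_off hG _) Subset.rfl (gn_off hG₁ y) Subset.rfl hL.sub h2 h3 (ca_of hc)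
    (fun ζ hζ => lb_one.2 fun I => Bnd.mul (h.bd _ _ hy hc ζ hζ)
      (bnd_cont ((hol_mn (ca_of hc) (anV_chart hc) I).cont.norm.pow m))
      (fun _ => by positivity) fun _ => pow_nonneg (norm_nonneg _) m) (ca_of he) hζ₁) id).mono ?_
  filter_upwards [pb_ev h1 (hu.at y) he hc, hu.cont.continuousAt.eventually (hO.mem_nhds hy)]
    with z k a hz
  refine ⟨hz, le_of_eq ?_⟩
  rw [k ⟨a, hL.sub z hz⟩, norm_mul, norm_pow, mul_right_comm]
  rfl

end gen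

theorem open_O {w e m : ℕ} {B : Bs w} {E : Et B e m} (h : E.Geo) (i : B.l.ι) : IsOpen (E.O i) :=
  (((h.base.lb.isOpen i).sdiff h.thin₀.closed).preimage h.hol.cont).inter (snc_open_off h.snc)

theorem ten {w e m : ℕ} {B : Bs w} {E : Et B e m} (h : E.Geo) (i : B.l.ι) :
    Ten m (E.O i) (E.t i) :=
  ⟨fun c x a b => h.thol i c x b a, fun c c' x a a' b => h.tchg i c c' x b a a'⟩

variable {w e m : ℕ} {M M₁ : Fb (w + e) w} {d : Ed M m} {u : M₁.X.X → M.X.X} {v : M₁.Y.X → M.Y.X}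
  {Q₁ : Set M₁.Y.X}

variable (d u v Q₁) in
/-- the hypotheses -/
structure Cx : Prop where
  ok : M.Ok
  ok₁ : M₁.Ok
  sq : M₁.Sq M u v
  geo : d.E.Geo
  thin : Thin w Q₁
  gd : ∀ y ∉ Q₁, v y ∉ d.Q ∧ Imm w w v y ∧ RegAt (w + e) w M₁.f M₁.G y

variable (d v) in
/-- the Jacobian determinant of `v` -/
def jv (i : d.l.ι × Chart w M₁.Y.X) (x : M₁.X.X) : ℂ := (dfM v i.2 (d.ch i.1) (M₁.f x)).det

theorem t_eq (i : d.l.ι × Chart w M₁.Y.X) (c : Chart (w + e) M₁.X.X) (x : M₁.X.X) :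
    (d.pull M₁ u v Q₁).t i c x = (jv d v i x)⁻¹ ^ m * pb u m (d.t i.1) c x := by
  rw [pb, ← dfM_det, mul_left_comm, ← mul_pow, mul_comm _⁻¹, ← div_eq_mul_inv]
  rfl

namespace Cx

variable (h : Cx d u v Q₁) {i : d.l.ι × Chart w M₁.Y.X} {x : M₁.X.X}

include h

theorem wu : WM (w + e) u := h.sq.mu.elim fun _ k => wm_of k

theorem wv : WM w v := h.sq.mv.elim fun _ k => wm_of k

theorem hf : HolM (w + e) w M.f := h.ok.fibn.hol

theorem hf₁ : HolM (w + e) w M₁.f := h.ok₁.fibn.hol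

theorem imm (hx : x ∈ off M₁.G) : Imm (w + e) (w + e) u x := by_contra fun k =>
  let ⟨l, _, a⟩ := h.sq.log.exc x k
  hx l a

theorem memU (hx : M₁.f x ∈ (d.pull M₁ u v Q₁).l.U i) : M.f (u x) ∈ d.l.U i.1 :=
  (h.sq.comm x).symm ▸ hx.1

theorem notQ (hx : M₁.f x ∉ Q₁) : M.f (u x) ∉ d.Q := (h.sq.comm x).symm ▸ (h.gd _ hx).1

theorem memO (hx : x ∈ (d.pull M₁ u v Q₁).E.O i) : u x ∈ d.E.O i.1 :=
  ⟨⟨h.memU hx.1.1, h.notQ hx.1.2⟩, h.sq.log.sub x hx.2⟩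

omit h in
theorem mem_O₁ {y : M₁.Y.X} (hy : y ∈ (d.pull M₁ u v Q₁).l.U i) (hQ : y ∉ Q₁) (hx : M₁.f x = y)
    (k : x ∈ off M₁.G) : x ∈ (d.pull M₁ u v Q₁).E.O i := by
  subst hx
  exact ⟨⟨hy, hQ⟩, k⟩

/-- the fibre over `y` is the preimage of the fibre over `v y` -/
theorem fib {y : M₁.Y.X} (hy : y ∉ Q₁) : M.f (u x) = v y ↔ M₁.f x = y :=
  ⟨fun k => h.wv.one _ _ (h.gd y hy).2.1 ((h.sq.comm x).symm.trans k),
    fun k => k ▸ h.sq.comm x⟩

theorem lb : IsLB w (d.pull M₁ u v Q₁).l where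
  isOpen i := ((h.geo.base.lb.isOpen i.1).preimage h.wv.hol.cont).inter (isLB_can.isOpen i.2)
  cover y := (h.geo.base.lb.cover (v y)).elim fun i k => ⟨(i, chartAt (Cm w) y), k, at_chart y⟩
  holo i j c y a b b' := (h.wv.hol.lb h.geo.base.lb).holo i.1 j.1 c y a b.1 b'.1
  ne_zero i j y b b' := h.geo.base.lb.ne_zero i.1 j.1 (v y) b.1 b'.1
  cocycle i j k y a b c := h.geo.base.lb.cocycle i.1 j.1 k.1 (v y) a.1 b.1 c.1

theorem open_O₁ (i : d.l.ι × Chart w M₁.Y.X) : IsOpen ((d.pull M₁ u v Q₁).E.O i) :=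
  (((h.lb.isOpen i).sdiff h.thin.closed).preimage h.hf₁.cont).inter (snc_open_off h.ok₁.snc)

theorem jv_hol (hx : M₁.f x ∈ (d.pull M₁ u v Q₁).l.U i) : Hol (w + e) (jv d v i) x :=
  h.hf₁.hol (a := fun y => (dfM v i.2 (d.ch i.1) y).det)
    (hol_det (hol_dfM (h.wv.hol.at _) hx.2 (h.geo.base.ch i.1 _ hx.1)))

theorem jv_ne (hx : M₁.f x ∈ (d.pull M₁ u v Q₁).l.U i) (hQ : M₁.f x ∉ Q₁) : jv d v i x ≠ 0 :=
  (imm_iff_det (h.wv.hol.at _) hx.2 (h.geo.base.ch i.1 _ hx.1)).1 (h.gd _ hQ).2.1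

theorem ten_pb (i : d.l.ι × Chart w M₁.Y.X) :
    Ten m ((d.pull M₁ u v Q₁).E.O i) (pb u m (d.t i.1)) :=
  (ten h.geo i.1).pb (open_O h.geo i.1) fun x k => ⟨h.memO k, h.wu.hol.at x⟩

theorem ten₁ (i : d.l.ι × Chart w M₁.Y.X) :
    Ten m ((d.pull M₁ u v Q₁).E.O i) ((d.pull M₁ u v Q₁).t i) := by
  refine ⟨fun c x a b => ?_, fun c c' x a a' b => ?_⟩
  · rw [funext (t_eq i c)]
    exact (((h.jv_hol b.1.1).inv (h.jv_ne b.1.1 b.1.2)).pow m).mul ((h.ten_pb i).hol c x a b)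
  · rw [t_eq, t_eq, (h.ten_pb i).chg c c' x a a' b, mul_left_comm]

/-- the zeros of the pull back -/
theorem t_ne (hx : x ∈ (d.pull M₁ u v Q₁).E.O i) {c : Chart (w + e) M₁.X.X} (hc : At c x)
    {c' : Chart (w + e) M.X.X} (hc' : At c' (u x)) :
    (d.pull M₁ u v Q₁).t i c x ≠ 0 ↔ d.t i.1 c' (u x) ≠ 0 := by
  rw [t_eq, pb_eq (ten h.geo i.1) (h.memO hx) (h.wu.hol.at x) hc hc', ← dfM_det,
    mul_ne_zero_iff_left (pow_ne_zero m (inv_ne_zero (h.jv_ne hx.1.1 hx.1.2))),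
    mul_ne_zero_iff_right (pow_ne_zero m ((imm_iff_det (h.wu.hol.at x) hc hc').1 (h.imm hx.2)))]

theorem freq_off (hQ : M₁.f x ∉ Q₁) : ∃ᶠ z in 𝓝 x, z ∈ off M₁.G ∧ M₁.f z = M₁.f x :=
  Nt.reg_freq h.hf₁ h.ok₁.snc (h.gd _ hQ).2.2

theorem geo₁ (kX : M₁.X.Kah) (kY : M₁.Y.Kah) : (d.pull M₁ u v Q₁).E.Geo where
  pos := h.geo.pos
  base := ⟨h.ok₁.connY, kY, h.lb, fun _ _ k => k.2⟩
  kah := kX
  hol := h.hf₁
  snc := h.ok₁.snc
  thin₀ := h.thin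
  thin := h.thin
  sub := Subset.rfl
  reg y hy := (h.gd y hy).2.2
  onto y _ := h.ok₁.fibn.surj y
  thol i c x a b := (h.ten₁ i).hol c x b a
  tchg i c c' x a b b' := (h.ten₁ i).chg c c' x b b' a
  lchg i j c x a a' b := by
    have k1 := h.geo.lchg i.1 j.1 _ (u x) (h.memO a) (h.memO a') (at_chart (u x))
    have c1 := h.geo.base.ch i.1 _ a.1.1.1
    have c2 := h.geo.base.ch j.1 _ a'.1.1.1
    have k2 := congrArg Matrix.det (dfM_chg' (h.wv.hol.at (M₁.f x)) a'.1.1.2 c1 c2)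
    have k3 := congrArg Matrix.det (dfM_chg (h.wv.hol.at (M₁.f x)) a'.1.1.2 a.1.1.2 c1)
    have k4 := jac_ne c1 c2
    have k5 := jac_ne a.1.1.2 a'.1.1.2
    have k6 : (dfM v j.2 (d.ch i.1) (M₁.f x)).det ≠ 0 :=
      (imm_iff_det (h.wv.hol.at _) a'.1.1.2 c1).1 (h.gd _ a.1.2).2.1
    rw [Matrix.det_mul] at k2 k3
    change d.t j.1 _ (u x) * (_ / (dfM v j.2 (d.ch j.1) (M₁.f x)).det) ^ m =
      d.l.g i.1 j.1 (v (M₁.f x)) * (jacM i.2 j.2 (M₁.f x)).det ^ m *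
        (d.t i.1 _ (u x) * (_ / (dfM v i.2 (d.ch i.1) (M₁.f x)).det) ^ m)
    change d.t j.1 _ (u x) = d.l.g i.1 j.1 (M.f (u x)) *
      (jacM (d.ch i.1) (d.ch j.1) (M.f (u x))).det ^ m * d.t i.1 _ (u x) at k1
    rw [k1, h.sq.comm, k2, k3]
    simp only [div_pow, mul_pow]
    field_simp
  den i c x a b := by
    have hc := at_chart (n := w + e) (u x)
    obtain ⟨k, α, β, k1, k2⟩ := h.geo.den i.1 _ (u x) (h.memU a) hc
    refine ⟨k, fun j z => α j (u z) * jv d v i z ^ m, fun j z => β j (u z) *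
      mn (fun z => chartAt (Cm (w + e)) (u x) (u z)) c id z ^ m, fun j =>
        ⟨(h.wu.hol.hol (k1 j).1).mul ((h.jv_hol a).pow m), (h.wu.hol.hol (k1 j).2).mul
          ((hol_mn (ca_of b) ((h.wu.hol.at x).anV hc) id).pow m)⟩, ?_⟩
    filter_upwards [h.wu.hol.cont.continuousAt.eventually k2,
      pb_ev (ten h.geo i.1) (h.wu.hol.at x) b hc] with z a1 a2 hz
    have a3 := pow_ne_zero m (h.jv_ne hz.1.1 hz.1.2)
    obtain ⟨⟨j, a4⟩, a5⟩ := a1 (h.memO hz)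
    refine ⟨⟨j, mul_ne_zero a4 a3⟩, fun j => ?_⟩
    refine (congrArg (_ * ·) (t_eq i c z)).trans ?_
    rw [a2 (h.memO hz), ← a5 j, inv_pow]
    field_simp
  ne i c x a hQ b := by
    refine frequently_frequently_nhds.1 (((h.freq_off hQ).and_eventually (at_near b)).mono ?_)
    rintro z ⟨⟨a1, a2⟩, a3⟩
    have hz : z ∈ (d.pull M₁ u v Q₁).E.O i := mem_O₁ a hQ a2 a1
    have hc := at_chart (n := w + e) (u z)
    refine (((imm_iff_sbm.1 (h.imm a1)).freq (h.wu.hol.at z) (h.geo.ne i.1 _ (u z) (h.memU hz.1.1)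
      (h.notQ hz.1.2) hc)).and_eventually (((h.open_O₁ i).eventually_mem hz).and ((at_near a3).and
        (h.wu.hol.cont.continuousAt.eventually (at_near hc))))).mono ?_
    rintro y ⟨⟨b1, -, b2⟩, b3, b4, b5⟩
    exact ⟨(h.fib hQ).1 (b1.trans ((h.fib hQ).2 a2)), b3, (h.t_ne b3 b4 b5).2 b2⟩
  cont := h.geo.cont.comp h.wu.hol.cont
  cpb x ζ₁ hζ₁ := by
    obtain ⟨ζ, hζ, -⟩ := h.ok.snc (u x)
    obtain ⟨r, C, c1, c2⟩ := h.geo.cpb (u x) ζ hζ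
    obtain ⟨a, c, k1, k2, k3⟩ := Nt.Hp.mon (b := fun z => ∏ l, ζ l (u z) ^ r l) h.ok₁.snc hζ₁
      (Hol.prod _ fun l _ => (h.wu.hol.hol (hζ l).hol).pow _) (by
        filter_upwards [h.wu.hol.cont.continuousAt.eventually (ne_off hζ)] with z a b
        exact Finset.prod_ne_zero_iff.2 fun l _ => pow_ne_zero _ (a (h.sq.log.sub z b) l))
    refine ⟨a, FibmH.cpb_trans ⟨C, c1, h.wu.hol.cont.continuousAt.eventually c2⟩
      (cpb_unit k1.cont k2 (fun _ => by positivity) (k3.mono fun z b => ?_))⟩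
    simpa only [norm_mul, norm_prod, norm_pow] using congrArg norm b

theorem sec (hs : d.Sec) : (d.pull M₁ u v Q₁).Sec := fun i => by
  refine ⟨fun c x a b k => (h.ten₁ i).hol c x b ⟨a, k⟩,
    fun c c' x a b b' k => (h.ten₁ i).chg c c' x b b' ⟨a, k⟩, fun c x a b => ?_⟩
  have k1 := bdP_pull h.wu.hol h.ok.snc h.ok₁.snc (fun l => (h.ok.bdry l).2) h.sq.log (hs i.1)
    (((h.geo.base.lb.isOpen i.1).sdiff h.geo.thin.closed).preimage h.hf.cont)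
    (y := x) ⟨h.memU a.1, h.notQ a.2⟩ b
  exact (k1.cmul (((h.jv_hol a.1).inv (h.jv_ne a.1 a.2)).pow m).cont).congr
    (.of_forall fun z _ => t_eq i c z)

end Cx

end Pl

/-- **PLG** -/
theorem plg : PLG := fun _ _ _ _ _ _ _ _ _ a b c kX kY g t r =>
  Pl.Cx.geo₁ ⟨a, b, c, g, t, r⟩ kX kY

/-- **PLS** -/
theorem pls : PLS := fun _ _ _ _ _ _ _ _ _ a b c _ _ g t r => Pl.Cx.sec ⟨a, b, c, g, t, r⟩

end Vale.Agent.P281Z.Pk
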