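import Vale.Agent.P281Z.Pk.Sk

/-!
# P281Z, the canonical bundle formula: the weight
-/

open scoped Manifold ContDiff Topology
open Set Filter
open Vale.Agent.P272.K Vale.Agent.P285.H281.FD
open Vale.Agent.P277Z (Hol)
open Vale.Agent.P277Z.Slc (LEq Snc)
open Vale.Agent.P277Z.Hir (Cpb)

noncomputable section

namespace Vale.Agent.P281Z.Pk

namespace Rho

variable {X : Type} [TopologicalSpace X]

/-- `f` is `g` times a positive continuous function -/
def Un (x : X) (f g : X → ℝ) : Prop :=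
  ∃ a : X → ℝ, ContinuousAt a x ∧ 0 < a x ∧ ∀ᶠ y in 𝓝 x, f y = a y * g y

theorem Un.cpb {x : X} {f g : X → ℝ} (h : Un x f g) (hg : ∀ y, 0 ≤ g y) : Cpb (𝓝 x) f g := by
  obtain ⟨a, h1, h2, h3⟩ := h
  obtain ⟨C, k1, k2⟩ := bdd_near h1
  obtain ⟨D, k3, k4⟩ := bdd_near (h1.inv₀ h2.ne')
  refine ⟨C + D, by positivity, ?_⟩
  filter_upwards [h3, k2, k4, h1.eventually (lt_mem_nhds h2)] with y m1 m2 m3 m4
  rw [m1]
  refine ⟨mul_le_mul_of_nonneg_right (by linarith) (hg y), ?_⟩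
  rw [← mul_assoc]
  refine le_mul_of_one_le_left (hg y) ((inv_le_iff_one_le_mul₀ m4).1 ?_)
  exact m3.trans (by linarith)

theorem glue [T2Space X] [CompactSpace X] {ι : Type} (W : ι → X → ℝ) (P : X → ι → Prop)
    (ex : ∀ x, ∃ i, ∀ᶠ y in 𝓝 x, P y i) (cont : ∀ x i, P x i → ContinuousAt (W i) x)
    (unit : ∀ x i j, P x i → P x j → Un x (W i) (W j)) :
    ∃ ρ : X → ℝ, Continuous ρ ∧ ∀ x i, P x i → Un x ρ (W i) := by
  classical
  choose s hs using ex
  obtain ⟨f, hf⟩ := PartitionOfUnity.exists_isSubordinate isClosed_univ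
    (fun x => interior {y | P y (s x)}) (fun _ => isOpen_interior)
    fun x _ => mem_iUnion.2 ⟨x, mem_interior_iff_mem_nhds.2 (hs x)⟩
  have hP : ∀ i, ∀ x ∈ tsupport (f i), P x (s i) :=
    fun i x hx => interior_subset (s := {y | P y (s i)}) (hf i hx)
  refine ⟨fun y => ∑ᶠ i, f i y • W (s i) y,
    f.continuous_finsum_smul fun i x hx => cont x _ (hP i x hx), fun x j hj => ?_⟩
  choose! a h1 h2 h3 using fun i (hi : i ∈ f.fintsupport x) =>
    unit x _ j (hP i x ((f.mem_fintsupport_iff x i).1 hi)) hj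
  obtain ⟨i, hi⟩ := f.exists_pos (mem_univ x)
  have hi' := (f.mem_fintsupport_iff x i).2 (subset_tsupport _ hi.ne')
  refine ⟨fun y => ∑ i ∈ f.fintsupport x, f i y * a i y, tendsto_finsetSum _ fun i m =>
    (f i).continuous.continuousAt.mul (h1 i m), Finset.sum_pos'
      (fun i m => mul_nonneg (f.nonneg i x) (h2 i m).le) ⟨i, hi', mul_pos hi (h2 i hi')⟩, ?_⟩
  filter_upwards [f.eventually_finsupport_subset x, (eventually_all_finset _).2 h3] with y m1 m2
  rw [finsum_eq_sum_of_support_subset (s := f.fintsupport x) _ fun i m =>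
    m1 ((f.mem_finsupport y).2 (left_ne_zero_of_smul m)), Finset.sum_mul]
  exact Finset.sum_congr rfl fun i m => by rw [m2 i m, smul_eq_mul, mul_assoc]

end Rho

/-- **RHO** -/
theorem rho : RHO := fun n p M hG => by
  obtain ⟨ρ, h1, h2⟩ := Rho.glue
    (fun (ζ : M.κ → M.X.X → ℂ) y => ∏ l, ‖ζ l y‖ ^ (if 0 < M.δ l then 1 else 0 : ℕ))
    (fun x ζ => ∀ l, LEq n (M.G l) x (ζ l))
    (fun x => (Hyp.of_snc hG x).imp fun ζ k => eventually_all.2 fun l => (k l).near)
    (fun x ζ k => tendsto_finsetProd _ fun l _ => (k l).hol.cont.norm.pow _) fun x ζ ξ k k' => by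
      choose w m1 m2 m3 using fun l => leq_unit (k' l) (k l)
      refine ⟨fun y => ∏ l, ‖w l y‖ ^ (if 0 < M.δ l then 1 else 0 : ℕ),
        tendsto_finsetProd _ fun l _ => (m1 l).cont.norm.pow _,
        Finset.prod_pos fun l _ => pow_pos (norm_pos_iff.2 (m2 l)) _, ?_⟩
      filter_upwards [eventually_all.2 m3] with y m
      simp only [m, norm_mul, mul_pow, Finset.prod_mul_distrib]
  exact ⟨ρ, h1, fun x ζ k => (h2 x ζ k).cpb fun y => by positivity⟩

end Vale.Agent.P281Z.Pk
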