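import Vale.Agent.P281Z.Sc.L2

/-!
# P281Z, the canonical bundle formula: integrals of monomials on polydiscs
-/

open scoped Topology ENNReal
open Set Filter Function Metric MeasureTheory
open Vale.Agent.P272.K

noncomputable section

namespace Vale.Agent.P281Z.Pk.Up

variable {n : ℕ}

/-- the integral of `|z|^a` over a disc -/
def Dc (a δ : ℝ) : ℝ≥0∞ := ∫⁻ z in ball (0 : ℂ) δ, ENNReal.ofReal (‖z‖ ^ a)

theorem Dc_eq {a δ : ℝ} (ha : -2 < a) (hδ : 0 < δ) :
    Dc a δ = ENNReal.ofReal (2 * Real.pi * (δ ^ (a + 2) / (a + 2))) := by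
  have h1 : IntegrableOn (fun z : ℂ => ‖z‖ ^ a) (ball 0 δ) :=
    integrableOn_ball_of_norm_le_rpow (C := 1) (α := -a) (by simp) (by simpa using neg_lt.2 ha)
      (.of_forall fun z => by simp [abs_of_nonneg (Real.rpow_nonneg (norm_nonneg z) _)])
      (measurable_norm.pow_const _).aestronglyMeasurable
  have h2 := integral_fun_norm_addHaar (volume : Measure ℂ) ((Iio δ).indicator fun t : ℝ => t ^ a)
  have h3 : ∫ y in Ioi (0 : ℝ), y ^ (2 - 1) • (Iio δ).indicator (fun t : ℝ => t ^ a) y =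
      δ ^ (a + 2) / (a + 2) := by
    have h4 := integral_rpow (a := 0) (b := δ) (r := a + 1) (.inl (by linarith))
    rw [Real.zero_rpow (by linarith), sub_zero, add_assoc, one_add_one_eq_two,
      intervalIntegral.integral_of_le hδ.le, integral_Ioc_eq_integral_Ioo, ← Ioi_inter_Iio,
      ← setIntegral_indicator measurableSet_Iio] at h4
    rw [← h4]
    refine setIntegral_congr_fun measurableSet_Ioi fun y hy => ?_
    by_cases h : y ∈ Iio δ
    · simp [indicator_of_mem h, Real.rpow_add_one (ne_of_gt hy), mul_comm]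
    · simp [indicator_of_notMem h]
  rw [Complex.finrank_real_complex, h3] at h2
  rw [Dc, ← ofReal_integral_eq_lintegral_ofReal h1 (.of_forall fun z => by positivity),
    ← integral_indicator measurableSet_ball]
  refine congrArg _ ((integral_congr_ae (.of_forall fun z => ?_)).trans (h2.trans ?_))
  · simp [indicator]
  · simp [Measure.real, mul_assoc]

theorem Dc_mono {a a' δ : ℝ} (h : a ≤ a') (hδ : δ ≤ 1) : Dc a' δ ≤ Dc a δ := by
  refine lintegral_mono_ae ?_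
  filter_upwards [ae_restrict_mem measurableSet_ball, ae_restrict_of_ae (Measure.ae_ne _ 0)]
    with z h1 h2 using ENNReal.ofReal_le_ofReal (Real.rpow_le_rpow_of_exponent_ge
      (norm_pos_iff.2 h2) ((mem_ball_zero_iff.1 h1).le.trans hδ) h)

theorem Dc_low {δ η : ℝ} (hδ : 0 < δ) (h1 : δ ≤ 1) (hη : 0 < η) {R : ℝ} (hR : η ≤ R) :
    ENNReal.ofReal (δ ^ R / η) ≤ Dc (-2 + η) δ := by
  rw [Dc_eq (by linarith) hδ, show -2 + η + 2 = η by ring]
  refine ENNReal.ofReal_le_ofReal ((div_le_div_of_nonneg_right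
    (Real.rpow_le_rpow_of_exponent_ge hδ h1 hR) hη.le).trans (le_mul_of_one_le_left
      (by positivity) (by linarith [Real.two_le_pi])))

theorem lt_of_Dc {a δ : ℝ} (hδ : 0 < δ) (h1 : δ ≤ 1) (h : Dc a δ ≠ ⊤) : -2 < a := by
  by_contra! c
  obtain ⟨N, hN⟩ := exists_nat_gt ((Dc a δ).toReal / δ)
  have h2 : (0 : ℝ) < N + 1 := by positivity
  have h3 := (ENNReal.ofReal_le_iff_le_toReal h).1 ((Dc_low hδ h1 (inv_pos.2 h2)
    (inv_le_one_of_one_le₀ (by linarith : (1 : ℝ) ≤ N + 1))).trans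
      (Dc_mono (by linarith [inv_pos.2 h2]) h1))
  rw [Real.rpow_one, div_inv_eq_mul] at h3
  rw [div_lt_iff₀ hδ] at hN
  nlinarith

theorem lint_prod (μ : Measure ℂ) [SigmaFinite μ] (f : Fin n → ℂ → ℝ≥0∞)
    (hf : ∀ i, Measurable (f i)) :
    ∫⁻ x : Fin n → ℂ, ∏ i, f i (x i) ∂(Measure.pi fun _ : Fin n => μ) = ∏ i, ∫⁻ z, f i z ∂μ := by
  induction n with
  | zero => simp
  | succ n ih =>
    rw [((measurePreserving_piFinSuccAbove (fun _ : Fin (n + 1) => μ) 0).symm).lintegral_map_equiv]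
    simp_rw [MeasurableEquiv.piFinSuccAbove_symm_apply, Fin.insertNthEquiv,
      Fin.prod_univ_succ, Fin.insertNth_zero]
    simp only [Equiv.coe_fn_mk, Fin.cons_succ, Fin.cons_zero, cast_eq]
    refine (lintegral_prod_mul (μ := μ) (ν := Measure.pi fun _ : Fin n => μ) (f := f 0)
      (g := fun x : Fin n → ℂ => ∏ i : Fin n, f i.succ (x i)) (hf 0).aemeasurable
      (Finset.measurable_prod _ fun (i : Fin n) _ =>
        (hf i.succ).comp (measurable_pi_apply i)).aemeasurable).trans ?_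
    rw [ih (fun i => f i.succ) fun i => hf _]

variable {α : Type} [Fintype α]

/-- monomials on a polydisc -/
theorem poly (j : α ↪ Fin n) {δ : ℝ} (hδ : 0 < δ) : ∃ K : ℝ≥0∞, K ≠ 0 ∧ K ≠ ⊤ ∧ ∀ γ : α → ℝ,
    ∫⁻ z in ball (0 : Cm n) δ, ENNReal.ofReal (∏ a, ‖z (j a)‖ ^ γ a) = K * ∏ a, Dc (γ a) δ := by
  classical
  have h0 := Dc_eq (a := 0) (by norm_num) hδ
  refine ⟨∏ _i ∈ (Finset.univ.map j)ᶜ, Dc 0 δ, Finset.prod_ne_zero_iff.2 fun _ _ => ?_,
    ENNReal.prod_ne_top fun _ _ => h0 ▸ ENNReal.ofReal_ne_top, fun γ => ?_⟩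
  · rw [h0]
    exact (ENNReal.ofReal_pos.2 (by positivity)).ne'
  have h1 := lint_prod (volume.restrict (ball (0 : ℂ) δ))
    (fun i z => ENNReal.ofReal (‖z‖ ^ extend j γ 0 i))
    fun i => (measurable_norm.pow_const _).ennreal_ofReal
  have h2 : ∀ i ∈ (Finset.univ.map j)ᶜ, extend j γ 0 i = 0 := fun i hi =>
    extend_apply' _ _ _ (by simpa using hi)
  rw [← Measure.restrict_pi_pi] at h1
  rw [ball_pi _ hδ]
  refine (lintegral_congr fun z => ?_).trans (h1.trans ?_)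
  · rw [← ENNReal.ofReal_prod_of_nonneg fun _ _ => by positivity,
      ← Finset.prod_mul_prod_compl (Finset.univ.map j), Finset.prod_map,
      Finset.prod_eq_one (s := (Finset.univ.map j)ᶜ) fun i hi => by rw [h2 i hi, Real.rpow_zero]]
    simp only [j.injective.extend_apply, mul_one]
  · rw [← Finset.prod_mul_prod_compl (Finset.univ.map j), Finset.prod_map, mul_comm]
    simp only [j.injective.extend_apply]
    exact congrArg (· * _) (Finset.prod_congr rfl fun i hi => by rw [h2 i hi, Dc])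

theorem cor1 {K : ℝ≥0∞} (hK : K ≠ 0) {γ δ : ℝ} {r : ℕ} (hδ : 0 < δ) (h1 : δ ≤ 1)
    (h : ∀ ε ∈ Ioc (0 : ℝ) 1, K * Dc (γ + r * ε) δ < ⊤) : -2 < γ ∨ γ = -2 ∧ 0 < r := by
  have h2 : ∀ ε ∈ Ioc (0 : ℝ) 1, -2 < γ + r * ε := fun ε hε =>
    lt_of_Dc hδ h1 fun c => by simpa [c, ENNReal.mul_top hK] using h ε hε
  have h3 : -2 ≤ γ := by
    have c : Tendsto (fun ε : ℝ => γ + r * ε) (𝓝[>] 0) (𝓝 (γ + r * 0)) :=
      (Continuous.tendsto (by fun_prop) 0).mono_left nhdsWithin_le_nhds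
    simpa using ge_of_tendsto c
      (mem_of_superset (Ioc_mem_nhdsGT one_pos) fun ε hε => (h2 ε hε).le)
  refine h3.lt_or_eq.imp id fun e => ⟨e.symm, Nat.pos_of_ne_zero fun c => ?_⟩
  simpa [c, e] using h2 1 ⟨one_pos, le_rfl⟩

theorem cor2 {κ : Type} (T : Finset κ) {K : ℝ≥0∞} (hK : K ≠ 0) {δ k h : ℝ} {r : κ → ℕ}
    (hδ : 0 < δ) (h1 : δ ≤ 1) (hr : ∀ l ∈ T, 0 < r l) {J : ℝ → ℝ≥0∞}
    (hJ : ∀ ε ∈ Ioc (0 : ℝ) 1, K * ∏ l ∈ T, Dc (-2 + r l * ε) δ ≤ J ε ∧ J ε < ⊤)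
    (ht : Tendsto (fun ε : ℝ => ε ^ k * (J ε).toReal) (𝓝[>] 0) (𝓝 h)) : (T.card : ℝ) ≤ k := by
  by_contra! c
  obtain ⟨K', k1, k2⟩ : ∃ K' : ℝ, 0 < K' ∧ ENNReal.ofReal K' ≤ K := by
    obtain ⟨s, -, s1, s2⟩ := ENNReal.lt_iff_exists_real_btwn.1 (pos_iff_ne_zero.2 hK)
    exact ⟨s, ENNReal.ofReal_pos.1 s1, s2.le⟩
  have k3 : 0 < K' * ∏ l ∈ T, δ ^ (r l : ℝ) / r l :=
    mul_pos k1 (Finset.prod_pos fun l hl => by have := hr l hl; positivity)
  refine not_tendsto_atTop_of_tendsto_nhds ht (tendsto_atTop_mono' _ ?_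
    ((tendsto_rpow_neg_nhdsGT_zero (sub_neg.2 c)).const_mul_atTop k3))
  filter_upwards [Ioc_mem_nhdsGT one_pos] with ε hε
  have k4 : ENNReal.ofReal (K' * ∏ l ∈ T, δ ^ (r l : ℝ) / (r l * ε)) ≤ J ε := by
    have := hε.1
    rw [ENNReal.ofReal_mul k1.le, ENNReal.ofReal_prod_of_nonneg fun _ _ => by positivity]
    refine le_trans (mul_le_mul' k2 (Finset.prod_le_prod' fun l hl => Dc_low hδ h1 ?_ ?_))
      (hJ ε hε).1
    · have := hr l hl
      positivity
    · exact mul_le_of_le_one_right (Nat.cast_nonneg _) hε.2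
  refine le_trans (le_of_eq ?_) (mul_le_mul_of_nonneg_left
    ((ENNReal.ofReal_le_iff_le_toReal (hJ ε hε).2.ne).1 k4) (Real.rpow_nonneg hε.1.le _))
  simp only [← div_div, Finset.prod_div_distrib (g := fun _ => ε), Finset.prod_const,
    Real.rpow_sub hε.1, Real.rpow_natCast]
  ring

omit [Fintype α] in
/-- the bound for a function which vanishes on the deep strata -/
theorem bound (j : α ↪ Fin n) {b : Cm n → ℂ} (hb : AnalyticAt ℂ b 0) (I : Finset α) {k : ℝ}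
    (hT : ∀ T ⊆ I, k < T.card → ∀ᶠ z in 𝓝 (0 : Cm n), (∀ a ∈ T, z (j a) = 0) → b z = 0) :
    ∃ L : ℝ, 0 < L ∧ ∀ᶠ z in 𝓝 (0 : Cm n), ‖b z‖ ≤ L ∧ (b z ≠ 0 → ∃ T ⊆ I, (T.card : ℝ) ≤ k ∧
      ∀ a ∈ I, a ∉ T → ‖b z‖ ≤ L * ‖z (j a)‖) := by
  classical
  obtain ⟨L, t, ht, hL⟩ := ((hb.contDiffAt (n := 1)).restrict_scalars ℝ).exists_lipschitzOnWith
  obtain ⟨C, hC, h1⟩ := bdd_near hb.continuousAt.norm
  obtain ⟨δ, hδ, h2⟩ := Metric.eventually_nhds_iff_ball.1 ((show ∀ᶠ z in 𝓝 (0 : Cm n), z ∈ t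
    from ht).and ((eventually_all_finset (I.powerset.filter fun T => k < T.card)).2 fun T hT' =>
      hT T (Finset.mem_powerset.1 (Finset.mem_filter.1 hT').1) (Finset.mem_filter.1 hT').2))
  have hM : 0 < C + L := by positivity
  refine ⟨C + L, hM, ?_⟩
  filter_upwards [h1, ball_mem_nhds 0 hδ] with z z1 z2
  refine ⟨z1.trans (le_add_of_nonneg_right L.2), fun z3 =>
    ⟨I.filter fun a => (C + L) * ‖z (j a)‖ < ‖b z‖, Finset.filter_subset _ _, ?_,
      fun a ha ha' => not_lt.1 fun c => ha' (Finset.mem_filter.2 ⟨ha, c⟩)⟩⟩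
  set T := I.filter fun a => (C + L) * ‖z (j a)‖ < ‖b z‖
  by_contra! c
  let z' : Cm n := fun i => if i ∈ T.map j then 0 else z i
  have z4 : z' ∈ ball (0 : Cm n) δ := mem_ball_zero_iff.2 (lt_of_le_of_lt
    ((pi_norm_le_iff_of_nonneg (norm_nonneg z)).2 fun i => by
      dsimp only [z']
      split_ifs
      · simp
      · exact norm_le_pi_norm z i) (mem_ball_zero_iff.1 z2))
  have z5 := (h2 z' z4).2 T (Finset.mem_filter.2 ⟨Finset.mem_powerset.2 (Finset.filter_subset _ _),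
    c⟩) fun a ha => if_pos (Finset.mem_map_of_mem j ha)
  have z6 := hL.dist_le_mul z (h2 z z2).1 z' (h2 z' z4).1
  have z7 : dist z z' < ‖b z‖ / (C + L) :=
    (dist_pi_lt_iff (div_pos (norm_pos_iff.2 z3) hM)).2 fun i => by
      dsimp only [z']
      split_ifs with h
      · obtain ⟨a, ha, rfl⟩ := Finset.mem_map.1 h
        rw [dist_zero_right, lt_div_iff₀' hM]
        exact (Finset.mem_filter.1 ha).2
      · simpa using div_pos (norm_pos_iff.2 z3) hM
  rw [z5, dist_zero_right] at z6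
  rw [lt_div_iff₀' hM] at z7
  nlinarith [dist_nonneg (x := z) (y := z')]

/-- the order of the pole is at most `k` -/
theorem upper (j : α ↪ Fin n) {b : Cm n → ℂ} (hb : AnalyticAt ℂ b 0) {γ : α → ℝ} {r : α → ℕ}
    {s k : ℝ} (hs : 0 < s) (hγ : ∀ a, -2 < γ a ∨ γ a = -2 ∧ 0 < r a)
    (hT : ∀ T : Finset α, (∀ a ∈ T, γ a = -2) → k < T.card →
      ∀ᶠ z in 𝓝 (0 : Cm n), (∀ a ∈ T, z (j a) = 0) → b z = 0) :
    ∃ U ∈ 𝓝 (0 : Cm n), ∃ C : ℝ≥0∞, C ≠ ⊤ ∧ ∀ ε ∈ Ioc (0 : ℝ) 1, ENNReal.ofReal (ε ^ k) *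
      ∫⁻ z in U, ENNReal.ofReal (‖b z‖ ^ s * ∏ a, ‖z (j a)‖ ^ (γ a + r a * ε)) ≤ C := by
  classical
  let I : Finset α := Finset.univ.filter fun a => γ a = -2
  have hI : ∀ a, a ∈ I ↔ γ a = -2 := fun a => by simp [I]
  obtain ⟨L, hL, h1⟩ := bound j hb I fun T h => hT T fun a ha => (hI a).1 (h ha)
  obtain ⟨K, -, hK, h2⟩ := poly j one_pos
  obtain ⟨U, hU, hUo, hU0⟩ := _root_.eventually_nhds_iff.1
    (h1.and (ball_mem_nhds (0 : Cm n) one_pos))
  obtain ⟨η, hη, hη'⟩ : ∃ η : ℝ, 0 < η ∧ η * Fintype.card α ≤ s :=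
    ⟨s / (Fintype.card α + 1), by positivity, by
      rw [div_mul_eq_mul_div, div_le_iff₀ (by positivity)]
      nlinarith⟩
  let S := I.powerset.filter fun T => (T.card : ℝ) ≤ k
  let g : Finset α → α → ℝ := fun T a => if a ∈ I \ T then η else 0
  let c : Finset α → α → ℝ := fun T a => 2 * Real.pi / if a ∈ T then 1 else γ a + g T a + 2
  refine ⟨U, hUo.mem_nhds hU0, ∑ T ∈ S, ENNReal.ofReal (L ^ s) * (K * ∏ a, ENNReal.ofReal (c T a)),
    ENNReal.sum_ne_top.2 fun _ _ => ENNReal.mul_ne_top ENNReal.ofReal_ne_top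
      (ENNReal.mul_ne_top hK (ENNReal.prod_ne_top fun _ _ => ENNReal.ofReal_ne_top)),
    fun ε hε => ?_⟩
  have h3 : ∫⁻ z in U, ENNReal.ofReal (‖b z‖ ^ s * ∏ a, ‖z (j a)‖ ^ (γ a + r a * ε)) ≤
      ∫⁻ z in ball (0 : Cm n) 1, ∑ T ∈ S, ENNReal.ofReal (L ^ s) *
        ENNReal.ofReal (∏ a, ‖z (j a)‖ ^ (g T a + (γ a + r a * ε))) := by
    refine le_trans (lintegral_mono_ae ?_) (lintegral_mono_set fun z hz => (hU z hz).2)
    filter_upwards [ae_restrict_mem hUo.measurableSet, ae_restrict_of_ae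
      (ae_all_iff.2 fun a => Measure.ae_eval_ne (fun _ => volume) (j a) 0)] with z z1 z2
    by_cases z3 : b z = 0
    · simp [z3, Real.zero_rpow hs.ne']
    obtain ⟨T, t1, t2, t3⟩ := (hU z z1).1.2 z3
    refine le_trans ?_ (Finset.single_le_sum (f := fun T => ENNReal.ofReal (L ^ s) *
      ENNReal.ofReal (∏ a, ‖z (j a)‖ ^ (g T a + (γ a + r a * ε)))) (fun _ _ => zero_le)
        (Finset.mem_filter.2 ⟨Finset.mem_powerset.2 t1, t2⟩ : T ∈ S))
    rw [← ENNReal.ofReal_mul (by positivity), wt_add (ζ := fun a (z : Cm n) => z (j a)) z2 (g T),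
      ← mul_assoc]
    refine ENNReal.ofReal_le_ofReal (mul_le_mul_of_nonneg_right ?_ (by positivity))
    have z4 : 0 < ‖b z‖ / L := div_pos (norm_pos_iff.2 z3) hL
    rw [← div_le_iff₀' (by positivity), ← Real.div_rpow (norm_nonneg _) hL.le]
    calc (‖b z‖ / L) ^ s ≤ (‖b z‖ / L) ^ ∑ a, g T a :=
          Real.rpow_le_rpow_of_exponent_ge z4 ((div_le_one hL).2 (hU z z1).1.1) (le_trans
            ((Finset.sum_le_card_nsmul _ _ η fun a _ => by
              dsimp only [g]; split_ifs; exacts [le_rfl, hη.le]).trans_eq (by simp [mul_comm])) hη')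
      _ ≤ _ := by
          rw [Real.rpow_sum_of_pos z4]
          refine Finset.prod_le_prod (fun _ _ => by positivity) fun a _ => ?_
          dsimp only [g]
          split_ifs with h
          · exact Real.rpow_le_rpow z4.le ((div_le_iff₀' hL).2
              (t3 a (Finset.mem_sdiff.1 h).1 (Finset.mem_sdiff.1 h).2)) hη.le
          · simp
  refine (mul_le_mul_right h3 _).trans ?_
  rw [lintegral_finsetSum _ fun T _ => by fun_prop, Finset.mul_sum]
  refine Finset.sum_le_sum fun T hT' => ?_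
  obtain ⟨t1, t2⟩ := Finset.mem_filter.1 hT'
  rw [lintegral_const_mul' _ _ ENNReal.ofReal_ne_top, h2, mul_left_comm, mul_left_comm _ K]
  refine mul_le_mul_right (mul_le_mul_right ?_ _) _
  have h4 : ε ^ k ≤ ∏ a, if a ∈ T then ε else 1 := by
    rw [Finset.prod_ite_mem_eq, Finset.prod_const, ← Real.rpow_natCast]
    exact Real.rpow_le_rpow_of_exponent_ge hε.1 hε.2 t2
  refine (mul_le_mul_left (ENNReal.ofReal_le_ofReal h4) _).trans ?_
  rw [ENNReal.ofReal_prod_of_nonneg fun _ _ => by split_ifs; exacts [hε.1.le, zero_le_one],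
    ← Finset.prod_mul_distrib]
  refine Finset.prod_le_prod' fun a _ => ?_
  have h5 : 0 ≤ r a * ε := mul_nonneg (Nat.cast_nonneg _) hε.1.le
  by_cases ha : a ∈ T
  · have h6 := (hI a).1 (Finset.mem_powerset.1 t1 ha)
    have h7 : (1 : ℝ) ≤ r a := by exact_mod_cast ((hγ a).resolve_left (by simp [h6])).2
    have h8 : ε ≤ r a * ε := le_mul_of_one_le_left hε.1.le h7
    have h9 : g T a = 0 := if_neg fun c => (Finset.mem_sdiff.1 c).2 ha
    rw [if_pos ha, h9, h6, Dc_eq (by linarith [hε.1]) one_pos, ← ENNReal.ofReal_mul hε.1.le]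
    refine ENNReal.ofReal_le_ofReal ?_
    simp only [c, if_pos ha, Real.one_rpow, div_one]
    rw [mul_left_comm, mul_one_div]
    exact mul_le_of_le_one_right Real.two_pi_pos.le ((div_le_one (by linarith [hε.1])).2
      (by linarith))
  · have h6 : 0 < γ a + g T a + 2 := by
      dsimp only [g]
      split_ifs with h
      · linarith [(hI a).1 (Finset.mem_sdiff.1 h).1]
      · linarith [(hγ a).resolve_right fun c => h (Finset.mem_sdiff.2 ⟨(hI a).2 c.1, ha⟩)]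
    rw [if_neg ha, ENNReal.ofReal_one, one_mul, Dc_eq (by linarith) one_pos]
    refine ENNReal.ofReal_le_ofReal ?_
    simp only [c, if_neg ha, Real.one_rpow]
    rw [mul_one_div]
    exact div_le_div_of_nonneg_left Real.two_pi_pos.le h6 (by linarith)

end Vale.Agent.P281Z.Pk.Up
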